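import Vale.Agent.P130.Defs
import Vale.Agent.P110.Arcs

/-! Moduli, colours and disjoint arcs. -/

namespace Vale.Agent.P130

open Finset
open Vale.Agent.P110
open Vale.Agent.P110.Arcs

namespace Arc

theorem arc_elim {L P R k : ℕ} (hL : 0 < L) (hP : 0 < P) (hR : 0 < R) (X : ℤ) (β lam t : ℝ)
    (hβ : β = X / (P * L * R)) (hlam : lam = 1 / (P * L * R)) (h : arc L β (k * lam) t) :
    ∃ (z : ℤ) (a : ℝ), 0 ≤ a ∧ a < k ∧ P * L * R * t = X + R * (P * z) + a := by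
  have a1 : (0 : ℝ) < L := by exact_mod_cast hL
  have a2 : (0 : ℝ) < P := by exact_mod_cast hP
  have a3 : (0 : ℝ) < R := by exact_mod_cast hR
  unfold arc at h
  refine ⟨⌊L * (t - β)⌋, P * R * Int.fract (L * (t - β)), mul_nonneg (by positivity)
    (Int.fract_nonneg _), ?_, ?_⟩
  · have h1 := mul_lt_mul_of_pos_left h (show (0 : ℝ) < P * R by positivity)
    have h2 : (P : ℝ) * R * (L * (k * lam)) = k := by rw [hlam]; field_simp
    linarith
  · have h1 := Int.floor_add_fract ((L : ℝ) * (t - β))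
    have h2 : (P : ℝ) * R * (L * β) = X := by rw [hβ]; field_simp
    linear_combination h2 - (P : ℝ) * R * h1

theorem core {S : Type} [Fintype S] [DecidableEq S] (k : S → ℕ) (μ : S → ℤ) (P : S → ℕ)
    (R J : ℕ) (Ω : Finset (ℤ × ℤ)) (x : ℤ × ℤ → S → ℤ) (col : S → Ω → ℕ)
    (D : S → ℤˣ → S → ℤˣ → Prop)
    (hJ : ∀ m, 2 * k m ≤ J) (hP0 : ∀ m, 0 < P m)
    (hP : ∀ m n, m ≠ n → Nat.Coprime (P m) (P n)) (hkP : ∀ m, IsCoprime (k m : ℤ) (P m : ℤ))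
    (hR : 0 < R)
    (hdiv : ∀ w ∈ Ω, ∀ m, (R : ℤ) ∣ k m * w.1 + μ m * w.2 - x w m)
    (hwrap : ∀ w ∈ Ω, ∀ m, 2 * (|x w m| + J) < R)
    (hsep : ∀ w ∈ Ω, ∀ w' ∈ Ω, ∀ (m m' : S) (σ σ' : ℤˣ), D m σ m' σ' → ∀ z : ℤ,
      (J : ℤ) < |(σ : ℤ) * x w m - (σ' : ℤ) * x w' m' - R * z|)
    (hcol : ∀ m w, col m w < P m)
    (hcol2 : ∀ m w w', w ≠ w' → col m w = col m w' → (k m : ℤ) ≤ |x w m - x w' m|) :
    ∃ v : Ω → ℝ × ℝ, ∀ (τ : ℝ) (m m' : S) (σ σ' : ℤˣ) (s s' : Ω),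
      arc (cof P m) (k m * (v s).1 + μ m * (v s).2) (k m * (1 / ((∏ n, P n : ℕ) * R : ℝ)))
        ((σ : ℤ) * τ) →
      arc (cof P m') (k m' * (v s').1 + μ m' * (v s').2) (k m' * (1 / ((∏ n, P n : ℕ) * R : ℝ)))
        ((σ' : ℤ) * τ) →
      (m = m' → σ = σ' → s = s') ∧ ¬ D m σ m' σ' := by
  choose q hq using hdiv
  have hU : ∀ w : Ω, ∃ U : ℤ, ∀ m, (P m : ℤ) ∣ k m * U - (col m w - q w w.2 m) :=
    fun w => crt P hP (fun m => (k m : ℤ)) hkP _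
  choose U hU using hU
  choose r hr using hU
  obtain ⟨G, hG⟩ : ∃ G : ℝ, G = ((∏ n, P n : ℕ) * R : ℝ) := ⟨_, rfl⟩
  have hGm : ∀ m, G = P m * cof P m * R := fun m => by
    rw [hG, ← mul_cof P m]; push_cast; rfl
  rw [← hG]
  refine ⟨fun w => (((U w * R + (w : ℤ × ℤ).1 : ℤ) : ℝ) / G, (((w : ℤ × ℤ).2 : ℤ) : ℝ) / G), ?_⟩
  have key : ∀ (t : ℝ) (m : S) (w : Ω),
      arc (cof P m) (k m * (((U w * R + (w : ℤ × ℤ).1 : ℤ) : ℝ) / G) +
        μ m * ((((w : ℤ × ℤ).2 : ℤ) : ℝ) / G)) (k m * (1 / G)) t →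
      ∃ (z : ℤ) (a : ℝ), 0 ≤ a ∧ a < k m ∧
        G * t = ((x w m + R * (col m w + P m * z) : ℤ) : ℝ) + a := by
    intro t m w h
    have h0 : (k m : ℤ) * (U w * R + (w : ℤ × ℤ).1) + μ m * (w : ℤ × ℤ).2 =
        x w m + R * (col m w + P m * r w m) := by
      linear_combination hq w w.2 m + (R : ℤ) * hr w m
    obtain ⟨z, a, h1, h2, h3⟩ := arc_elim (L := cof P m) (prod_pos fun n _ => hP0 n) (hP0 m) hR
      (x w m + R * (col m w + P m * r w m)) _ _ t (by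
        rw [← h0, ← hGm m]
        push_cast
        ring) (by rw [← hGm m]) h
    refine ⟨r w m + z, a, h1, h2, ?_⟩
    rw [hGm m]
    refine h3.trans ?_
    push_cast
    ring
  intro τ m m' σ σ' s s' h h'
  obtain ⟨z, a, a0, a1, ha⟩ := key _ m s h
  obtain ⟨z', a', b0, b1, hb⟩ := key _ m' s' h'
  constructor
  · rintro rfl rfl
    by_contra hne
    obtain ⟨Y, hY⟩ : ∃ Y : ℤ, Y = (col m s : ℤ) - col m s' + P m * (z - z') := ⟨_, rfl⟩
    have h1 : ((x s m + -x s' m + R * Y : ℤ) : ℝ) = a' - a := by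
      rw [hY]
      push_cast at ha hb ⊢
      linear_combination hb - ha
    have h2 : |x s m + -x s' m + R * Y| < k m := by
      have : ((|x s m + -x s' m + R * Y| : ℤ) : ℝ) < ((k m : ℤ) : ℝ) := by
        rw [Int.cast_abs, h1, abs_lt]
        push_cast
        constructor <;> linarith
      exact_mod_cast this
    by_cases hY0 : Y = 0
    · have c1 := hcol m s
      have c2 := hcol m s'
      have hcc : (col m s : ℤ) - col m s' = 0 := by
        apply Int.eq_zero_of_abs_lt_dvd (m := (P m : ℤ))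
        · exact ⟨-(z - z'), by linear_combination hY0 - hY⟩
        · exact abs_lt.2 ⟨by omega, by omega⟩
      have := hcol2 m s s' hne (by omega)
      rw [hY0, mul_zero, add_zero, ← sub_eq_add_neg] at h2
      linarith
    · have := far_of_ne (x := x s m) (x' := -x s' m) hY0 (by positivity) (hwrap s s.2 m)
        (by rw [abs_neg]; exact hwrap s' s'.2 m)
      have := hJ m
      omega
  · intro hD
    have h1 := hsep s s.2 s' s'.2 m m' σ σ' hD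
      ((σ' : ℤ) * (col m' s' + P m' * z') - (σ : ℤ) * (col m s + P m * z))
    have h2 : (J : ℝ) < |(((σ : ℤ) * x s m - (σ' : ℤ) * x s' m' - R *
        ((σ' : ℤ) * (col m' s' + P m' * z') - (σ : ℤ) * (col m s + P m * z)) : ℤ) : ℝ)| := by
      exact_mod_cast h1
    have c1 : 2 * (k m : ℝ) ≤ J := by exact_mod_cast hJ m
    have c2 : 2 * (k m' : ℝ) ≤ J := by exact_mod_cast hJ m'
    have h3 : ∀ u : ℝ, |u| ≤ a + a' → ¬ (J : ℝ) < |u| := fun u hu hu' => by linarith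
    refine h3 _ ?_ h2
    rcases Int.units_eq_one_or σ with rfl | rfl <;> rcases Int.units_eq_one_or σ' with rfl | rfl <;>
      simp only [Units.val_one, Units.val_neg] at ha hb ⊢ <;> push_cast at ha hb ⊢ <;>
      rw [abs_le] <;> constructor <;> linarith

theorem exists_delta {S : Type} [Fintype S] [DecidableEq S] (j : S → ℕ) (μ : S → ℤ)
    (hj : ∀ m, 0 < j m) (hdet : ∀ m m', m ≠ m' → (j m : ℤ) * μ m' ≠ j m' * μ m) :
    ∃ Δ : ℕ, 0 < Δ ∧ (2 : ℤ) ∣ Δ ∧ (∀ m, (j m : ℤ) ∣ Δ) ∧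
      ∀ m n, m ≠ n → (j m : ℤ) * μ n - j n * μ m ∣ Δ := by
  refine ⟨2 * (∏ m, j m) * ∏ z ∈ (univ : Finset S).offDiag,
    ((j z.1 : ℤ) * μ z.2 - j z.2 * μ z.1).natAbs, ?_, ?_, ?_, ?_⟩
  · refine mul_pos (mul_pos two_pos (prod_pos (fun m _ => hj m))) (prod_pos (fun z hz => ?_))
    exact Int.natAbs_pos.2 (sub_ne_zero.2 (hdet _ _ (mem_offDiag.1 hz).2.2))
  · exact Int.natCast_dvd_natCast.2 ((dvd_mul_right 2 _).mul_right _)
  · intro m
    exact Int.natCast_dvd_natCast.2 (((dvd_prod_of_mem j (mem_univ m)).mul_left 2).mul_right _)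
  · intro m n hmn
    rw [← Int.natAbs_dvd]
    apply Int.natCast_dvd_natCast.2
    apply Dvd.dvd.mul_left
    exact dvd_prod_of_mem (fun z : S × S => ((j z.1 : ℤ) * μ z.2 - j z.2 * μ z.1).natAbs)
      (show (m, n) ∈ (univ : Finset S).offDiag from mem_offDiag.2 ⟨mem_univ _, mem_univ _, hmn⟩)

theorem size_bound {η ε κ π₀ p k P R M : ℝ} (hε : 0 < ε) (hε1 : ε ≤ η / 10) (hε2 : ε ≤ 1 / 10)
    (hκ : 0 < κ) (hπ : 0 < π₀) (hp : 0 < p) (hk : 0 < k) (hP : 0 < P) (hR : 0 < R)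
    (h1 : P ≤ (1 + ε) * (κ * (k / p))) (h2 : (1 - 2 * ε) * κ ≤ R * ((1 + ε) * π₀))
    (h3 : (1 - ε) * R ^ 2 * π₀ ≤ M) : (1 - η) * p ≤ M * (k / (P * R)) := by
  have a1 : P * p ≤ (1 + ε) * κ * k := by
    have := mul_le_mul_of_nonneg_right h1 hp.le
    have e : (1 + ε) * (κ * (k / p)) * p = (1 + ε) * κ * k := by field_simp
    linarith
  rw [← mul_div_assoc, le_div_iff₀ (by positivity)]
  have a2 : (1 - η) * (1 + ε) ^ 2 ≤ (1 - ε) * (1 - 2 * ε) := by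
    have c1 : (1 - η) * (1 + ε) ^ 2 ≤ (1 - 10 * ε) * (1 + ε) ^ 2 :=
      mul_le_mul_of_nonneg_right (by linarith) (by positivity)
    have c2 : 0 < ε ^ 2 := by positivity
    have c3 : 0 < ε ^ 3 := by positivity
    nlinarith
  have a3 : (1 - ε) * R ^ 2 * π₀ * k ≤ M * k := mul_le_mul_of_nonneg_right h3 hk.le
  refine le_trans ?_ a3
  by_cases hη : 1 - η ≤ 0
  · have b1 : (1 - η) * p * (P * R) ≤ 0 :=
      mul_nonpos_of_nonpos_of_nonneg (mul_nonpos_of_nonpos_of_nonneg hη hp.le) (by positivity)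
    have b2 : 0 ≤ (1 - ε) * R ^ 2 * π₀ * k := by
      have : 0 ≤ 1 - ε := by linarith
      positivity
    linarith
  · push Not at hη
    have b1 := mul_le_mul_of_nonneg_left a1 (show 0 ≤ (1 + ε) * (1 - η) * R by positivity)
    have b2 := mul_le_mul_of_nonneg_right a2 (show 0 ≤ κ * k * R by positivity)
    have b3 := mul_le_mul_of_nonneg_left h2 (show 0 ≤ (1 - ε) * k * R by
      have : 0 ≤ 1 - ε := by linarith
      positivity)
    have b4 : (1 + ε) * ((1 - η) * p * (P * R)) ≤ (1 + ε) * ((1 - ε) * R ^ 2 * π₀ * k) := by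
      nlinarith
    exact le_of_mul_le_mul_left b4 (by positivity)

end Arc

open Arc in
theorem arc_prop (h : TypesProp) : ArcProp := by
  intro S _ _ k μ Q U n hk hdet hQ hU hn η hη
  obtain ⟨p, hp⟩ : ∃ p : S → ℝ, p = fun m => (n m : ℝ) / Q := ⟨_, rfl⟩
  have hpm : ∀ m, (n m : ℝ) / Q = p m := fun m => by rw [hp]
  have hp0 : ∀ m, 0 < p m := fun m => by
    rw [← hpm]; exact div_pos (by exact_mod_cast hn m) (by exact_mod_cast hQ)
  obtain ⟨π₀, hπ⟩ : ∃ π₀ : ℝ, π₀ = ∏ m, p m := ⟨_, rfl⟩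
  have hπ0 : 0 < π₀ := by rw [hπ]; exact prod_pos (fun m _ => hp0 m)
  obtain ⟨ε, hε0, hε1, hε2⟩ : ∃ ε : ℝ, 0 < ε ∧ ε ≤ η / 10 ∧ ε ≤ 1 / 10 :=
    ⟨min (η / 10) (1 / 10), lt_min (by positivity) (by norm_num), min_le_left _ _, min_le_right _ _⟩
  obtain ⟨Δ, hΔ0, hΔ2, hΔj, hΔd⟩ := exists_delta k μ hk hdet
  obtain ⟨J, hJ⟩ : ∃ J : ℕ, ∀ m, 2 * k m ≤ J :=
    ⟨2 * univ.sup k, fun m => Nat.mul_le_mul_left 2 (le_sup (f := k) (mem_univ m))⟩
  obtain ⟨R₀, hR₀⟩ := h S (fun m => (k m : ℤ)) μ Q U n hQ hU hn J ε hε0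
  have hρ0 : ∀ m, (0 : ℝ) < k m / p m := fun m => div_pos (by exact_mod_cast hk m) (hp0 m)
  have hΔR : (0 : ℝ) < Δ := by exact_mod_cast hΔ0
  obtain ⟨κ, hκ, P, hPΔ, hPP, hPκ⟩ := exists_moduli (fun m => k m / p m) hρ0 Δ hΔ0 ε hε0
    (2 * π₀ * (R₀ + Δ + 1) + 2 * π₀ * Δ / ε)
  have k1 : 0 < 2 * π₀ * (R₀ + Δ + 1) := by positivity
  have k2 : 0 ≤ 2 * π₀ * Δ / ε := by positivity
  have hκ0 : 0 < κ := by linarith
  have hκ2 : 2 * π₀ * Δ ≤ ε * κ := by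
    have : 2 * π₀ * Δ / ε ≤ κ := by linarith
    rw [div_le_iff₀ hε0] at this
    linarith
  obtain ⟨T, hT⟩ : ∃ T : ℝ, T = (1 - ε) * κ / ((1 + ε) * π₀) := ⟨_, rfl⟩
  have hT0 : T * ((1 + ε) * π₀) = (1 - ε) * κ := by rw [hT]; field_simp
  have hT1 : R₀ + Δ + 1 ≤ T := by
    rw [hT, le_div_iff₀ (by positivity)]
    have b1 : 2 * π₀ * (R₀ + Δ + 1) ≤ κ := by linarith
    nlinarith
  obtain ⟨t, ht1, ht2⟩ := exists_R Δ hΔ0 T (by
    have : (0 : ℝ) ≤ R₀ := by positivity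
    linarith)
  obtain ⟨Ω, x, hdiv, hwrap, hsep, hfib, hΩ1⟩ := hR₀ (Δ * t + 1)
    (by have : (R₀ : ℝ) ≤ ((Δ * t + 1 : ℕ) : ℝ) := by linarith
        exact_mod_cast this)
    (fun m => coprime_of_dvd (hΔj m)) (fun m n hmn => coprime_of_dvd (hΔd m n hmn))
  obtain ⟨R, hR⟩ : ∃ R : ℕ, R = Δ * t + 1 := ⟨_, rfl⟩
  rw [← hR] at ht1 ht2 hdiv hwrap hsep hfib hΩ1
  simp only [hpm] at hfib hΩ1 ⊢
  rw [← hπ] at hfib hΩ1
  have hR0 : 0 < R := by omega
  have hRR : (0 : ℝ) < R := by exact_mod_cast hR0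
  have hRup : R * ((1 + ε) * π₀) ≤ (1 - ε) * κ := by
    rw [← hT0]; exact mul_le_mul_of_nonneg_right ht1 (by positivity)
  have hRlow : (1 - 2 * ε) * κ ≤ R * ((1 + ε) * π₀) := by
    have b1 := mul_le_mul_of_nonneg_right ht2 (show 0 ≤ (1 + ε) * π₀ by positivity)
    have b2 : (Δ : ℝ) * ((1 + ε) * π₀) ≤ 2 * π₀ * Δ := by
      have := mul_le_mul_of_nonneg_left (show 1 + ε ≤ 2 by linarith)
        (show 0 ≤ π₀ * Δ by positivity)
      linarith
    linarith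
  have hP1 : ∀ m, (1 - ε) * (κ * (k m / p m)) ≤ P m := fun m => by
    have := (abs_le.1 (hPκ m)).1; linarith
  have hP2 : ∀ m, (P m : ℝ) ≤ (1 + ε) * (κ * (k m / p m)) := fun m => by
    have := (abs_le.1 (hPκ m)).2; linarith
  have hP0R : ∀ m, (0 : ℝ) < P m := fun m =>
    lt_of_lt_of_le (mul_pos (by linarith) (mul_pos hκ0 (hρ0 m))) (hP1 m)
  have hP0 : ∀ m, 0 < P m := fun m => by exact_mod_cast hP0R m
  have hcolex : ∀ m, ∃ col : Ω → ℕ, (∀ w, col w < P m) ∧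
      ∀ w w', w ≠ w' → col w = col w' → (k m : ℤ) ≤ |x w m - x w' m| := by
    intro m
    obtain ⟨col, h1, h2⟩ := exists_colouring (B := Ω) (fun w => x w m)
      ⌊(1 + ε) * R * π₀ / p m⌋₊ (k m) (hk m) (by
        intro y
        apply Nat.le_floor
        refine le_trans ?_ (hfib m y)
        apply Nat.cast_le.2
        apply card_le_card_of_injOn Subtype.val
        · intro w hw
          exact mem_coe.2 (mem_filter.2 ⟨w.2, (mem_filter.1 (mem_coe.1 hw)).2⟩)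
        · exact Subtype.val_injective.injOn)
    refine ⟨col, fun w => ?_, h2⟩
    have a1 : (col w : ℝ) < k m * (⌊(1 + ε) * R * π₀ / p m⌋₊ : ℝ) := by
      exact_mod_cast h1 w
    have a2 : (⌊(1 + ε) * R * π₀ / p m⌋₊ : ℝ) ≤ (1 + ε) * R * π₀ / p m :=
      Nat.floor_le (by have := hp0 m; positivity)
    have a3 : k m * ((1 + ε) * R * π₀ / p m) = k m / p m * (R * ((1 + ε) * π₀)) := by ring
    have a4 := mul_le_mul_of_nonneg_left hRup (hρ0 m).le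
    have a5 := mul_le_mul_of_nonneg_left a2 (show (0 : ℝ) ≤ k m by positivity)
    have a9 : (col w : ℝ) < P m := by
      have := hP1 m
      linarith
    exact_mod_cast a9
  choose col hcol1 hcol2 using hcolex
  obtain ⟨v, hv⟩ := core k μ P R J Ω x col
    (fun m σ m' σ' => ∀ ρ : ℤˣ, Disjoint (U m (σ * ρ)) (U m' (σ' * ρ))) hJ hP0 hPP
    (fun m => coprime_P (hΔj m) (hPΔ m)) hR0 hdiv hwrap hsep hcol1 hcol2
  have hA := fun m => Arcs.chirp P hP0 hPP (fun m n => (k n : ℤ) * μ m - k m * μ n)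
    (fun m => by ring) (fun n => coprime_P hΔ2 (hPΔ n))
    (fun m n hmn => coprime_P (hΔd n m hmn.symm) (hPΔ n)) m
  choose A hA1 hA2 using hA
  have hQ0 : ∀ m, 0 < cof P m := fun m => prod_pos (fun n _ => hP0 n)
  have hL0 : 0 < ∏ n, P n := prod_pos (fun n _ => hP0 n)
  have hM : 0 < Ω.card := by
    have b1 : 0 < (1 - ε) * (R : ℝ) ^ 2 * π₀ := by
      have : 0 < 1 - ε := by linarith
      positivity
    exact_mod_cast b1.trans_le hΩ1
  have hlam : ∀ m, (cof P m : ℝ) * (k m * (1 / ((∏ n, P n : ℕ) * R : ℝ))) = k m / (P m * R) := by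
    intro m
    have b1 : (0 : ℝ) < cof P m := by exact_mod_cast hQ0 m
    have b2 := hP0R m
    rw [← mul_cof P m]
    push_cast
    field_simp
  refine ⟨Ω.card, (-∑ n, (μ n : ℝ) / P n, ∑ n, (k n : ℝ) / P n), fun s => v (Ω.equivFin.symm s),
    1 / ((∏ n, P n : ℕ) * R : ℝ), cof P, A, hM, by positivity, fun m => ⟨hQ0 m, hA1 m, ?_, ?_, ?_⟩,
    fun τ m m' σ σ' s s' h1 h2 => ?_⟩
  · rw [hA2 m]
    simp only [mul_neg, mul_sum]
    rw [← sum_neg_distrib, ← sum_add_distrib]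
    refine sum_congr rfl fun n _ => ?_
    push_cast
    ring
  · rw [hlam, ← mul_div_assoc, div_le_one (by have := hP0R m; positivity)]
    obtain ⟨w, hw⟩ := card_pos.1 hM
    have b1 := hwrap w hw m
    have b2 := hJ m
    have b3 := abs_nonneg (x w m)
    have b4 : 2 * k m ≤ P m * R := le_trans (by omega) (Nat.le_mul_of_pos_left R (hP0 m))
    exact_mod_cast b4
  · rw [hlam]
    exact size_bound hε0 hε1 hε2 hκ0 hπ0 (hp0 m) (by exact_mod_cast hk m) (hP0R m) hRR (hP2 m)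
      hRlow hΩ1
  · obtain ⟨h3, h4⟩ := hv τ m m' σ σ' _ _ h1 h2
    exact ⟨fun a b => Ω.equivFin.symm.injective (h3 a b), h4⟩

end Vale.Agent.P130
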