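import Vale.Agent.P130.Chirp1

/-! The normalised modulus of a Gauss comb with a slow chirp tends to an indicator density. -/

namespace Vale.Agent.P130

open Finset MeasureTheory Filter Topology
open Vale.Agent.P110

namespace Chirp

/-- The limit density. -/
noncomputable def gg (L : ℕ) (β lam τ : ℝ) : ℝ := if arc L β lam τ then 1 / (L * lam) else 0

lemma measurableSet_arc (L : ℕ) (β lam : ℝ) : MeasurableSet {τ | arc L β lam τ} :=
  measurableSet_lt (measurable_fract.comp (by fun_prop)) measurable_const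

lemma measurable_gg (L : ℕ) (β lam : ℝ) : Measurable (gg L β lam) :=
  Measurable.ite (measurableSet_arc L β lam) measurable_const measurable_const

lemma abs_gg_le (L : ℕ) (β lam τ : ℝ) : |gg L β lam τ| ≤ |1 / (L * lam)| := by
  unfold gg
  split_ifs
  · exact le_rfl
  · rw [abs_zero]; exact abs_nonneg _

lemma gg_add {L : ℕ} (hL : 0 < L) (β lam τ : ℝ) : gg L β lam (τ + 1 / L) = gg L β lam τ := by
  have hL' : (L : ℝ) ≠ 0 := by positivity
  have e1 : (L : ℝ) * (τ + 1 / L - β) = L * (τ - β) + 1 := by field_simp; ring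
  have : arc L β lam (τ + 1 / L) ↔ arc L β lam τ := by
    unfold arc
    rw [e1, Int.fract_add_one]
  unfold gg
  simp only [this]

lemma gg_add_one (L : ℕ) (β lam τ : ℝ) : gg L β lam (τ + 1) = gg L β lam τ := by
  have e1 : (L : ℝ) * (τ + 1 - β) = L * (τ - β) + L := by ring
  have : arc L β lam (τ + 1) ↔ arc L β lam τ := by
    unfold arc
    rw [e1, Int.fract_add_natCast]
  unfold gg
  simp only [this]

lemma co_gg_of_not_dvd {L : ℕ} (hL : 0 < L) (β lam : ℝ) {n : ℤ} (hn : ¬ (L : ℤ) ∣ n) :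
    co (gg L β lam) n = 0 := by
  have hL' : (L : ℝ) ≠ 0 := by positivity
  have hper : Function.Periodic (fun τ : ℝ => e (-(n * τ)) * (gg L β lam τ : ℂ)) 1 := by
    intro τ
    simp only [gg_add_one]
    congr 1
    rw [← e_sub_int (-(n * τ)) n]
    congr 1; ring
  have h1 := hper.intervalIntegral_add_eq (0 + 1 / L) 0
  rw [show (0 : ℝ) + 1 / L + 1 = 1 + 1 / L by ring, zero_add (1 : ℝ),
    ← intervalIntegral.integral_comp_add_right] at h1
  have e2 : ∀ τ : ℝ, e (-(n * (τ + 1 / L))) * (gg L β lam (τ + 1 / L) : ℂ) =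
      e (-(n / L)) * (e (-(n * τ)) * (gg L β lam τ : ℂ)) := by
    intro τ
    rw [gg_add hL, ← mul_assoc, ← e_add]
    congr 2; ring
  simp only [e2, intervalIntegral.integral_const_mul] at h1
  have h2 : e (-(n / L)) ≠ 1 := by
    rw [Ne, e_eq_one_iff]
    rintro ⟨m, hm⟩
    apply hn
    refine ⟨-m, ?_⟩
    have : (n : ℝ) = L * (-m) := by
      rw [← hm]; field_simp
    exact_mod_cast this
  unfold co
  have h3 : (e (-(n / L)) - 1) * ∫ τ in (0 : ℝ)..1, e (-(n * τ)) * (gg L β lam τ : ℂ) = 0 := by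
    rw [sub_mul, h1]; ring
  exact (mul_eq_zero.mp h3).resolve_left (sub_ne_zero.mpr h2)

lemma co_gg_of_dvd {L : ℕ} (hL : 0 < L) (β : ℝ) {lam : ℝ} (hlam : 0 < lam) (h1 : L * lam ≤ 1)
    {n : ℤ} (hn : (L : ℤ) ∣ n) :
    co (gg L β lam) n = e (-(n * β)) * ∫ t in (0 : ℝ)..1, e (-(lam * n) * t) := by
  have hL0 : (0 : ℝ) < L := by exact_mod_cast hL
  obtain ⟨k, hk⟩ := hn
  have hk' : (n : ℝ) = L * k := by exact_mod_cast hk
  have hper : Function.Periodic (fun τ : ℝ => e (-(n * τ)) * (gg L β lam τ : ℂ)) (1 / L) := by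
    intro τ
    simp only [gg_add hL]
    congr 1
    rw [← e_sub_int (-(n * τ)) k]
    congr 1
    rw [hk']; field_simp; ring
  have hii := ii_co (measurable_gg L β lam) (abs_gg_le L β lam) n
  have h2 := hper.intervalIntegral_add_zsmul_eq L 0 hii
  rw [hper.intervalIntegral_add_eq 0 β] at h2
  have e1 : (0 : ℝ) + (L : ℤ) • (1 / (L : ℝ)) = 1 := by
    rw [zero_add, zsmul_eq_mul]; push_cast; field_simp
  rw [e1] at h2
  have hle : lam ≤ 1 / L := by rw [le_div_iff₀ hL0]; linarith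
  have h3 : ∫ τ in β..(β + lam), e (-(n * τ)) * (gg L β lam τ : ℂ) =
      ∫ τ in β..(β + lam), e (-(n * τ)) * ((1 / (L * lam) : ℝ) : ℂ) := by
    refine intervalIntegral.integral_congr_ae ?_
    filter_upwards [Measure.ae_ne volume (β + lam)] with τ hτ hm
    rw [Set.uIoc_of_le (by linarith)] at hm
    have a1 : τ < β + lam := lt_of_le_of_ne hm.2 hτ
    have a2 : (L : ℝ) * (τ - β) < L * lam := mul_lt_mul_of_pos_left (by linarith) hL0
    have a3 : arc L β lam τ := by
      unfold arc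
      rw [Int.fract_eq_self.mpr ⟨mul_nonneg hL0.le (by linarith [hm.1]), by linarith⟩]
      exact a2
    rw [gg, if_pos a3]
  have h4 : ∫ τ in (β + lam)..(β + 1 / L), e (-(n * τ)) * (gg L β lam τ : ℂ) =
      ∫ _τ in (β + lam)..(β + 1 / L), (0 : ℂ) := by
    refine intervalIntegral.integral_congr_ae ?_
    filter_upwards [Measure.ae_ne volume (β + 1 / L)] with τ hτ hm
    rw [Set.uIoc_of_le (by linarith)] at hm
    have a1 : τ < β + 1 / L := lt_of_le_of_ne hm.2 hτ
    have a2 : (L : ℝ) * (τ - β) < 1 := by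
      have : τ - β < 1 / L := by linarith
      rw [lt_div_iff₀ hL0] at this
      linarith
    have a4 : (L : ℝ) * lam < L * (τ - β) := mul_lt_mul_of_pos_left (by linarith [hm.1]) hL0
    have a3 : ¬ arc L β lam τ := by
      unfold arc
      rw [Int.fract_eq_self.mpr ⟨mul_nonneg hL0.le (by linarith [hm.1]), a2⟩]
      linarith
    rw [gg, if_neg a3]
    simp
  have h5 : ∫ τ in β..(β + lam), e (-(n * τ)) =
      (lam : ℂ) * (e (-(n * β)) * ∫ t in (0 : ℝ)..1, e (-(lam * n) * t)) := by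
    have a1 := intervalIntegral.smul_integral_comp_mul_add (a := 0) (b := 1)
      (fun τ : ℝ => e (-(n * τ))) lam β
    rw [mul_zero, zero_add, mul_one, add_comm lam β] at a1
    rw [← a1, Complex.real_smul, ← intervalIntegral.integral_const_mul (e (-(n * β)))]
    congr 2
    funext t
    rw [← e_add]
    congr 1; ring
  unfold co
  rw [h2, ← intervalIntegral.integral_add_adjacent_intervals (hii β (β + lam)) (hii _ _), h3, h4,
    intervalIntegral.integral_zero, add_zero, intervalIntegral.integral_mul_const, h5, zsmul_eq_mul]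
  have b1 : (L : ℂ) ≠ 0 := by exact_mod_cast hL.ne'
  have b2 : (lam : ℂ) ≠ 0 := by exact_mod_cast hlam.ne'
  push_cast
  field_simp

/-- The normalised squared modulus. -/
noncomputable def FF (L : ℕ) (A : ℤ) (β lam : ℝ) (J : ℕ) (τ : ℝ) : ℝ :=
  ‖chirp L A β lam J τ‖ ^ 2 / J

lemma continuous_chirp (L : ℕ) (A : ℤ) (β lam : ℝ) (J : ℕ) : Continuous (chirp L A β lam J) := by
  unfold chirp
  fun_prop

lemma measurable_FF (L : ℕ) (A : ℤ) (β lam : ℝ) (J : ℕ) : Measurable (FF L A β lam J) :=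
  (((continuous_chirp L A β lam J).norm.pow 2).div_const _).measurable

lemma norm_chirp_le (L : ℕ) (A : ℤ) (β lam : ℝ) (J : ℕ) (τ : ℝ) : ‖chirp L A β lam J τ‖ ≤ J := by
  refine (norm_sum_le _ _).trans ?_
  simp

lemma abs_FF_le (L : ℕ) (A : ℤ) (β lam : ℝ) (J : ℕ) (τ : ℝ) :
    |FF L A β lam J τ| ≤ (J : ℝ) ^ 2 / J := by
  unfold FF
  rw [abs_of_nonneg (by positivity)]
  have := norm_chirp_le L A β lam J τ
  gcongr

lemma co_FF (L : ℕ) (A : ℤ) (β lam : ℝ) (J d : ℕ) :
    co (FF L A β lam J) d = e (-(A * (d : ℝ) ^ 2 / L + β * d + lam * (d : ℝ) ^ 2 / (2 * J))) *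
      ((∑ j ∈ range (J - d), e (j * (-(2 * A * d / L + lam * d / J)))) / J) := by
  have h := co_normSq (fun j => A * (j : ℝ) ^ 2 / L + β * j + lam * (j : ℝ) ^ 2 / (2 * J)) J d
  refine Eq.trans h ?_
  rw [← mul_div_assoc, mul_sum]
  congr 1
  refine sum_congr rfl fun j _ => ?_
  rw [← e_add]
  congr 1
  push_cast
  ring

section

variable {L : ℕ} {A : ℤ} {β lam : ℝ}

lemma norm_co_FF (J d : ℕ) : ‖co (FF L A β lam J) d‖ =
    ‖∑ j ∈ range (J - d), e (j * (-(2 * A * d / L + lam * d / J)))‖ / J := by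
  rw [co_FF, norm_mul, norm_e, one_mul, norm_div, Complex.norm_natCast]

lemma co_FF_le_of_not_dvd (hL : 0 < L) (hA : IsCoprime (2 * A) (L : ℤ)) (hlam : 0 < lam)
    (h1 : 2 * (L * lam) ≤ 1) {d : ℕ} (hd : ¬ (L : ℤ) ∣ d) {J : ℕ} (hJ : d < J) :
    ‖co (FF L A β lam J) d‖ ≤ L / J := by
  have hL0 : (0 : ℝ) < L := by exact_mod_cast hL
  have hJ0 : (0 : ℝ) < J := by exact_mod_cast (by omega : 0 < J)
  have hdJ : (d : ℝ) ≤ J := by exact_mod_cast hJ.le
  rw [norm_co_FF]
  refine div_le_div_of_nonneg_right ?_ hJ0.le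
  refine (norm_sum_e_le _ (1 / (2 * L)) (by positivity) (fun m => ?_) _).trans
    (le_of_eq (by field_simp))
  have a1 : 2 * A * d + m * L ≠ 0 := by
    intro h
    apply hd
    refine hA.symm.dvd_of_dvd_mul_left ⟨-m, ?_⟩
    linarith
  have a2 : (1 : ℝ) ≤ |((2 * A * d + m * L : ℤ) : ℝ)| := by
    have := Int.one_le_abs a1
    exact_mod_cast this
  have a3 : 0 ≤ lam * d / J := by positivity
  have a4 : lam * d / J ≤ 1 / (2 * L) := by
    have b1 : lam * d / J ≤ lam := by
      rw [div_le_iff₀ hJ0]; exact mul_le_mul_of_nonneg_left hdJ hlam.le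
    have b2 : lam ≤ 1 / (2 * L) := by rw [le_div_iff₀ (by positivity)]; linarith
    linarith
  have a5 : 1 / (L : ℝ) ≤ |((2 * A * d + m * L : ℤ) : ℝ) / L| := by
    rw [abs_div, abs_of_pos hL0]
    exact div_le_div_of_nonneg_right a2 hL0.le
  have e1 : -(2 * A * d / L + lam * d / J) - (m : ℝ) =
      -(((2 * A * d + m * L : ℤ) : ℝ) / L + lam * d / J) := by
    push_cast; field_simp; ring
  have e2 : 1 / (L : ℝ) = 1 / (2 * L) + 1 / (2 * L) := by field_simp; ring
  rw [e1, abs_neg]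
  have a6 := abs_sub (((2 * A * d + m * L : ℤ) : ℝ) / L + lam * d / J) (lam * d / J)
  rw [add_sub_cancel_right, abs_of_nonneg a3] at a6
  linarith

lemma co_FF_le_of_dvd (hL : 0 < L) (hlam : 0 < lam) (h1 : 2 * (L * lam) ≤ 1) {d : ℕ}
    (hd0 : 0 < d) (hd : (L : ℤ) ∣ d) {J : ℕ} (hJ : d < J) :
    ‖co (FF L A β lam J) d‖ ≤ 1 / (2 * lam) / d := by
  have hL1 : (1 : ℝ) ≤ L := by exact_mod_cast hL
  have hJ0 : (0 : ℝ) < J := by exact_mod_cast (by omega : 0 < J)
  have hd' : (0 : ℝ) < d := by exact_mod_cast hd0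
  have hdJ : (d : ℝ) ≤ J := by exact_mod_cast hJ.le
  obtain ⟨k, hk⟩ := hd
  have hk' : (d : ℝ) = L * k := by exact_mod_cast hk
  rw [norm_co_FF, div_le_iff₀ hJ0]
  refine (norm_sum_e_le _ (lam * d / J) (by positivity) (fun m => ?_) _).trans
    (le_of_eq (by field_simp))
  have a4 : lam * d / J ≤ 1 / 2 := by
    have b1 : lam * d / J ≤ lam := by
      rw [div_le_iff₀ hJ0]; exact mul_le_mul_of_nonneg_left hdJ hlam.le
    nlinarith
  have a3 : 0 ≤ lam * d / J := by positivity
  have e1 : -(2 * A * d / L + lam * d / J) - (m : ℝ) =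
      -(((2 * A * k + m : ℤ) : ℝ) + lam * d / J) := by
    have : 2 * (A : ℝ) * d / L = 2 * A * k := by rw [hk']; field_simp
    rw [this]; push_cast; ring
  rw [e1, abs_neg]
  rcases le_or_gt 0 (2 * A * k + m) with h | h
  · have : (0 : ℝ) ≤ ((2 * A * k + m : ℤ) : ℝ) := by exact_mod_cast h
    exact le_abs.mpr (Or.inl (by linarith))
  · have : ((2 * A * k + m : ℤ) : ℝ) ≤ -1 := by exact_mod_cast (by omega : 2 * A * k + m ≤ -1)
    exact le_abs.mpr (Or.inr (by linarith))

lemma co_FF_le (hL : 0 < L) (hA : IsCoprime (2 * A) (L : ℤ)) (hlam : 0 < lam)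
    (h1 : 2 * (L * lam) ≤ 1) {d : ℕ} (hd0 : 0 < d) (J : ℕ) :
    ‖co (FF L A β lam J) d‖ ≤ (L + 1 / (2 * lam)) / d := by
  have hd' : (0 : ℝ) < d := by exact_mod_cast hd0
  by_cases hJ : d < J
  · have hdJ : (d : ℝ) ≤ J := by exact_mod_cast hJ.le
    by_cases hd : (L : ℤ) ∣ d
    · refine (co_FF_le_of_dvd hL hlam h1 hd0 hd hJ).trans ?_
      gcongr
      have : (0 : ℝ) ≤ L := Nat.cast_nonneg L
      linarith
    · refine (co_FF_le_of_not_dvd hL hA hlam h1 hd hJ).trans ?_
      have : 0 ≤ 1 / (2 * lam) := by positivity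
      calc (L : ℝ) / J ≤ L / d := by gcongr
        _ ≤ _ := by gcongr; linarith
  · rw [norm_co_FF, show J - d = 0 by omega]
    simp only [range_zero, sum_empty, norm_zero, zero_div]
    positivity

lemma tendsto_co_FF (hL : 0 < L) (hA : IsCoprime (2 * A) (L : ℤ)) (hlam : 0 < lam)
    (h1 : 2 * (L * lam) ≤ 1) (d : ℕ) :
    Tendsto (fun J : ℕ => co (FF L A β lam J) d) atTop (𝓝 (co (gg L β lam) d)) := by
  have hL0 : (0 : ℝ) < L := by exact_mod_cast hL
  by_cases hd : (L : ℤ) ∣ d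
  · rw [co_gg_of_dvd hL β hlam (by nlinarith) hd]
    obtain ⟨k, hk⟩ := hd
    have hk' : (d : ℝ) = L * k := by exact_mod_cast hk
    have e1 : ∀ J : ℕ, co (FF L A β lam J) d =
        e (-(d * β) - lam * (d : ℝ) ^ 2 / 2 / J) *
          ((∑ j ∈ range (J - d), e (j * (-(lam * d) / J))) / J) := by
      intro J
      rw [co_FF]
      congr 1
      · rw [← e_sub_int _ (-(A * k * d))]
        congr 1
        have : (A : ℝ) * (d : ℝ) ^ 2 / L = A * k * d := by
          rw [sq]; nth_rw 1 [hk']; field_simp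
        rw [this]; push_cast; ring
      · congr 1
        refine sum_congr rfl fun j _ => ?_
        rw [← e_sub_int _ (-(j * (2 * A * k)))]
        congr 1
        have : 2 * (A : ℝ) * d / L = 2 * A * k := by rw [hk']; field_simp
        rw [this]; push_cast; ring
    simp only [e1]
    refine Tendsto.mul ?_ ?_
    · refine (continuous_e.tendsto _).comp ?_
      have := (tendsto_const_div_atTop_nhds_zero_nat (lam * (d : ℝ) ^ 2 / 2)).const_sub (-(d * β))
      rw [sub_zero] at this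
      exact this
    · exact riemann_drop (-(lam * d)) d
  · rw [co_gg_of_not_dvd hL β lam hd, tendsto_zero_iff_norm_tendsto_zero]
    refine squeeze_zero' (Eventually.of_forall fun J => norm_nonneg _) ?_
      (tendsto_const_div_atTop_nhds_zero_nat (L : ℝ))
    filter_upwards [eventually_gt_atTop d] with J hJ
    exact co_FF_le_of_not_dvd hL hA hlam h1 hd hJ

lemma tendsto_sq (hL : 0 < L) (hA : IsCoprime (2 * A) (L : ℤ)) (hlam : 0 < lam)
    (h1 : 2 * (L * lam) ≤ 1) :
    Tendsto (fun J : ℕ => ∫ τ in (0 : ℝ)..1, (FF L A β lam J τ - gg L β lam τ) ^ 2) atTop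
      (𝓝 0) := by
  obtain ⟨C, hC⟩ : ∃ C : ℝ, C = L + 1 / (2 * lam) := ⟨_, rfl⟩
  let b : ℕ → ℤ → ℝ := fun J n => ‖co (FF L A β lam J) n - co (gg L β lam) n‖ ^ 2
  have hb : ∀ J (n : ℤ), b J n = b J (n.natAbs : ℤ) := by
    intro J n
    rcases Int.natAbs_eq n with h | h
    · rw [← h]
    · conv_lhs => rw [h]
      simp only [b, co_neg, ← map_sub, Complex.norm_conj]
  have hlim : ∀ d : ℕ, Tendsto (fun J => b J d) atTop (𝓝 0) := by
    intro d
    have := ((tendsto_co_FF (β := β) hL hA hlam h1 d).sub_const (co (gg L β lam) d)).norm.pow 2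
    simpa using this
  have hbd : ∀ J (d : ℕ), 0 < d → b J d ≤ 4 * C ^ 2 * (1 / (d : ℝ) ^ 2) := by
    intro J d hd
    have a1 := co_FF_le (β := β) hL hA hlam h1 hd J
    have a2 : ‖co (gg L β lam) d‖ ≤ (L + 1 / (2 * lam)) / d :=
      le_of_tendsto' (tendsto_co_FF hL hA hlam h1 d).norm fun J => co_FF_le hL hA hlam h1 hd J
    rw [← hC] at a1 a2
    have a3 : ‖co (FF L A β lam J) d - co (gg L β lam) d‖ ≤ 2 * (C / d) := by
      linarith [norm_sub_le (co (FF L A β lam J) d) (co (gg L β lam) d)]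
    calc b J d ≤ (2 * (C / d)) ^ 2 := pow_le_pow_left₀ (norm_nonneg _) a3 2
      _ = _ := by ring
  have hsum : Summable fun n : ℤ => 4 * C ^ 2 * (1 / (n : ℝ) ^ 2) + if n = 0 then 1 else 0 :=
    ((Real.summable_one_div_int_pow.mpr one_lt_two).mul_left _).add
      (hasSum_ite_eq (0 : ℤ) (1 : ℝ)).summable
  have hT := tendsto_tsum_of_dominated_convergence (𝓕 := atTop) (f := b) (g := fun _ => 0) hsum
    (fun n => by simp only [hb _ n]; exact hlim _) (by
      filter_upwards [(hlim 0).eventually (ge_mem_nhds zero_lt_one)] with J hJ n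
      rw [Real.norm_of_nonneg (sq_nonneg _)]
      by_cases hn : n = 0
      · subst hn
        have a0 : b J 0 ≤ 1 := by exact_mod_cast hJ
        rw [if_pos rfl]
        refine a0.trans (le_add_of_nonneg_left ?_)
        positivity
      · have a1 := hbd J n.natAbs (Int.natAbs_pos.mpr hn)
        rw [← hb, Nat.cast_natAbs, Int.cast_abs, sq_abs] at a1
        rw [if_neg hn, add_zero]
        exact a1)
  rw [tsum_zero] at hT
  refine hT.congr fun J => ?_
  have hbdd : ∀ τ, |FF L A β lam J τ - gg L β lam τ| ≤ (J : ℝ) ^ 2 / J + |1 / (L * lam)| :=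
    fun τ => (abs_sub _ _).trans (add_le_add (abs_FF_le _ _ _ _ _ _) (abs_gg_le _ _ _ _))
  have h2 := parseval ((measurable_FF L A β lam J).sub (measurable_gg L β lam)) hbdd
  have e1 : ∀ n, co (FF L A β lam J - gg L β lam) n =
      co (FF L A β lam J) n - co (gg L β lam) n := fun n =>
    co_sub (measurable_FF L A β lam J) (abs_FF_le L A β lam J) (measurable_gg L β lam)
      (abs_gg_le L β lam) n
  simp only [e1] at h2
  exact h2.tsum_eq

end

lemma sq_sub_le {a s η : ℝ} (ha : 0 ≤ a) (hs : 0 ≤ s) (hη : 0 < η) :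
    (a - s) ^ 2 ≤ η + (a ^ 2 - s ^ 2) ^ 2 / η := by
  have h1 : (a - s) ^ 2 ≤ |a ^ 2 - s ^ 2| := by
    rcases le_total a s with h | h
    · exact le_abs.mpr (Or.inr (by nlinarith))
    · exact le_abs.mpr (Or.inl (by nlinarith))
  refine h1.trans ?_
  rw [← sq_abs (a ^ 2 - s ^ 2)]
  obtain ⟨x, hx⟩ : ∃ x, x = |a ^ 2 - s ^ 2| := ⟨_, rfl⟩
  rw [← hx, ← sub_le_iff_le_add', le_div_iff₀ hη]
  nlinarith [sq_nonneg (x - η), sq_nonneg x, sq_nonneg η]

end Chirp

open Chirp in
theorem chirp_prop : ChirpProp := by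
  intro L A β lam hL hA hlam h1
  have hL0 : (0 : ℝ) < L := by exact_mod_cast hL
  have hT := tendsto_sq (β := β) hL hA hlam h1
  rw [Metric.tendsto_atTop]
  intro ε hε
  have hε2 : 0 < ε / 2 := by positivity
  obtain ⟨N, hN⟩ := eventually_atTop.mp (hT.eventually (gt_mem_nhds (mul_pos hε2 hε2)))
  refine ⟨N, fun J hJ => ?_⟩
  have hnn : 0 ≤ ∫ τ in (0 : ℝ)..1,
      (‖chirp L A β lam J τ‖ / √J - if arc L β lam τ then 1 / √(L * lam) else 0) ^ 2 :=
    intervalIntegral.integral_nonneg zero_le_one fun τ _ => sq_nonneg _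
  rw [Real.dist_eq, sub_zero, abs_of_nonneg hnn]
  have hm : Measurable fun τ => (FF L A β lam J τ - gg L β lam τ) ^ 2 :=
    ((measurable_FF L A β lam J).sub (measurable_gg L β lam)).pow_const 2
  have hbd : ∀ τ, ‖(FF L A β lam J τ - gg L β lam τ) ^ 2‖ ≤
      ((J : ℝ) ^ 2 / J + |1 / (L * lam)|) ^ 2 := by
    intro τ
    rw [norm_pow, Real.norm_eq_abs]
    exact pow_le_pow_left₀ (abs_nonneg _)
      ((abs_sub _ _).trans (add_le_add (abs_FF_le _ _ _ _ _ _) (abs_gg_le _ _ _ _))) 2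
  have hii := ii_of_bdd hm _ hbd 0 1
  have hpt : ∀ τ, (‖chirp L A β lam J τ‖ / √J - if arc L β lam τ then 1 / √(L * lam) else 0) ^ 2
      ≤ ε / 2 + (FF L A β lam J τ - gg L β lam τ) ^ 2 / (ε / 2) := by
    intro τ
    have e1 : FF L A β lam J τ = (‖chirp L A β lam J τ‖ / √J) ^ 2 := by
      rw [div_pow, Real.sq_sqrt (Nat.cast_nonneg J)]; rfl
    have e2 : gg L β lam τ = (if arc L β lam τ then 1 / √(L * lam) else 0) ^ 2 := by
      unfold gg
      split_ifs
      · rw [div_pow, Real.sq_sqrt (by positivity), one_pow]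
      · simp
    rw [e1, e2]
    refine sq_sub_le (by positivity) ?_ hε2
    split_ifs <;> positivity
  have hR : IntervalIntegrable
      (fun τ => ε / 2 + (FF L A β lam J τ - gg L β lam τ) ^ 2 / (ε / 2)) volume 0 1 :=
    intervalIntegrable_const.add (hii.div_const _)
  have hm2 : Measurable fun τ =>
      (‖chirp L A β lam J τ‖ / √J - if arc L β lam τ then 1 / √(L * lam) else 0) ^ 2 :=
    (((continuous_chirp L A β lam J).norm.measurable.div_const _).sub
      (Measurable.ite (measurableSet_arc L β lam) measurable_const measurable_const)).pow_const 2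
  have hLi : IntervalIntegrable (fun τ =>
      (‖chirp L A β lam J τ‖ / √J - if arc L β lam τ then 1 / √(L * lam) else 0) ^ 2)
      volume 0 1 :=
    hR.mono_fun' hm2.aestronglyMeasurable (ae_of_all _ fun τ => by
      show ‖_‖ ≤ _
      rw [Real.norm_of_nonneg (sq_nonneg _)]
      exact hpt τ)
  refine (intervalIntegral.integral_mono_on zero_le_one hLi hR fun τ _ => hpt τ).trans_lt ?_
  rw [intervalIntegral.integral_add intervalIntegrable_const (hii.div_const _),
    intervalIntegral.integral_const, intervalIntegral.integral_div, sub_zero, one_smul]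
  have h2 := hN J hJ
  rw [← div_lt_iff₀ hε2] at h2
  linarith

end Vale.Agent.P130
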