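import Vale.Agent.P130.Defs

/-! Exponential sums and Parseval for the chirp. -/

namespace Vale.Agent.P130.Chirp

open Finset MeasureTheory Filter Topology
open Vale.Agent.P110

lemma four_mul_le_norm_e_sub_one {y : ℝ} (hy : |y| ≤ 1 / 2) : 4 * |y| ≤ ‖e y - 1‖ := by
  have h1 : e y = Complex.exp (Complex.I * ((2 * Real.pi * y : ℝ) : ℂ)) := by
    unfold e; rw [mul_comm]
  rw [h1, Complex.norm_exp_I_mul_ofReal_sub_one, Real.norm_eq_abs, abs_mul, abs_two]
  have hpi := Real.pi_pos
  have e1 : 2 * Real.pi * y / 2 = Real.pi * y := by ring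
  rw [e1]
  have h2 : |Real.pi * y| ≤ Real.pi / 2 := by
    rw [abs_mul, abs_of_pos hpi]; nlinarith
  have h3 := Real.mul_abs_le_abs_sin h2
  rw [abs_mul, abs_of_pos hpi] at h3
  have e2 : 2 / Real.pi * (Real.pi * |y|) = 2 * |y| := by field_simp
  linarith

lemma norm_sum_e_le (x δ : ℝ) (hδ : 0 < δ) (h : ∀ m : ℤ, δ ≤ |x - m|) (n : ℕ) :
    ‖∑ j ∈ range n, e (j * x)‖ ≤ 1 / (2 * δ) := by
  have h1 : (∑ j ∈ range n, e (j * x)) * (e x - 1) = e x ^ n - 1 := by
    simp only [e_nat_mul]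
    exact geom_sum_mul _ _
  have h2 : ‖e x ^ n - 1‖ ≤ 2 := by
    refine (norm_sub_le _ _).trans ?_
    rw [norm_pow, norm_e, one_pow, norm_one]; norm_num
  have h3 : 4 * δ ≤ ‖e x - 1‖ := by
    have a1 := four_mul_le_norm_e_sub_one (abs_sub_round x)
    rw [e_sub_int] at a1
    have a2 := h (round x)
    linarith
  rw [← h1, norm_mul] at h2
  rw [le_div_iff₀ (by positivity)]
  have h4 := norm_nonneg (∑ j ∈ range n, e (j * x))
  nlinarith

lemma ii_of_bdd {E : Type*} [NormedAddCommGroup E] [MeasurableSpace E] [BorelSpace E]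
    [SecondCountableTopology E] {f : ℝ → E} (hf : Measurable f) (C : ℝ) (h : ∀ x, ‖f x‖ ≤ C)
    (a b : ℝ) : IntervalIntegrable f volume a b :=
  (intervalIntegrable_const (c := C)).mono_fun' hf.aestronglyMeasurable (ae_of_all _ h)

lemma riemann (c : ℝ) {J : ℕ} (hJ : 0 < J) :
    ‖(∑ j ∈ range J, e (j * (c / J))) / J - ∫ t in (0 : ℝ)..1, e (c * t)‖ ≤
      2 * Real.pi * |c| / J := by
  have hJ' : (0 : ℝ) < J := by exact_mod_cast hJ
  have hc : Continuous fun t : ℝ => e (c * t) := by fun_prop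
  have h1 := intervalIntegral.sum_integral_adjacent_intervals (f := fun t : ℝ => e (c * t))
    (μ := volume) (a := fun j : ℕ => (j : ℝ) / J) (n := J) fun k _ => hc.intervalIntegrable _ _
  rw [Nat.cast_zero, zero_div, div_self hJ'.ne'] at h1
  rw [← h1, sum_div, ← sum_sub_distrib]
  have h2 : ∀ j ∈ range J, ‖e (j * (c / J)) / J -
      ∫ t in ((j : ℝ) / J)..(((j + 1 : ℕ) : ℝ) / J), e (c * t)‖ ≤ 2 * Real.pi * |c| / J / J := by
    intro j _
    have e1 : ((j + 1 : ℕ) : ℝ) / J - (j : ℝ) / J = 1 / J := by push_cast; ring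
    have e2 : e (j * (c / J)) / J =
        ∫ _t in ((j : ℝ) / J)..(((j + 1 : ℕ) : ℝ) / J), e (j * (c / J)) := by
      rw [intervalIntegral.integral_const, e1, Complex.real_smul]
      push_cast; ring
    rw [e2, ← intervalIntegral.integral_sub intervalIntegrable_const (hc.intervalIntegrable _ _)]
    refine (intervalIntegral.norm_integral_le_of_norm_le_const
      (C := 2 * Real.pi * |c| / J) fun t ht => ?_).trans ?_
    · have hle : (j : ℝ) / J ≤ ((j + 1 : ℕ) : ℝ) / J := by
        have : 0 < 1 / (J : ℝ) := by positivity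
        linarith
      rw [Set.uIoc_of_le hle] at ht
      refine (norm_e_sub_e_le _ _).trans ?_
      have e3 : (j : ℝ) * (c / J) - c * t = c * ((j : ℝ) / J - t) := by ring
      have a1 : |(j : ℝ) / J - t| ≤ 1 / J := by
        rw [abs_le]; constructor <;> linarith [ht.1, ht.2]
      rw [e3, abs_mul]
      calc 2 * Real.pi * (|c| * |(j : ℝ) / J - t|) ≤ 2 * Real.pi * (|c| * (1 / J)) := by
            have := Real.pi_pos
            gcongr
        _ = _ := by ring
    · rw [e1, abs_of_pos (by positivity : (0 : ℝ) < 1 / J)]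
      apply le_of_eq; ring
  refine (norm_sum_le _ _).trans ((sum_le_card_nsmul _ _ _ h2).trans ?_)
  rw [card_range, nsmul_eq_mul]
  apply le_of_eq; field_simp

lemma riemann_drop (c : ℝ) (d : ℕ) :
    Tendsto (fun J : ℕ => (∑ j ∈ range (J - d), e (j * (c / J))) / J) atTop
      (𝓝 (∫ t in (0 : ℝ)..1, e (c * t))) := by
  rw [tendsto_iff_norm_sub_tendsto_zero]
  refine squeeze_zero' (Eventually.of_forall fun J => norm_nonneg _) ?_
    (tendsto_const_div_atTop_nhds_zero_nat (d + 2 * Real.pi * |c|))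
  filter_upwards [eventually_gt_atTop 0] with J hJ
  have hJ' : (0 : ℝ) < J := by exact_mod_cast hJ
  have h1 := riemann c hJ
  have h2 : ‖(∑ j ∈ range (J - d), e (j * (c / J))) / J -
      (∑ j ∈ range J, e (j * (c / J))) / J‖ ≤ d / J := by
    rw [← sub_div, norm_div, Complex.norm_natCast, norm_sub_rev,
      ← sum_Ico_eq_sub _ (Nat.sub_le J d)]
    refine div_le_div_of_nonneg_right ((norm_sum_le _ _).trans ?_) hJ'.le
    simp only [norm_e, sum_const, Nat.card_Ico, nsmul_eq_mul, mul_one]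
    exact_mod_cast (by omega : J - (J - d) ≤ d)
  have h3 := norm_sub_le_norm_sub_add_norm_sub ((∑ j ∈ range (J - d), e (j * (c / J))) / J)
    ((∑ j ∈ range J, e (j * (c / J))) / J) (∫ t in (0 : ℝ)..1, e (c * t))
  rw [add_div]
  linarith

/-- Fourier coefficient of a real function. -/
noncomputable def co (f : ℝ → ℝ) (n : ℤ) : ℂ := ∫ τ in (0 : ℝ)..1, e (-(n * τ)) * (f τ : ℂ)

lemma co_neg (f : ℝ → ℝ) (n : ℤ) : co f (-n) = (starRingEnd ℂ) (co f n) := by
  unfold co
  rw [intervalIntegral.integral_of_le zero_le_one, intervalIntegral.integral_of_le zero_le_one,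
    ← integral_conj]
  refine integral_congr_ae (ae_of_all _ fun τ => ?_)
  simp only [map_mul, conj_e, Complex.conj_ofReal]
  push_cast
  ring_nf

lemma ii_co {f : ℝ → ℝ} (hf : Measurable f) {C : ℝ} (h : ∀ x, |f x| ≤ C) (x a b : ℝ) :
    IntervalIntegrable (fun τ => e (-(x * τ)) * (f τ : ℂ)) volume a b := by
  have hm : Measurable fun τ : ℝ => e (-(x * τ)) := (by fun_prop : Continuous _).measurable
  refine ii_of_bdd (f := fun τ => e (-(x * τ)) * (f τ : ℂ))
    (hm.mul (Complex.measurable_ofReal.comp hf)) C (fun τ => ?_) a b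
  rw [norm_mul, norm_e, one_mul, Complex.norm_real]
  exact h τ

lemma co_sub {f g : ℝ → ℝ} (hf : Measurable f) {C : ℝ} (h : ∀ x, |f x| ≤ C)
    (hg : Measurable g) {C' : ℝ} (h' : ∀ x, |g x| ≤ C') (n : ℤ) :
    co (fun τ => f τ - g τ) n = co f n - co g n := by
  unfold co
  rw [← intervalIntegral.integral_sub (ii_co hf h _ _ _) (ii_co hg h' _ _ _)]
  congr 1
  funext τ
  push_cast
  ring

lemma parseval {f : ℝ → ℝ} (hf : Measurable f) {C : ℝ} (h : ∀ x, |f x| ≤ C) :
    HasSum (fun n : ℤ => ‖co f n‖ ^ 2) (∫ τ in (0 : ℝ)..1, f τ ^ 2) := by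
  have hL : MemLp (fun τ => (f τ : ℂ)) 2 (volume.restrict (Set.Ioc (0 : ℝ) 1)) :=
    MemLp.of_bound (Complex.measurable_ofReal.comp hf).aestronglyMeasurable C
      (ae_of_all _ fun τ => by rw [Complex.norm_real]; exact h τ)
  have h1 := hasSum_sq_fourierCoeffOn zero_lt_one hL
  have e1 : ∀ n : ℤ, fourierCoeffOn zero_lt_one (fun τ => (f τ : ℂ)) n = co f n := by
    intro n
    rw [fourierCoeffOn_eq_integral]
    simp only [fourier_coe_apply, sub_zero, div_one, one_smul, smul_eq_mul]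
    unfold co e
    congr 1
    funext τ
    congr 2
    push_cast
    ring
  simp only [e1, sub_zero, inv_one, one_smul, Complex.norm_real, Real.norm_eq_abs, sq_abs] at h1
  exact h1

lemma co_normSq (ψ : ℕ → ℝ) (J d : ℕ) :
    co (fun τ => ‖∑ j ∈ range J, e (ψ j - j * τ)‖ ^ 2 / J) d =
      (∑ j ∈ range (J - d), e (ψ j - ψ (j + d))) / J := by
  have e1 : ∀ τ : ℝ, e (-(((d : ℤ) : ℝ) * τ)) *
      ((‖∑ j ∈ range J, e (ψ j - j * τ)‖ ^ 2 / J : ℝ) : ℂ) =
      ∑ j ∈ range J, ∑ k ∈ range J,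
        e (ψ j - ψ k) / J * e ((((k : ℤ) - j - d : ℤ) : ℝ) * τ) := by
    intro τ
    push_cast
    rw [← Complex.mul_conj', map_sum, sum_mul_sum, sum_div, mul_sum]
    refine sum_congr rfl fun j _ => ?_
    rw [sum_div, mul_sum]
    refine sum_congr rfl fun k _ => ?_
    rw [conj_e, ← e_add, div_mul_eq_mul_div, ← e_add, mul_div_assoc', ← e_add]
    congr 2
    ring
  unfold co
  simp only [e1]
  have hc : ∀ j k : ℕ, Continuous fun τ : ℝ =>
      e (ψ j - ψ k) / J * e ((((k : ℤ) - j - d : ℤ) : ℝ) * τ) := fun j k => by fun_prop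
  rw [intervalIntegral.integral_finsetSum fun j _ =>
    (continuous_finsetSum _ fun k _ => hc j k).intervalIntegrable _ _]
  have e2 : ∀ j ∈ range J, ∫ τ in (0 : ℝ)..1, ∑ k ∈ range J,
      e (ψ j - ψ k) / J * e ((((k : ℤ) - j - d : ℤ) : ℝ) * τ) =
      if j < J - d then e (ψ j - ψ (j + d)) / J else 0 := by
    intro j _
    rw [intervalIntegral.integral_finsetSum fun k _ => (hc j k).intervalIntegrable _ _]
    have e3 : ∀ k ∈ range J, ∫ τ in (0 : ℝ)..1,
        e (ψ j - ψ k) / J * e ((((k : ℤ) - j - d : ℤ) : ℝ) * τ) =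
        if j + d = k then e (ψ j - ψ k) / J else 0 := by
      intro k _
      rw [intervalIntegral.integral_const_mul]
      have := integral_e_int ((k : ℤ) - j - d) 0
      rw [zero_add] at this
      rw [this]
      by_cases hk : j + d = k
      · rw [if_pos hk, if_pos (by omega), mul_one]
      · rw [if_neg hk, if_neg (by omega), mul_zero]
    rw [sum_congr rfl e3, sum_ite_eq]
    simp only [mem_range]
    by_cases hj : j < J - d
    · rw [if_pos hj, if_pos (by omega)]
    · rw [if_neg hj, if_neg (by omega)]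
  rw [sum_congr rfl e2, ← sum_filter, sum_div]
  refine sum_congr ?_ fun _ _ => rfl
  ext j
  simp only [mem_filter, mem_range]
  omega

end Vale.Agent.P130.Chirp
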