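import Vale.Agent.P110.Basic

/-! Intermediate statements for the construction of a rank-one map with simple Lebesgue
spectrum. Each one is a proposition proved in its own file. -/

namespace Vale.Agent.P130

open Finset MeasureTheory Filter Topology
open Vale.Agent.P110 (e)

/-! ### Chirps and combs -/

/-- modulus of the cardinal sine -/
noncomputable def sn (ξ : ℝ) : ℝ := ‖∫ t in (0 : ℝ)..1, e (-(ξ * t))‖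

/-- τ lies in β + [0, lam) + (1 / L) ℤ -/
def arc (L : ℕ) (β lam τ : ℝ) : Prop := Int.fract (L * (τ - β)) < L * lam

noncomputable instance (L : ℕ) (β lam τ : ℝ) : Decidable (arc L β lam τ) := Classical.dec _

/-- a Gauss comb with a slow chirp -/
noncomputable def chirp (L : ℕ) (A : ℤ) (β lam : ℝ) (J : ℕ) (τ : ℝ) : ℂ :=
  ∑ j ∈ range J, e (A * (j : ℝ) ^ 2 / L + β * j + lam * (j : ℝ) ^ 2 / (2 * J) - j * τ)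

def ChirpProp : Prop :=
  ∀ (L : ℕ) (A : ℤ) (β lam : ℝ), 0 < L → IsCoprime (2 * A) (L : ℤ) → 0 < lam →
    2 * (L * lam) ≤ 1 →
    Tendsto (fun J : ℕ => ∫ τ in (0 : ℝ)..1,
      (‖chirp L A β lam J τ‖ / √J - if arc L β lam τ then 1 / √(L * lam) else 0) ^ 2)
      atTop (𝓝 0)

def FejerProp : Prop :=
  ∀ (φ : ℝ → ℝ) (L : ℕ) (β lam : ℝ), IntervalIntegrable φ volume 0 1 → 0 < L → 0 ≤ lam →
    L * lam ≤ 1 →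
    Tendsto (fun B : ℕ => ∫ θ in (0 : ℝ)..1, if arc L β lam (B * θ) then φ θ else 0)
      atTop (𝓝 (L * lam * ∫ θ in (0 : ℝ)..1, φ θ))

def TermProp : Prop :=
  ∀ (w : ℝ → ℝ) (σ : ℤˣ) (h : ℕ) (β₁ lam₁ : ℝ) (L : ℕ) (A : ℤ) (β lam : ℝ), Continuous w →
    Function.Periodic w 1 → 0 < lam₁ → 2 * lam₁ ≤ 1 → 0 < L → IsCoprime (2 * A) (L : ℤ) →
    0 < lam → 2 * (L * lam) ≤ 1 →
    Tendsto (fun B : ℕ => (∫ θ in (0 : ℝ)..1,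
      if arc 1 β₁ lam₁ ((σ : ℤ) * θ) ∧ arc L β lam ((σ : ℤ) * (((B + h : ℕ) : ℝ) * θ)) then
        w θ * (‖chirp 1 0 β₁ lam₁ B ((σ : ℤ) * θ)‖ *
          ‖chirp L A β lam B ((σ : ℤ) * (((B + h : ℕ) : ℝ) * θ))‖) else 0) / B)
      atTop (𝓝 (√(L * lam / lam₁) *
        ∫ θ in (0 : ℝ)..1, if arc 1 β₁ lam₁ ((σ : ℤ) * θ) then w θ else 0))

/-! ### Windows and loads -/

/-- the basic density -/
noncomputable def aa (ε : ℝ) (h : ℕ) : ℝ := 1 / ((1 + ε) * h)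

/-- the window of the mode k -/
def win (ε : ℝ) (h k : ℕ) (θ : ℝ) : Prop := arc 1 (k * aa ε h) (k * ε * aa ε h) θ

noncomputable instance (ε : ℝ) (h k : ℕ) (θ : ℝ) : Decidable (win ε h k θ) := Classical.dec _

/-- the load of the mode k -/
noncomputable def load (ε : ℝ) (h k : ℕ) : ℝ := sn (k * aa ε h) ^ 2 / (k * ε)

def MacroProp : Prop :=
  ∀ η : ℝ, 0 < η → ∃ ε : ℝ, 0 < ε ∧ ε ≤ η ∧ ∃ C : ℝ, 0 < C ∧ ∀ h : ℕ, 0 < h →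
    ∃ (K : Finset ℕ) (lo hi : ℕ → ℤˣ → ℝ),
      (∀ k ∈ K, 0 < k ∧ 2 * (k * ε * aa ε h) ≤ 1) ∧
      (∀ k ∈ K, ∀ σ, lo k σ ≤ hi k σ) ∧
      (∀ k ∈ K, ∀ (σ ρ : ℤˣ) (θ : ℝ), win ε h k ((σ : ℤ) * θ) →
        lo k (σ * ρ) ≤ Int.fract ((ρ : ℤ) * θ) ∧ Int.fract ((ρ : ℤ) * θ) ≤ hi k (σ * ρ)) ∧
      (∀ x : ℝ, ∑ k ∈ K, ∑ σ : ℤˣ, (if lo k σ ≤ x ∧ x ≤ hi k σ then load ε h k else 0)
        ≤ 1 + η) ∧
      ∀ θ : ℝ, C / h ≤ θ → θ ≤ 1 - C / h →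
        1 - η ≤ ∑ k ∈ K, ∑ σ : ℤˣ, if win ε h k ((σ : ℤ) * θ) then load ε h k else 0

def AllocProp : Prop :=
  ∀ (ι : Type) [Fintype ι] (lo hi : ι → ℝ) (n : ι → ℕ) (R : ℕ), (∀ i, lo i ≤ hi i) →
    (∀ x : ℝ, ∑ i, (if lo i ≤ x ∧ x ≤ hi i then n i else 0) ≤ R) →
    ∃ U : ι → Finset (Fin R), (∀ i, (U i).card = n i) ∧
      ∀ i j, i ≠ j → ∀ x : ℝ, lo i ≤ x → x ≤ hi i → lo j ≤ x → x ≤ hi j → Disjoint (U i) (U j)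

/-! ### Modes -/

/-- a two-valued periodic function -/
noncomputable def stp (γ y : ℝ) : ℝ := if Int.fract y < 1 / 2 then γ else 0

/-- modulus of the Fourier coefficients of e (k stp) -/
noncomputable def bb (γ : ℝ) (k : ℕ) (l : ℤ) : ℝ :=
  ‖∫ y in (0 : ℝ)..1, e (k * stp γ y - l * y)‖

def EnergyProp : Prop :=
  ∀ (K : ℕ) (η : ℝ), 0 < η → ∃ (γ : ℝ) (d : ℕ) (T : Finset (Fin d → ℤ)),
    (∀ l ∈ T, ∃ t, l t = 1) ∧ ∀ k : ℕ, 0 < k → k ≤ K →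
      1 - η ≤ ∑ l ∈ T, (∏ t, bb γ k (l t)) ^ 2 ∧ ∑ l ∈ T, (∏ t, bb γ k (l t)) ^ 2 ≤ 1

def ProjProp : Prop :=
  ∀ (a γ : ℝ) (d : ℕ), 0 < a → a < 1 →
    ∀ (Ω Bl I : Type) [Fintype Ω] [DecidableEq Ω] [Fintype Bl] [Fintype I] (seg : Bl → Ω)
      (pos : Bl → I → ℕ) (x : I → ℝ) (X : Bl → ℝ) (Y : Bl → Fin d → ℝ) (w F : ℝ → ℝ),
      Continuous w → (∀ θ, 0 ≤ w θ) → IntervalIntegrable F volume 0 1 →
      (∀ θ, F θ ≤ 0 ∨ ∃ (k : ℕ) (l : Fin d → ℤ) (s : Ω) (σ : ℤˣ), 0 < k ∧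
        F θ ≤ a * sn (k * a) * (∏ t, bb γ k (l t)) *
          ‖∑ β ∈ univ.filter (fun β => seg β = s), ∑ i,
            e (k * (x i + X β) + ∑ t, l t * Y β t - pos β i * ((σ : ℤ) * θ))‖) →
      ∃ Z : Bl → ℝ, ∫ θ in (0 : ℝ)..1, w θ * F θ ≤ ∫ θ in (0 : ℝ)..1, w θ *
        ‖∑ β, ∑ i, if Int.fract (x i + Z β) < a then e (pos β i * θ) else 0‖

def ModeProp : Prop :=
  ∀ (K : ℕ) (η a : ℝ), 0 < η → 0 < a → a < 1 →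
    ∃ (S : Type) (_ : Fintype S) (_ : DecidableEq S) (k : S → ℕ) (μ : S → ℤ) (b : S → ℝ),
      (∀ m, 0 < k m) ∧ (∀ m n, m ≠ n → (k m : ℤ) * μ n ≠ k n * μ m) ∧ (∀ m, 0 ≤ b m) ∧
      (∀ κ : ℕ, 0 < κ → κ ≤ K → 1 - η ≤ ∑ m ∈ univ.filter (fun m => k m = κ), b m ^ 2 ∧
        ∑ m ∈ univ.filter (fun m => k m = κ), b m ^ 2 ≤ 1) ∧
      ∀ (Ω Bl I : Type) [Fintype Ω] [DecidableEq Ω] [Fintype Bl] [Fintype I] (seg : Bl → Ω)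
        (pos : Bl → I → ℕ) (x : I → ℝ) (X Y : Bl → ℝ) (w F : ℝ → ℝ),
        Continuous w → (∀ θ, 0 ≤ w θ) → IntervalIntegrable F volume 0 1 →
        (∀ θ, F θ ≤ 0 ∨ ∃ (m : S) (s : Ω) (σ : ℤˣ),
          F θ ≤ a * sn (k m * a) * b m * ‖∑ β ∈ univ.filter (fun β => seg β = s), ∑ i,
            e (k m * (x i + X β) + μ m * Y β - pos β i * ((σ : ℤ) * θ))‖) →
        ∃ Z : Bl → ℝ, ∫ θ in (0 : ℝ)..1, w θ * F θ ≤ ∫ θ in (0 : ℝ)..1, w θ *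
          ‖∑ β, ∑ i, if Int.fract (x i + Z β) < a then e (pos β i * θ) else 0‖

/-! ### Types, arcs, tiles -/

def TypesProp : Prop :=
  ∀ (S : Type) [Fintype S] [DecidableEq S] (j μ : S → ℤ) (Q : ℕ) (U : S → ℤˣ → Finset (Fin Q))
    (n : S → ℕ), 0 < Q → (∀ m σ, (U m σ).card = n m) → (∀ m, 0 < n m) →
    ∀ (J : ℕ) (η : ℝ), 0 < η →
    ∃ R₀ : ℕ, ∀ R : ℕ, R₀ ≤ R → (∀ m, IsCoprime (j m) (R : ℤ)) →
      (∀ m m', m ≠ m' → IsCoprime (j m * μ m' - j m' * μ m) (R : ℤ)) →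
      ∃ (Ω : Finset (ℤ × ℤ)) (x : ℤ × ℤ → S → ℤ),
        (∀ w ∈ Ω, ∀ m, (R : ℤ) ∣ j m * w.1 + μ m * w.2 - x w m) ∧
        (∀ w ∈ Ω, ∀ m, 2 * (|x w m| + J) < R) ∧
        (∀ w ∈ Ω, ∀ w' ∈ Ω, ∀ (m m' : S) (σ σ' : ℤˣ),
          (∀ ρ : ℤˣ, Disjoint (U m (σ * ρ)) (U m' (σ' * ρ))) → ∀ z : ℤ,
          (J : ℤ) < |(σ : ℤ) * x w m - (σ' : ℤ) * x w' m' - R * z|) ∧
        (∀ m, ∀ y : ℤ, ((Ω.filter (fun w => x w m = y)).card : ℝ)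
          ≤ (1 + η) * R * (∏ m', (n m' : ℝ) / Q) / ((n m : ℝ) / Q)) ∧
        (1 - η) * (R : ℝ) ^ 2 * ∏ m', (n m' : ℝ) / Q ≤ Ω.card

def ArcProp : Prop :=
  ∀ (S : Type) [Fintype S] [DecidableEq S] (k : S → ℕ) (μ : S → ℤ) (Q : ℕ)
    (U : S → ℤˣ → Finset (Fin Q)) (n : S → ℕ), (∀ m, 0 < k m) →
    (∀ m m', m ≠ m' → (k m : ℤ) * μ m' ≠ k m' * μ m) → 0 < Q → (∀ m σ, (U m σ).card = n m) →
    (∀ m, 0 < n m) → ∀ η : ℝ, 0 < η →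
    ∃ (M : ℕ) (u : ℝ × ℝ) (v : Fin M → ℝ × ℝ) (lam : ℝ) (L : S → ℕ) (A : S → ℤ),
      0 < M ∧ 0 < lam ∧
      (∀ m, 0 < L m ∧ IsCoprime (2 * A m) (L m : ℤ) ∧
        k m * u.1 + μ m * u.2 = A m / L m ∧ 2 * (L m * (k m * lam)) ≤ 1 ∧
        (1 - η) * ((n m : ℝ) / Q) ≤ M * (L m * (k m * lam))) ∧
      ∀ (τ : ℝ) (m m' : S) (σ σ' : ℤˣ) (s s' : Fin M),
        arc (L m) (k m * (v s).1 + μ m * (v s).2) (k m * lam) ((σ : ℤ) * τ) →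
        arc (L m') (k m' * (v s').1 + μ m' * (v s').2) (k m' * lam) ((σ' : ℤ) * τ) →
        (m = m' → σ = σ' → s = s') ∧ ¬ ∀ ρ : ℤˣ, Disjoint (U m (σ * ρ)) (U m' (σ' * ρ))

def TileProp : Prop :=
  ∀ η : ℝ, 0 < η → ∃ ε : ℝ, 0 < ε ∧ ε ≤ η ∧ ∃ C : ℝ, 0 < C ∧ ∃ η' : ℝ, 0 < η' ∧
    ∀ h : ℕ, 0 < h → ∃ K : ℕ,
    ∀ (S : Type) [Fintype S] [DecidableEq S] (k : S → ℕ) (μ : S → ℤ) (b : S → ℝ),
      (∀ m, 0 < k m) → (∀ m n, m ≠ n → (k m : ℤ) * μ n ≠ k n * μ m) → (∀ m, 0 ≤ b m) →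
      (∀ κ : ℕ, 0 < κ → κ ≤ K → 1 - η' ≤ ∑ m ∈ univ.filter (fun m => k m = κ), b m ^ 2 ∧
        ∑ m ∈ univ.filter (fun m => k m = κ), b m ^ 2 ≤ 1) →
      ∃ (T : Finset S) (M : ℕ) (u : ℝ × ℝ) (v : Fin M → ℝ × ℝ) (lam : ℝ) (L : S → ℕ)
        (A : S → ℤ), 0 < M ∧ 0 < lam ∧
        (∀ m ∈ T, 0 < L m ∧ IsCoprime (2 * A m) (L m : ℤ) ∧
          k m * u.1 + μ m * u.2 = A m / L m ∧ 2 * (L m * (k m * lam)) ≤ 1 ∧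
          2 * (k m * ε * aa ε h) ≤ 1) ∧
        (∀ (θ τ : ℝ), ∀ m ∈ T, ∀ m' ∈ T, ∀ (σ σ' : ℤˣ) (s s' : Fin M),
          win ε h (k m) ((σ : ℤ) * θ) →
          arc (L m) (k m * (v s).1 + μ m * (v s).2) (k m * lam) ((σ : ℤ) * τ) →
          win ε h (k m') ((σ' : ℤ) * θ) →
          arc (L m') (k m' * (v s').1 + μ m' * (v s').2) (k m' * lam) ((σ' : ℤ) * τ) →
          m = m' ∧ σ = σ' ∧ s = s') ∧
        ∀ θ : ℝ, C / h ≤ θ → θ ≤ 1 - C / h →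
          1 - η ≤ ∑ m ∈ T, ∑ σ : ℤˣ, if win ε h (k m) ((σ : ℤ) * θ) then
            √(M * (L m * (k m * lam))) * √(load ε h (k m)) * b m else 0

/-- the key lemma: weighted flat polynomials with coefficients 0, 1 and long gaps -/
def KeyProp : Prop :=
  ∀ ε : ℝ, 0 < ε → ∃ C : ℝ, 0 < C ∧ ∀ h : ℕ, 0 < h → ∀ w : ℝ → ℝ, Continuous w →
    Function.Periodic w 1 → (∀ θ, 0 ≤ w θ) → ∀ N₀ : ℕ, ∃ N : ℕ, N₀ ≤ N ∧ ∃ Λ : Finset ℕ,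
      (∀ x ∈ Λ, x + h < N) ∧ (∀ x ∈ Λ, ∀ y ∈ Λ, x < y → x + h ≤ y) ∧
      √((N : ℝ) / h) * ((1 - ε) * (∫ θ in Set.Icc (C / h) (1 - C / h), w θ) - ε)
        ≤ ∫ θ in (0 : ℝ)..1, w θ * ‖∑ x ∈ Λ, e (x * θ)‖

/-! ### The rank-one system -/

/-- normalized polynomial of a finite set -/
noncomputable def Pn (Λ : Finset ℕ) (θ : ℝ) : ℂ := (∑ x ∈ Λ, e (x * θ)) / (√(Λ.card : ℝ) : ℝ)

/-- products of consecutive polynomials -/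
noncomputable def PP (Λ : ℕ → Finset ℕ) (k n : ℕ) (θ : ℝ) : ℂ := ∏ j ∈ Ico k n, Pn (Λ j) θ

/-- the parameters of the rank-one construction -/
structure Data (h : ℕ → ℕ) (Λ : ℕ → Finset ℕ) : Prop where
  two : ∀ n, 2 ≤ h n
  top : ∀ n, ∀ x ∈ Λ n, x + h n < h (n + 1)
  gap : ∀ n, ∀ x ∈ Λ n, ∀ y ∈ Λ n, x < y → x + h n ≤ y
  fill : ∀ n, (1 - (1 / 2 : ℝ) ^ (n + 1)) * h (n + 1) ≤ h n * (Λ n).card
  flat : ∀ k n, k ≤ n → ∫ θ in (0 : ℝ)..1,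
    ‖(1 - e θ) * PP Λ k n θ‖ ^ 2 * (‖Pn (Λ n) θ‖ - 1) ^ 2 ≤ (1 / 4 : ℝ) ^ n

def SeqProp : Prop := ∃ h Λ, Data h Λ

/-- Haar measure on the circle -/
noncomputable abbrev haar : Measure (AddCircle (1 : ℝ)) := AddCircle.haarAddCircle

def LimitProp : Prop :=
  ∀ h Λ, Data h Λ → ∃ y : ℕ → Lp ℂ 2 haar,
    (∀ (k l : ℕ) (d : ℤ), Tendsto (fun n : ℕ => ∫ θ in (0 : ℝ)..1,
      (starRingEnd ℂ) ((1 - e θ) * PP Λ k n θ) * ((1 - e θ) * PP Λ l n θ) * e (d * θ)) atTop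
      (𝓝 (∫ z, (starRingEnd ℂ) (y k z) * y l z * fourier d z ∂haar))) ∧
    ∀ g : Lp ℂ 2 haar,
      (∀ (k : ℕ) (d : ℤ), ∫ z, (starRingEnd ℂ) (g z) * (fourier d z * y k z) ∂haar = 0) → g = 0

/-- the symbolic space -/
abbrev Sp : Type := ℤ × ℕ → Bool

/-- the shift by n -/
def shiftBy (n : ℤ) (x : Sp) : Sp := fun p => x (p.1 + n, p.2)

/-- the tower relations -/
def Tower (h : ℕ → ℕ) (Λ : ℕ → Finset ℕ) (x : Sp) : Prop :=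
  (∀ (t : ℤ) (k : ℕ), x (t, k) = true ↔ ∃ a ∈ Λ k, x (t - a, k + 1) = true) ∧
    ∀ (k : ℕ) (s t : ℤ), s < t → x (s, k) = true → x (t, k) = true → s + h k ≤ t

/-- the invariant measure of the rank-one system -/
structure Inv (h : ℕ → ℕ) (Λ : ℕ → Finset ℕ) (μ : Measure Sp) : Prop where
  prob : IsProbabilityMeasure μ
  pres : ∀ n : ℤ, MeasurePreserving (shiftBy n) μ μ
  tower : ∀ᵐ x ∂μ, Tower h Λ x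
  mass : ∀ k, 1 - (1 / 2 : ℝ) ^ k ≤ h k * μ.real {x | x (0, k) = true}

def MeasureProp : Prop := ∀ h Λ, Data h Λ → ∃ μ : Measure Sp, Inv h Λ μ

def GramProp : Prop :=
  ∀ h Λ μ, Data h Λ → Inv h Λ μ → ∀ (k l : ℕ) (s t : ℤ), ∀ᶠ n : ℕ in atTop,
    ((μ.real {x | x (s, k) = true ∧ x (t, l) = true} : ℝ) : ℂ)
      = ((√(μ.real {x | x (0, k) = true}) * √(μ.real {x | x (0, l) = true}) : ℝ) : ℂ) *
        ∫ θ in (0 : ℝ)..1, (starRingEnd ℂ) (PP Λ k n θ) * PP Λ l n θ * e ((s - t : ℤ) * θ)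

def DenseProp : Prop :=
  ∀ h Λ μ, Data h Λ → Inv h Λ μ → NoAtoms μ ∧ ∀ g : Sp → ℂ, Integrable g μ → ∫ x, g x ∂μ = 0 →
    (∀ (t : ℤ) (k : ℕ), ∫ x in {x | x (t, k) = true}, g x ∂μ
      = ∫ x in {x | x (t - 1, k) = true}, g x ∂μ) → g =ᵐ[μ] 0

end Vale.Agent.P130
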