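import Vale.Agent.P130.Defs
import Vale.Agent.P110.Trig

/-! Modes with a coordinate equal to one carry almost all of the energy. -/

namespace Vale.Agent.P130

open Finset MeasureTheory Filter Topology
open Vale.Agent.P110

namespace Energy

lemma measurable_stp (γ : ℝ) : Measurable (stp γ) :=
  Measurable.ite (measurableSet_lt measurable_fract measurable_const) measurable_const
    measurable_const

lemma hasSum_bb (γ : ℝ) (k : ℕ) : HasSum (fun l => bb γ k l ^ 2) 1 := by
  have hm : Measurable fun y => e (k * stp γ y) :=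
    continuous_e.measurable.comp ((measurable_stp γ).const_mul _)
  have h := hasSum_sq_fourierCoeffOn (f := fun y => e (k * stp γ y)) zero_lt_one
    (MemLp.of_bound hm.aestronglyMeasurable 1 (ae_of_all _ fun y => (norm_e _).le))
  have h2 : ∀ l : ℤ, fourierCoeffOn zero_lt_one (fun y => e (k * stp γ y)) l =
      ∫ y in (0 : ℝ)..1, e (k * stp γ y - l * y) := fun l => by
    rw [fourierCoeffOn_eq_integral]
    simp only [fourier_coe_apply, sub_zero, div_one, one_smul, smul_eq_mul]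
    congr 1
    funext y
    rw [e_sub, mul_comm]
    congr 1
    unfold e
    congr 1
    push_cast
    ring
  simpa [h2, bb] using h

lemma bb_one_pos {γ : ℝ} {k : ℕ} (h0 : 0 < k * γ) (h1 : k * γ < 1) : 0 < bb γ k 1 := by
  have hc : Continuous fun y : ℝ => e (-y) := by fun_prop
  have hi : ∀ a b, IntervalIntegrable (fun y => e (k * stp γ y - (1 : ℤ) * y)) volume a b :=
    fun a b => (intervalIntegrable_const (c := (1 : ℝ))).mono_fun'
      (continuous_e.measurable.comp (((measurable_stp γ).const_mul _).sub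
        (measurable_id.const_mul _))).aestronglyMeasurable (ae_of_all _ fun y => (norm_e _).le)
  have e1 : ∫ y in (0 : ℝ)..1 / 2, e (k * stp γ y - (1 : ℤ) * y) =
      e (k * γ) * ∫ y in (0 : ℝ)..1 / 2, e (-y) := by
    rw [← intervalIntegral.integral_const_mul, intervalIntegral.integral_of_le (by norm_num),
      intervalIntegral.integral_of_le (by norm_num), integral_Ioc_eq_integral_Ioo,
      integral_Ioc_eq_integral_Ioo]
    refine setIntegral_congr_fun measurableSet_Ioo fun y hy => ?_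
    have : Int.fract y = y := Int.fract_eq_self.2 ⟨hy.1.le, by linarith [hy.2]⟩
    simp only [stp, this, hy.2, if_true, e_sub, Int.cast_one, one_mul]
  have e2 : ∫ y in (1 / 2 : ℝ)..1, e (k * stp γ y - (1 : ℤ) * y) =
      ∫ y in (1 / 2 : ℝ)..1, e (-y) := by
    rw [intervalIntegral.integral_of_le (by norm_num),
      intervalIntegral.integral_of_le (by norm_num), integral_Ioc_eq_integral_Ioo,
      integral_Ioc_eq_integral_Ioo]
    refine setIntegral_congr_fun measurableSet_Ioo fun y hy => ?_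
    have : Int.fract y = y := Int.fract_eq_self.2 ⟨by linarith [hy.1], hy.2⟩
    simp only [stp, this, not_lt.2 hy.1.le, if_false, Int.cast_one, one_mul, mul_zero, zero_sub]
  have e3 := intervalIntegral.integral_add_adjacent_intervals (hc.intervalIntegrable (μ := volume) 0
    (1 / 2)) (hc.intervalIntegrable (1 / 2) 1)
  have e4 : ∫ y in (0 : ℝ)..1, e (-y) = 0 := by simpa using integral_e_int (-1) 0
  have e5 : ∫ y in (0 : ℝ)..1 / 2, e (-y) ≠ 0 := by
    intro h
    have hd : ∀ y ∈ Set.uIcc (0 : ℝ) (1 / 2), HasDerivAt (fun y : ℝ => e (-y))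
        (((2 * Real.pi * (-1) : ℝ) : ℂ) * Complex.I * e (-y)) y := fun y _ =>
      HasDerivAt.e_comp (hasDerivAt_neg y)
    have h2 := intervalIntegral.integral_eq_sub_of_hasDerivAt hd
      ((hc.const_mul _).intervalIntegrable _ _)
    rw [intervalIntegral.integral_const_mul, h, mul_zero, neg_zero, e_zero, eq_comm, sub_eq_zero,
      e_eq_one_iff] at h2
    obtain ⟨n, hn⟩ := h2
    have h3 : (2 * n : ℤ) = -1 := by
      have : (2 * n : ℝ) = -1 := by linarith
      exact_mod_cast this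
    omega
  have e6 : e (k * γ) ≠ 1 := by
    rw [Ne, e_eq_one_iff]
    rintro ⟨n, hn⟩
    rw [hn] at h0 h1
    have h2 : 0 < n := by exact_mod_cast h0
    have h3 : n < 1 := by exact_mod_cast h1
    omega
  rw [bb, norm_pos_iff, ← intervalIntegral.integral_add_adjacent_intervals (hi 0 (1 / 2))
    (hi (1 / 2) 1), e1, e2, eq_neg_of_add_eq_zero_right (e3.trans e4), ← sub_eq_add_neg,
    ← sub_one_mul]
  exact mul_ne_zero (sub_ne_zero.2 e6) e5

end Energy

open Energy

theorem energy_prop : EnergyProp := by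
  intro K η hη
  set γ : ℝ := 1 / (K + 1) with hγ
  have hle : ∀ k (s : Finset ℤ), ∑ l ∈ s, bb γ k l ^ 2 ≤ 1 := fun k s =>
    sum_le_hasSum s (fun _ _ => sq_nonneg _) (hasSum_bb γ k)
  have h1 : ∀ᶠ d : ℕ in atTop, ∀ k ∈ Icc 1 K, (1 - bb γ k 1 ^ 2) ^ d ≤ η / 2 := by
    refine (eventually_all_finset _).2 fun k hk => ?_
    obtain ⟨hk1, hk2⟩ := mem_Icc.1 hk
    have hk1' : (1 : ℝ) ≤ k := by exact_mod_cast hk1
    have hk2' : (k : ℝ) ≤ K := by exact_mod_cast hk2
    have h2 := bb_one_pos (γ := γ) (k := k) (by positivity)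
      (by rw [hγ, mul_one_div, div_lt_one (by positivity)]; linarith)
    have h3 := hle k {1}
    rw [sum_singleton] at h3
    exact (tendsto_pow_atTop_nhds_zero_of_lt_one (by linarith)
      (by linarith [pow_pos h2 2])).eventually (ge_mem_nhds (half_pos hη))
  obtain ⟨d, hd⟩ := h1.exists
  have h2 : ∀ᶠ s : Finset ℤ in atTop, ∀ k ∈ Icc 1 K, 1 - η / 2 ≤ (∑ l ∈ s, bb γ k l ^ 2) ^ d := by
    refine (eventually_all_finset _).2 fun k _ => ?_
    have h3 : Tendsto (fun s : Finset ℤ => (∑ l ∈ s, bb γ k l ^ 2) ^ d) atTop (𝓝 (1 ^ d)) :=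
      Tendsto.pow (hasSum_bb γ k) d
    exact h3.eventually (le_mem_nhds (by rw [one_pow]; linarith))
  obtain ⟨s, hs⟩ := h2.exists
  have hp : ∀ k (s : Finset ℤ), ∑ l ∈ Fintype.piFinset fun _ : Fin d => s,
      (∏ t, bb γ k (l t)) ^ 2 = (∑ l ∈ s, bb γ k l ^ 2) ^ d := fun k s => by
    simp only [← prod_pow]
    rw [← prod_univ_sum (fun _ : Fin d => s) fun _ l => bb γ k l ^ 2]
    simp
  have hsub : (Fintype.piFinset fun _ : Fin d => s.erase 1) ⊆ Fintype.piFinset fun _ => s :=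
    Fintype.piFinset_subset _ _ fun _ => erase_subset _ _
  refine ⟨γ, d, (Fintype.piFinset fun _ => s) \ Fintype.piFinset fun _ => s.erase 1,
    fun l hl => ?_, fun k hk hK => ?_⟩
  · by_contra hn
    push Not at hn
    rw [Finset.mem_sdiff, Fintype.mem_piFinset, Fintype.mem_piFinset] at hl
    exact hl.2 fun t => mem_erase.2 ⟨hn t, hl.1 t⟩
  have h0 : ∀ s : Finset ℤ, 0 ≤ ∑ l ∈ s, bb γ k l ^ 2 := fun s => sum_nonneg fun _ _ => sq_nonneg _
  have h3 := hle k (insert 1 (s.erase 1))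
  rw [sum_insert (notMem_erase _ _)] at h3
  have h4 := pow_le_pow_left₀ (h0 (s.erase 1)) (le_sub_iff_add_le'.2 h3) d
  have h5 := pow_le_one₀ (n := d) (h0 s) (hle k s)
  have h6 := pow_nonneg (h0 (s.erase 1)) d
  rw [sum_sdiff_eq_sub hsub, hp, hp]
  constructor <;> linarith [hd k (mem_Icc.2 ⟨hk, hK⟩), hs k (mem_Icc.2 ⟨hk, hK⟩)]

theorem mode_prop (h : ProjProp) : ModeProp := by
  intro K η a hη ha0 ha1
  obtain ⟨γ, d, T, hT, hE⟩ := energy_prop K η hη
  obtain ⟨M, hM⟩ : ∃ M : ℤ, ∀ l ∈ T, ∀ t, |l t| ≤ M := by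
    obtain ⟨M, hM⟩ := ((T ×ˢ (univ : Finset (Fin d))).image fun p => |p.1 p.2|).bddAbove
    exact ⟨M, fun l hl t => hM (mem_coe.2 (mem_image.2 ⟨(l, t), by simp [hl], rfl⟩))⟩
  set B : ℤ := 2 * K * M + 1 with hB
  refine ⟨Icc 1 K × T, inferInstance, inferInstance, fun m => m.1,
    fun m => ∑ t, m.2.1 t * B ^ (t : ℕ), fun m => ∏ t, bb γ m.1 (m.2.1 t),
    fun m => (mem_Icc.1 m.1.2).1, ?_, fun m => prod_nonneg fun _ _ => norm_nonneg _,
    fun κ h1 h2 => ?_, ?_⟩
  · rintro ⟨⟨k, hk⟩, ⟨l, hl⟩⟩ ⟨⟨k', hk'⟩, ⟨l', hl'⟩⟩ hne heq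
    simp only at heq
    have hb : ∀ k ∈ Icc 1 K, ∀ l ∈ T, ∀ t, |(k : ℤ) * l t| ≤ K * M := fun k hk l hl t => by
      rw [abs_mul, Nat.abs_cast]
      exact mul_le_mul (by exact_mod_cast (mem_Icc.1 hk).2) (hM l hl t) (abs_nonneg _)
        (Nat.cast_nonneg _)
    have h1 := Trig.digits_zero B d (fun t => k * l' t - k' * l t) (fun t => by
      have := abs_sub (k * l' t) (k' * l t)
      linarith [hb k hk l' hl' t, hb k' hk' l hl t]) (by
      simp only [sub_mul, sum_sub_distrib, mul_assoc, ← mul_sum]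
      rw [heq, sub_self])
    obtain ⟨t, ht⟩ := hT l hl
    obtain ⟨t', ht'⟩ := hT l' hl'
    have h2 := h1 t
    have h3 := h1 t'
    simp only [ht, ht', mul_one, sub_eq_zero] at h2 h3
    obtain rfl : k = k' := Nat.dvd_antisymm (Int.natCast_dvd_natCast.1 ⟨_, h2.symm⟩)
      (Int.natCast_dvd_natCast.1 ⟨_, h3⟩)
    obtain rfl : l = l' := funext fun t => by
      have h4 : (k : ℤ) ≠ 0 := by have := (mem_Icc.1 hk).1; omega
      exact (mul_left_cancel₀ h4 (sub_eq_zero.1 (h1 t))).symm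
    exact hne rfl
  · have : ∑ m ∈ univ.filter (fun m : Icc 1 K × T => (m.1 : ℕ) = κ),
        (∏ t, bb γ m.1 (m.2.1 t)) ^ 2 = ∑ l ∈ T, (∏ t, bb γ κ (l t)) ^ 2 := by
      rw [sum_filter, Fintype.sum_prod_type, sum_eq_single ⟨κ, mem_Icc.2 ⟨h1, h2⟩⟩
        (fun k _ hk => by simp [show (k : ℕ) ≠ κ from fun h => hk (Subtype.ext h)]) (by simp)]
      simpa using sum_coe_sort T fun l => (∏ t, bb γ κ (l t)) ^ 2
    rw [this]
    exact hE κ h1 h2
  · intro Ω Bl I _ _ _ _ seg pos x X Y w F hw hw0 hF hb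
    refine h a γ d ha0 ha1 Ω Bl I seg pos x X (fun β t => B ^ (t : ℕ) * Y β) w F hw hw0 hF
      fun θ => (hb θ).imp_right ?_
    rintro ⟨m, s, σ, hm⟩
    refine ⟨m.1, m.2, s, σ, (mem_Icc.1 m.1.2).1, ?_⟩
    simpa only [Int.cast_sum, Int.cast_mul, Int.cast_pow, sum_mul, mul_assoc] using hm

end Vale.Agent.P130
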