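import Vale.Agent.P130.Defs

/-! The spectral isomorphism. -/

namespace Vale.Agent.P130

open Finset MeasureTheory Filter Topology
open Vale.Agent.P110
open scoped InnerProductSpace

namespace Final

lemma exists_isometry {H K ι : Type} [NormedAddCommGroup H] [InnerProductSpace ℂ H]
    [CompleteSpace H] [NormedAddCommGroup K] [InnerProductSpace ℂ K] [CompleteSpace K]
    (x : ι → H) (y : ι → K) (hg : ∀ p q, ⟪x p, x q⟫_ℂ = ⟪y p, y q⟫_ℂ)
    (hd : ∀ g : K, (∀ p, ⟪y p, g⟫_ℂ = 0) → g = 0) :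
    ∃ Φ : K →L[ℂ] H, (∀ p, Φ (y p) = x p) ∧ (∀ u v, ⟪Φ u, Φ v⟫_ℂ = ⟪u, v⟫_ℂ) ∧
      ∀ c : H, (∀ p, ⟪c, x p⟫_ℂ = 0) → ∀ u, ⟪c, Φ u⟫_ℂ = 0 := by
  let A : (ι →₀ ℂ) →ₗ[ℂ] H := Finsupp.linearCombination ℂ x
  let B : (ι →₀ ℂ) →ₗ[ℂ] K := Finsupp.linearCombination ℂ y
  have hAB : ∀ c c', ⟪A c, A c'⟫_ℂ = ⟪B c, B c'⟫_ℂ := by
    intro c c'
    simp only [A, B, Finsupp.linearCombination_apply, Finsupp.sum, sum_inner, inner_sum,
      inner_smul_left, inner_smul_right, hg]
  have hn : ∀ c, ‖A c‖ ≤ 1 * ‖B c‖ := by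
    intro c
    rw [one_mul, @norm_eq_sqrt_re_inner ℂ, @norm_eq_sqrt_re_inner ℂ, hAB]
  have hdense : DenseRange B := by
    have h1 : (LinearMap.range B).topologicalClosure = ⊤ := by
      rw [Submodule.topologicalClosure_eq_top_iff, Submodule.eq_bot_iff]
      intro g hg'
      refine hd g fun p => hg' _ ⟨Finsupp.single p 1, ?_⟩
      simp [B]
    have h2 : Dense ((LinearMap.range B : Submodule ℂ K) : Set K) :=
      Submodule.dense_iff_topologicalClosure_eq_top.2 h1
    rwa [LinearMap.coe_range] at h2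
  have hΦ : ∀ c, A.extendOfNorm B (B c) = A c := LinearMap.extendOfNorm_eq hdense ⟨1, hn⟩
  refine ⟨A.extendOfNorm B, fun p => ?_, fun u v => ?_, fun c hc u => ?_⟩
  · have := hΦ (Finsupp.single p 1)
    simpa [A, B] using this
  · refine hdense.induction_on₂ (p := fun u v => ⟪A.extendOfNorm B u, A.extendOfNorm B v⟫_ℂ
      = ⟪u, v⟫_ℂ) (isClosed_eq (by fun_prop) (by fun_prop)) (fun c c' => ?_) u v
    rw [hΦ, hΦ, hAB]
  · refine hdense.induction_on (p := fun u => ⟪c, A.extendOfNorm B u⟫_ℂ = 0) u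
      (isClosed_eq (by fun_prop) continuous_const) fun c' => ?_
    rw [hΦ]
    simp only [A, Finsupp.linearCombination_apply, Finsupp.sum, inner_sum, inner_smul_right, hc,
      mul_zero, sum_const_zero]

lemma measurable_shiftBy (n : ℤ) : Measurable (shiftBy n) :=
  measurable_pi_lambda _ fun _ => measurable_pi_apply _

/-- the shift as a measurable equivalence -/
def shiftE : Sp ≃ᵐ Sp where
  toFun := shiftBy 1
  invFun := shiftBy (-1)
  left_inv x := by funext p; simp [shiftBy]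
  right_inv x := by funext p; simp [shiftBy]
  measurable_toFun := measurable_shiftBy 1
  measurable_invFun := measurable_shiftBy (-1)

lemma shiftE_zpow (n : ℤ) (x : Sp) : (shiftE.toEquiv ^ n : Equiv.Perm Sp) x = shiftBy n x := by
  induction n using Int.induction_on generalizing x with
  | zero => funext p; simp [shiftBy]
  | succ n ih =>
    rw [zpow_add_one, Equiv.Perm.mul_apply, ih]
    funext p
    simp [shiftBy, shiftE, add_assoc]
  | pred n ih =>
    rw [zpow_sub_one, Equiv.Perm.mul_apply, ih]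
    funext p
    change shiftBy (-n) (shiftBy (-1) x) p = _
    simp only [shiftBy]
    congr 2
    ring

lemma meas_cyl (t : ℤ) (k : ℕ) : MeasurableSet {x : Sp | x (t, k) = true} :=
  measurableSet_eq_fun (measurable_pi_apply _) measurable_const

lemma beta_pos {h : ℕ → ℕ} {Λ : ℕ → Finset ℕ} {μ : Measure Sp} (hD : Data h Λ)
    (hI : Inv h Λ μ) (k : ℕ) : 0 < μ.real {x | x (0, k) = true} := by
  haveI := hI.prob
  have h1 : (1 / 2 : ℝ) ^ (k + 1) < 1 := pow_lt_one₀ (by norm_num) (by norm_num) (by omega)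
  have h2 : 0 < μ.real {x | x (0, k + 1) = true} := by
    have := hI.mass (k + 1)
    by_contra hc
    have h3 : μ.real {x | x (0, k + 1) = true} = 0 := le_antisymm (not_lt.1 hc) measureReal_nonneg
    rw [h3, mul_zero] at this
    linarith
  obtain ⟨a, ha⟩ : (Λ k).Nonempty := by
    rw [← card_pos]
    by_contra hc
    have h3 : (Λ k).card = 0 := by omega
    have h4 := hD.fill k
    have h5 : (2 : ℝ) ≤ h (k + 1) := by exact_mod_cast hD.two (k + 1)
    rw [h3, Nat.cast_zero, mul_zero] at h4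
    nlinarith
  have h3 := (hI.pres (0 - a)).measureReal_preimage (meas_cyl 0 (k + 1)).nullMeasurableSet
  rw [← h3] at h2
  refine h2.trans_le (ENNReal.toReal_mono (measure_ne_top _ _) (measure_mono_ae ?_))
  filter_upwards [hI.tower] with x hx hx'
  refine (hx.1 0 k).2 ⟨a, ha, ?_⟩
  have hx'' : x (0 + (0 - (a : ℤ)), k + 1) = true := hx'
  rwa [zero_add] at hx''

lemma cont_e : Continuous e := by
  unfold e
  fun_prop

lemma cont_PP (Λ : ℕ → Finset ℕ) (k n : ℕ) : Continuous (PP Λ k n) := by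
  unfold PP Pn
  exact continuous_finset_prod _ fun j _ =>
    (continuous_finset_sum _ fun x _ => cont_e.comp (by fun_prop)).div_const _

end Final

open Final

theorem final (h1 : SeqProp) (h2 : LimitProp) (h3 : MeasureProp) (h4 : GramProp)
    (h5 : DenseProp) :
    ∃ (X : Type) (_ : MeasurableSpace X) (_ : StandardBorelSpace X) (μ : Measure X)
      (_ : IsProbabilityMeasure μ) (_ : NoAtoms μ) (T : X ≃ᵐ X) (_ : MeasurePreserving T μ μ)
      (f : ℤ → Lp ℂ 2 μ),
      (∀ n : ℤ, f n =ᵐ[μ] f 0 ∘ (T.toEquiv ^ n : Equiv.Perm X)) ∧ Orthonormal ℂ f ∧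
        ∀ g : Lp ℂ 2 μ,
          g ∈ (Submodule.span ℂ (Set.range f)).topologicalClosure ↔ ∫ x, g x ∂μ = 0 := by
  obtain ⟨h, Λ, hD⟩ := h1
  obtain ⟨y, hy1, hy2⟩ := h2 h Λ hD
  obtain ⟨μ, hI⟩ := h3 h Λ hD
  haveI := hI.prob
  obtain ⟨hna, hdense⟩ := h5 h Λ μ hD hI
  have hβ := beta_pos hD hI
  set β : ℕ → ℝ := fun k => μ.real {x | x (0, k) = true} with hβdef
  have hsβ : ∀ k, ((√(β k) : ℝ) : ℂ) ≠ 0 := fun k =>
    Complex.ofReal_ne_zero.2 (Real.sqrt_pos.2 (hβ k)).ne'
  let ξ : ℤ → ℕ → Lp ℂ 2 μ := fun t k =>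
    indicatorConstLp 2 (meas_cyl t k) (measure_ne_top _ _) (1 : ℂ)
  have hξ : ∀ t k (g : Lp ℂ 2 μ), ⟪ξ t k, g⟫_ℂ = ∫ x in {x | x (t, k) = true}, g x ∂μ :=
    fun t k g => L2.inner_indicatorConstLp_one (meas_cyl t k) (measure_ne_top _ _) g
  let one : Lp ℂ 2 μ := indicatorConstLp 2 MeasurableSet.univ (measure_ne_top _ _) (1 : ℂ)
  have hone : ∀ g : Lp ℂ 2 μ, ⟪one, g⟫_ℂ = ∫ x, g x ∂μ := fun g => by
    rw [L2.inner_indicatorConstLp_one, Measure.restrict_univ]
  let xx : ℤ × ℕ → Lp ℂ 2 μ := fun p =>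
    ((√(β p.2) : ℝ) : ℂ)⁻¹ • (ξ (-p.1) p.2 - ξ (-p.1 - 1) p.2)
  have hmem : ∀ p : ℤ × ℕ, MemLp (fun z => fourier p.1 z * y p.2 z) 2 haar := fun p =>
    (Lp.memLp (y p.2)).congr_norm ((fourier p.1).continuous.aestronglyMeasurable.mul
      (Lp.aestronglyMeasurable _)) (ae_of_all _ fun z => by
        simp only [fourier_apply, norm_mul, Circle.norm_coe, one_mul])
  let yy : ℤ × ℕ → Lp ℂ 2 haar := fun p => (hmem p).toLp _
  have hyy : ∀ p (g : Lp ℂ 2 haar), ⟪yy p, g⟫_ℂ
      = ∫ z, (starRingEnd ℂ) (fourier p.1 z * y p.2 z) * g z ∂haar := fun p g => by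
    rw [L2.inner_def]
    refine integral_congr_ae ?_
    filter_upwards [(hmem p).coeFn_toLp] with z hz
    simp only [yy]
    rw [hz, RCLike.inner_apply, mul_comm]
  have hξξ : ∀ s k t l, ⟪ξ s k, ξ t l⟫_ℂ
      = ((μ.real {x | x (s, k) = true ∧ x (t, l) = true} : ℝ) : ℂ) := fun s k t l =>
    L2.inner_indicatorConstLp_one_indicatorConstLp_one (meas_cyl s k) (meas_cyl t l)
      (measure_ne_top _ _) (measure_ne_top _ _)
  have hgram : ∀ p q, ⟪xx p, xx q⟫_ℂ = ⟪yy p, yy q⟫_ℂ := by
    rintro ⟨i, k⟩ ⟨j, l⟩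
    have a1 : ⟪yy (i, k), yy (j, l)⟫_ℂ
        = ∫ z, (starRingEnd ℂ) (y k z) * y l z * fourier (j - i) z ∂haar := by
      rw [hyy]
      refine integral_congr_ae ?_
      filter_upwards [(hmem (j, l)).coeFn_toLp] with z hz
      simp only [yy, hz, map_mul, ← fourier_neg, sub_eq_add_neg, fourier_add]
      ring
    rw [a1]
    refine tendsto_nhds_unique (tendsto_const_nhds.congr' ?_) (hy1 k l (j - i))
    filter_upwards [h4 h Λ μ hD hI k l (-i) (-j), h4 h Λ μ hD hI k l (-i) (-j - 1),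
      h4 h Λ μ hD hI k l (-i - 1) (-j), h4 h Λ μ hD hI k l (-i - 1) (-j - 1)] with n b1 b2 b3 b4
    have hc : ∀ d : ℤ, IntervalIntegrable (fun θ : ℝ => (starRingEnd ℂ) (PP Λ k n θ) *
        PP Λ l n θ * e (d * θ)) volume 0 1 := fun d =>
      (((Complex.continuous_conj.comp (cont_PP Λ k n)).mul (cont_PP Λ l n)).mul
        (cont_e.comp (by fun_prop))).intervalIntegrable _ _
    simp only [xx, inner_smul_left, inner_smul_right, inner_sub_left, inner_sub_right, hξξ,
      b1, b2, b3, b4, map_inv₀, Complex.conj_ofReal, Complex.ofReal_mul]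
    rw [← mul_sub, ← mul_sub, ← mul_sub, ← intervalIntegral.integral_sub (hc _) (hc _),
      ← intervalIntegral.integral_sub (hc _) (hc _), ← mul_sub,
      ← intervalIntegral.integral_sub ((hc _).sub (hc _)) ((hc _).sub (hc _))]
    have b5 := hsβ k
    have b6 := hsβ l
    simp only [hβdef] at b5 b6 ⊢
    field_simp
    refine intervalIntegral.integral_congr fun θ _ => ?_
    have c1 : e (((-i - -j : ℤ) : ℝ) * θ) = e (((j - i : ℤ) : ℝ) * θ) := by
      congr 1; push_cast; ring
    have c2 : e (((-i - (-j - 1) : ℤ) : ℝ) * θ) = e (((j - i : ℤ) : ℝ) * θ) * e θ := by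
      rw [← e_add]; congr 1; push_cast; ring
    have c3 : e (((-i - 1 - -j : ℤ) : ℝ) * θ) = e (((j - i : ℤ) : ℝ) * θ) * e (-θ) := by
      rw [← e_add]; congr 1; push_cast; ring
    have c4 : e (((-i - 1 - (-j - 1) : ℤ) : ℝ) * θ) = e (((j - i : ℤ) : ℝ) * θ) := by
      congr 1; push_cast; ring
    have c5 := e_mul_e_neg θ
    simp only [mul_comm θ, c1, c2, c3, c4, map_mul, map_sub, map_one, conj_e]
    linear_combination (-(starRingEnd ℂ) (PP Λ k n θ) * PP Λ l n θ *
      e (((j - i : ℤ) : ℝ) * θ)) * c5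
  obtain ⟨Φ, hΦ1, hΦ2, hΦ3⟩ := exists_isometry xx yy hgram (fun g hg => by
    refine hy2 g fun k d => ?_
    have := congrArg (starRingEnd ℂ) ((hyy (d, k) g).symm.trans (hg (d, k)))
    rw [← integral_conj, map_zero] at this
    rw [← this]
    refine integral_congr_ae (ae_of_all _ fun z => ?_)
    simp only [map_mul, Complex.conj_conj]
    ring)
  have hcyl : ∀ t k, μ.real {x | x (t, k) = true} = β k := fun t k => by
    have := (hI.pres t).measureReal_preimage (meas_cyl 0 k).nullMeasurableSet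
    simpa [shiftBy, hβdef] using this
  have hmean : ∀ u, ∫ x, Φ u x ∂μ = 0 := fun u => by
    rw [← hone]
    refine hΦ3 one (fun p => ?_) u
    have b1 : ∀ t k, ⟪one, ξ t k⟫_ℂ = (β k : ℂ) := fun t k => by
      rw [← hcyl t k]
      have := L2.inner_indicatorConstLp_one_indicatorConstLp_one (𝕜 := ℂ) (μ := μ)
        MeasurableSet.univ (meas_cyl t k) (measure_ne_top _ _) (measure_ne_top _ _)
      rwa [Set.univ_inter] at this
    simp only [xx, inner_smul_right, inner_sub_right, b1, sub_self, mul_zero]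
  have hzero : ∀ g : Lp ℂ 2 μ, ∫ x, g x ∂μ = 0 → (∀ p, ⟪xx p, g⟫_ℂ = 0) → g = 0 := by
    intro g hg0 hg
    refine Lp.ext ((hdense g ((Lp.memLp g).integrable one_le_two) hg0 fun t k => ?_).trans
      (Lp.coeFn_zero _ _ _).symm)
    have := hg (-t, k)
    simp only [xx, inner_smul_left, inner_sub_left, hξ, neg_neg, map_inv₀, Complex.conj_ofReal,
      mul_eq_zero, inv_eq_zero, hsβ k, false_or] at this
    exact sub_eq_zero.1 this
  let f : ℤ → Lp ℂ 2 μ := fun n => Φ (fourierLp 2 (-n))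
  refine ⟨Sp, inferInstance, inferInstance, μ, inferInstance, hna, shiftE, hI.pres 1, f,
    fun n => ?_, ?_, fun g => ⟨fun hg => ?_, fun hg => ?_⟩⟩
  · have hcomp : (f 0 : Sp → ℂ) ∘ (shiftE.toEquiv ^ n : Equiv.Perm Sp) = f 0 ∘ shiftBy n := by
      funext x
      simp only [Function.comp_apply, shiftE_zpow]
    rw [hcomp]
    set G := Lp.compMeasurePreserving (shiftBy n) (hI.pres n) (f 0) with hG
    have hGa : G =ᵐ[μ] f 0 ∘ shiftBy n := Lp.coeFn_compMeasurePreserving _ _
    have hset : ∀ (s : Set Sp), MeasurableSet s →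
        ∫ x in shiftBy n ⁻¹' s, G x ∂μ = ∫ x in s, f 0 x ∂μ := fun s hs => by
      rw [integral_congr_ae (ae_restrict_of_ae hGa)]
      have b1 := ((hI.pres n).restrict_preimage hs).map_eq
      rw [← b1, integral_map (measurable_shiftBy n).aemeasurable]
      · rfl
      · rw [b1]
        exact (Lp.aestronglyMeasurable _).restrict
    suffices hfg : f n = G by rw [hfg]; exact hGa
    refine sub_eq_zero.1 (hzero _ ?_ fun p => ?_)
    · rw [← hone, inner_sub_right, hone, hone, hmean]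
      have := hset Set.univ MeasurableSet.univ
      simp only [Set.preimage_univ, Measure.restrict_univ] at this
      rw [this, hmean, sub_zero]
    · obtain ⟨i, k⟩ := p
      rw [inner_sub_right, sub_eq_zero]
      have b1 : ⟪xx (i, k), f n⟫_ℂ = ⟪xx (i + n, k), f 0⟫_ℂ := by
        rw [← hΦ1, ← hΦ1, hΦ2, hΦ2, hyy, hyy]
        refine integral_congr_ae ?_
        filter_upwards [coeFn_fourierLp (T := 1) 2 (-n), coeFn_fourierLp (T := 1) 2 (-0)]
          with z c1 c2
        rw [c1, c2]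
        simp only [map_mul, ← fourier_neg, neg_add, fourier_add, neg_zero, fourier_zero]
        ring
      have b2 : ∀ t : ℤ, ⟪ξ t k, G⟫_ℂ = ⟪ξ (t - n) k, f 0⟫_ℂ := fun t => by
        rw [hξ, hξ, ← hset _ (meas_cyl _ _)]
        simp [shiftBy]
      rw [b1]
      simp only [xx, inner_smul_left, inner_sub_left, b2]
      congr 4 <;> ring
  · rw [orthonormal_iff_ite]
    intro i j
    simp only [f, hΦ2]
    rw [orthonormal_iff_ite.1 orthonormal_fourier]
    simp
  · have b1 : (Submodule.span ℂ (Set.range f)).topologicalClosure ≤ (ℂ ∙ one)ᗮ := by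
      refine Submodule.topologicalClosure_minimal _ (Submodule.span_le.2 ?_)
        (Submodule.isClosed_orthogonal _)
      rintro _ ⟨n, rfl⟩
      exact Submodule.mem_orthogonal_singleton_iff_inner_right.2 ((hone _).trans (hmean _))
    rw [← hone]
    exact Submodule.mem_orthogonal_singleton_iff_inner_right.1 (b1 hg)
  · set S := (Submodule.span ℂ (Set.range f)).topologicalClosure with hS
    have b1 : ∀ u, Φ u ∈ S := by
      have c1 : (Submodule.span ℂ (Set.range (fourierLp (T := 1) 2))).topologicalClosure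
          ≤ S.comap (Φ : Lp ℂ 2 haar →ₗ[ℂ] Lp ℂ 2 μ) := by
        refine Submodule.topologicalClosure_minimal _ (Submodule.span_le.2 ?_)
          ((Submodule.isClosed_topologicalClosure _).preimage Φ.continuous)
        rintro _ ⟨n, rfl⟩
        refine Submodule.le_topologicalClosure _ (Submodule.subset_span ⟨-n, ?_⟩)
        simp [f]
      rw [span_fourierLp_closure_eq_top (by norm_num)] at c1
      exact fun u => c1 Submodule.mem_top
    haveI : CompleteSpace S := (Submodule.isClosed_topologicalClosure _).completeSpace_coe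
    obtain ⟨s, hs, g', hg', rfl⟩ := S.exists_add_mem_mem_orthogonal g
    have b2 : ∫ x, s x ∂μ = 0 := by
      have c1 : S ≤ (ℂ ∙ one)ᗮ := by
        refine Submodule.topologicalClosure_minimal _ (Submodule.span_le.2 ?_)
          (Submodule.isClosed_orthogonal _)
        rintro _ ⟨n, rfl⟩
        exact Submodule.mem_orthogonal_singleton_iff_inner_right.2 ((hone _).trans (hmean _))
      rw [← hone]
      exact Submodule.mem_orthogonal_singleton_iff_inner_right.1 (c1 hs)
    have b3 : g' = 0 := by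
      refine hzero g' ?_ fun p => ?_
      · rw [← hone, inner_add_right, hone, hone, b2, zero_add] at hg
        exact hg
      · rw [← hΦ1]
        exact hg' _ (b1 _)
    rw [b3, add_zero]
    exact hs

end Vale.Agent.P130
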