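import Vale.Agent.P130.Defs

/-! Correlations of the rank-one system, absence of atoms and density of the towers. -/

namespace Vale.Agent.P130

open Finset MeasureTheory Filter Topology
open Vale.Agent.P110 (e)

namespace Gram

/-- positions of the level k towers inside the level k + m tower -/
def Lam (Λ : ℕ → Finset ℕ) (k : ℕ) : ℕ → Finset ℕ
  | 0 => {0}
  | m + 1 => (Lam Λ k m ×ˢ Λ (k + m)).image fun p => p.1 + p.2

variable {h : ℕ → ℕ} {Λ : ℕ → Finset ℕ} {μ : Measure Sp}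

lemma Lam_le (D : Data h Λ) (k : ℕ) : ∀ m, ∀ x ∈ Lam Λ k m, x + h k + m ≤ h (k + m)
  | 0, x, hx => by
    have : x = 0 := by simpa [Lam] using hx
    simp [this]
  | m + 1, x, hx => by
    obtain ⟨⟨a, b⟩, hp, rfl⟩ := mem_image.mp hx
    obtain ⟨ha, hb⟩ := mem_product.mp hp
    have h1 := Lam_le D k m a ha
    have h2 := D.top (k + m) b hb
    show a + b + h k + (m + 1) ≤ h (k + m + 1)
    omega

lemma Lam_inj (D : Data h Λ) (k m : ℕ) :
    Set.InjOn (fun p : ℕ × ℕ => p.1 + p.2) (Lam Λ k m ×ˢ Λ (k + m) : Finset (ℕ × ℕ)) := by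
  rintro ⟨a, b⟩ hp ⟨a', b'⟩ hp' hs
  obtain ⟨ha, hb⟩ := mem_product.mp (mem_coe.mp hp)
  obtain ⟨ha', hb'⟩ := mem_product.mp (mem_coe.mp hp')
  have h1 := Lam_le D k m a ha
  have h2 := Lam_le D k m a' ha'
  have h3 := D.two k
  simp only at hs ha hb ha' hb'
  have : b = b' := by
    rcases lt_trichotomy b b' with h4 | h4 | h4
    · have := D.gap _ b hb b' hb' h4
      omega
    · exact h4
    · have := D.gap _ b' hb' b hb h4
      omega
  subst this
  have : a = a' := by omega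
  rw [this]

lemma nonempty (D : Data h Λ) (n : ℕ) : (Λ n).Nonempty := by
  rw [← card_pos]
  by_contra h0
  have h1 : (Λ n).card = 0 := by omega
  have h2 := D.fill n
  rw [h1] at h2
  have h3 : (2 : ℝ) ≤ h (n + 1) := by exact_mod_cast D.two (n + 1)
  have h4 : (1 / 2 : ℝ) ^ (n + 1) < 1 := pow_lt_one₀ (by norm_num) (by norm_num) (by omega)
  have : 0 < (1 - (1 / 2 : ℝ) ^ (n + 1)) * h (n + 1) := mul_pos (by linarith) (by linarith)
  simp at h2
  simp at this
  linarith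

lemma Lam_nonempty (D : Data h Λ) (k : ℕ) : ∀ m, (Lam Λ k m).Nonempty
  | 0 => ⟨0, by simp [Lam]⟩
  | m + 1 => ((Lam_nonempty D k m).product (nonempty D _)).image _

lemma le_h (D : Data h Λ) (n : ℕ) : n ≤ h n := by
  obtain ⟨x, hx⟩ := Lam_nonempty D 0 n
  have := Lam_le D 0 n x hx
  rw [zero_add] at this
  omega

lemma PP_eq (D : Data h Λ) (k : ℕ) (θ : ℝ) : ∀ m, PP Λ k (k + m) θ = Pn (Lam Λ k m) θ
  | 0 => by simp [PP, Pn, Lam]
  | m + 1 => by
    have h1 := PP_eq D k θ m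
    unfold PP at h1 ⊢
    rw [← add_assoc, prod_Ico_succ_top (Nat.le_add_right k m), h1]
    unfold Pn
    rw [Lam, sum_image (Lam_inj D k m), card_image_of_injOn (Lam_inj D k m), card_product,
      sum_product, div_mul_div_comm, sum_mul_sum, Nat.cast_mul, Real.sqrt_mul (Nat.cast_nonneg _)]
    push_cast
    simp only [add_mul, P110.e_add]

lemma tower_iff {x : Sp} (hx : Tower h Λ x) (k : ℕ) :
    ∀ (m : ℕ) (t : ℤ), x (t, k) = true ↔ ∃ a ∈ Lam Λ k m, x (t - a, k + m) = true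
  | 0, t => by simp [Lam]
  | m + 1, t => by
    rw [tower_iff hx k m t]
    constructor
    · rintro ⟨a, ha, h1⟩
      obtain ⟨b, hb, h2⟩ := (hx.1 _ _).mp h1
      refine ⟨a + b, mem_image.mpr ⟨(a, b), mem_product.mpr ⟨ha, hb⟩, rfl⟩, ?_⟩
      rw [← h2]
      congr 2
      push_cast
      ring
    · rintro ⟨c, hc, h1⟩
      obtain ⟨⟨a, b⟩, hp, rfl⟩ := mem_image.mp hc
      obtain ⟨ha, hb⟩ := mem_product.mp hp
      refine ⟨a, ha, (hx.1 _ _).mpr ⟨b, hb, ?_⟩⟩
      rw [← h1]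
      congr 2
      push_cast
      ring

lemma tower_uniq {x : Sp} (hx : Tower h Λ x) {n : ℕ} {u v : ℤ} (hu : x (u, n) = true)
    (hv : x (v, n) = true) (h1 : u < v + h n) (h2 : v < u + h n) : u = v := by
  rcases lt_trichotomy u v with h3 | h3 | h3
  · have := hx.2 n u v h3 hu hv
    omega
  · exact h3
  · have := hx.2 n v u h3 hv hu
    omega

lemma meas_E (p : ℤ × ℕ) : MeasurableSet {x : Sp | x p = true} :=
  measurableSet_eq_fun (measurable_pi_apply p) measurable_const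

/-- integrals over a union of levels of a tower -/
lemma setIntegral_eq {E : Type*} [NormedAddCommGroup E] [NormedSpace ℝ E] (I : Inv h Λ μ)
    {g : Sp → E} (hg : Integrable g μ) {A : Set Sp} (hA : MeasurableSet A) {n : ℕ}
    {U : Finset ℤ} (hU : ∀ u ∈ U, ∀ v ∈ U, u < v + h n)
    (hAU : ∀ x, Tower h Λ x → (x ∈ A ↔ ∃ u ∈ U, x (u, n) = true)) :
    ∫ x in A, g x ∂μ = ∑ u ∈ U, ∫ x in {x | x (u, n) = true}, g x ∂μ := by
  simp only [← integral_indicator hA, ← integral_indicator (meas_E _)]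
  rw [← integral_finsetSum _ fun u _ => hg.indicator (meas_E _)]
  refine integral_congr_ae ?_
  filter_upwards [I.tower] with x hx
  by_cases hxA : x ∈ A
  · obtain ⟨u, hu, h1⟩ := (hAU x hx).mp hxA
    rw [sum_eq_single_of_mem u hu, Set.indicator_of_mem hxA,
      Set.indicator_of_mem (s := {x : Sp | x (u, n) = true}) h1]
    intro v hv hvu
    refine Set.indicator_of_notMem (fun h2 => hvu ?_) _
    exact tower_uniq hx h2 h1 (hU v hv u hu) (hU u hu v hv)
  · rw [Set.indicator_of_notMem hxA]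
    refine (sum_eq_zero fun u hu => Set.indicator_of_notMem (fun h2 => hxA ?_) _).symm
    exact (hAU x hx).mpr ⟨u, hu, h2⟩

lemma real_E (I : Inv h Λ μ) (t : ℤ) (k : ℕ) :
    μ.real {x | x (t, k) = true} = μ.real {x | x (0, k) = true} := by
  have := (I.pres t).measure_preimage (meas_E (0, k)).nullMeasurableSet
  unfold Measure.real
  rw [← this]
  congr 2
  ext x
  simp [shiftBy]

lemma real_eq (I : Inv h Λ μ) {A : Set Sp} (hA : MeasurableSet A) {n : ℕ}
    {U : Finset ℤ} (hU : ∀ u ∈ U, ∀ v ∈ U, u < v + h n)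
    (hAU : ∀ x, Tower h Λ x → (x ∈ A ↔ ∃ u ∈ U, x (u, n) = true)) :
    μ.real A = U.card * μ.real {x | x (0, n) = true} := by
  have := I.prob
  have := setIntegral_eq I (integrable_const (1 : ℝ)) hA hU hAU
  simpa [real_E I] using this

/-- the base points at level k + m seen from the point t of level k -/
def Uz (Λ : ℕ → Finset ℕ) (t : ℤ) (k m : ℕ) : Finset ℤ :=
  (Lam Λ k m).image fun a : ℕ => t - a

lemma sub_inj (t : ℤ) : Function.Injective fun a : ℕ => t - a := by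
  intro a b hab
  simp only at hab
  omega

lemma card_Uz (t : ℤ) (k m : ℕ) : (Uz Λ t k m).card = (Lam Λ k m).card :=
  card_image_of_injective _ (sub_inj t)

lemma mem_Uz (D : Data h Λ) {t u : ℤ} {k m : ℕ} (hu : u ∈ Uz Λ t k m) :
    u ≤ t ∧ t + 2 + m ≤ u + h (k + m) := by
  obtain ⟨a, ha, rfl⟩ := mem_image.mp hu
  have h1 := Lam_le D k m a ha
  have h2 := D.two k
  omega

lemma tower_Uz {x : Sp} (hx : Tower h Λ x) (t : ℤ) (k m : ℕ) :
    x (t, k) = true ↔ ∃ u ∈ Uz Λ t k m, x (u, k + m) = true := by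
  rw [tower_iff hx k m t]
  simp [Uz]

lemma Uz_close (D : Data h Λ) (t : ℤ) (k m : ℕ) :
    ∀ u ∈ Uz Λ t k m, ∀ v ∈ Uz Λ t k m, u < v + h (k + m) := by
  intro u hu v hv
  have h1 := mem_Uz D hu
  have h2 := mem_Uz D hv
  omega

lemma beta_eq (D : Data h Λ) (I : Inv h Λ μ) (k m : ℕ) :
    μ.real {x | x (0, k) = true} = (Lam Λ k m).card * μ.real {x | x (0, k + m) = true} := by
  rw [← card_Uz 0]
  exact real_eq I (meas_E _) (Uz_close D 0 k m) fun x hx => tower_Uz hx 0 k m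

lemma integral_Pn (A B : Finset ℕ) (s t : ℤ) :
    ∫ θ in (0 : ℝ)..1, (starRingEnd ℂ) (Pn A θ) * Pn B θ * e ((s - t : ℤ) * θ)
      = ((A.image (fun a : ℕ => s - a) ∩ B.image (fun a : ℕ => t - a)).card : ℂ)
        / ((√(A.card : ℝ) * √(B.card : ℝ) : ℝ) : ℂ) := by
  have h1 : ∀ θ : ℝ, (starRingEnd ℂ) (Pn A θ) * Pn B θ * e ((s - t : ℤ) * θ)
      = (∑ u ∈ A.image (fun a : ℕ => s - a), ∑ v ∈ B.image (fun a : ℕ => t - a),
          e ((u - v : ℤ) * θ)) / ((√(A.card : ℝ) * √(B.card : ℝ) : ℝ) : ℂ) := by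
    intro θ
    unfold Pn
    rw [sum_image (sub_inj s).injOn]
    simp only [sum_image (sub_inj t).injOn]
    rw [map_div₀, Complex.conj_ofReal, map_sum, div_mul_div_comm, div_mul_eq_mul_div, sum_mul_sum,
      sum_mul]
    push_cast
    congr 1
    refine sum_congr rfl fun a _ => ?_
    rw [sum_mul]
    refine sum_congr rfl fun b _ => ?_
    rw [P110.conj_e, ← P110.e_add, ← P110.e_add]
    congr 1
    ring
  simp only [h1]
  rw [intervalIntegral.integral_div]
  congr 1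
  have hc : ∀ n : ℤ, Continuous fun θ : ℝ => e (n * θ) := fun n =>
    P110.continuous_e.comp (by fun_prop)
  rw [intervalIntegral.integral_finsetSum fun u _ =>
    (continuous_finsetSum _ fun v _ => hc _).intervalIntegrable _ _]
  have h2 : ∀ u : ℤ, ∫ θ in (0 : ℝ)..1, ∑ v ∈ B.image (fun a : ℕ => t - a), e ((u - v : ℤ) * θ)
      = if u ∈ B.image (fun a : ℕ => t - a) then 1 else 0 := by
    intro u
    rw [intervalIntegral.integral_finsetSum fun v _ => (hc _).intervalIntegrable _ _]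
    have h3 : ∀ n : ℤ, ∫ θ in (0 : ℝ)..1, e (n * θ) = if n = 0 then 1 else 0 := fun n => by
      simpa using P110.integral_e_int n 0
    simp only [h3, sub_eq_zero]
    rw [sum_ite_eq]
  simp only [h2]
  rw [sum_boole, filter_mem_eq_inter]

/-- the tower of level n -/
def Tw (h : ℕ → ℕ) (n : ℕ) : Set Sp := {x | ∃ u ∈ Ico (0 : ℤ) (h n), x (u, n) = true}

lemma meas_Tw (n : ℕ) : MeasurableSet (Tw h n) := by
  have : Tw h n = ⋃ u ∈ Ico (0 : ℤ) (h n), {x : Sp | x (u, n) = true} := by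
    ext x
    simp [Tw]
  rw [this]
  exact Finset.measurableSet_biUnion _ fun u _ => meas_E _

lemma Ico_close (n : ℕ) : ∀ u ∈ Ico (0 : ℤ) (h n), ∀ v ∈ Ico (0 : ℤ) (h n), u < v + h n := by
  intro u hu v hv
  rw [mem_Ico] at hu hv
  omega

lemma real_Tw (I : Inv h Λ μ) (n : ℕ) :
    μ.real (Tw h n) = h n * μ.real {x | x (0, n) = true} := by
  rw [real_eq I (meas_Tw n) (Ico_close n) fun x _ => Iff.rfl]
  simp

lemma real_compl_Tw (I : Inv h Λ μ) (n : ℕ) : μ.real (Tw h n)ᶜ ≤ (1 / 2 : ℝ) ^ n := by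
  have := I.prob
  rw [measureReal_compl (meas_Tw n), real_Tw I, probReal_univ]
  linarith [I.mass n]

lemma no_atoms (D : Data h Λ) (I : Inv h Λ μ) (x : Sp) : μ {x} = 0 := by
  have := I.prob
  have h1 : ∀ n : ℕ, μ.real {x} ≤ (1 / 2 : ℝ) ^ (n + 1) + 1 / ((n : ℝ) + 1) := by
    intro n
    have hp1 : (0 : ℝ) ≤ (1 / 2 : ℝ) ^ (n + 1) := by positivity
    have hp2 : (0 : ℝ) ≤ 1 / ((n : ℝ) + 1) := by positivity
    by_cases hx : x ∈ Tw h (n + 1)
    · obtain ⟨u, _, hu⟩ := hx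
      have h2 : μ.real {x} ≤ μ.real {y : Sp | y (u, n + 1) = true} :=
        measureReal_mono (Set.singleton_subset_iff.mpr hu)
      rw [real_E I] at h2
      have h3 : μ.real (Tw h (n + 1)) ≤ 1 := measureReal_le_one
      rw [real_Tw I] at h3
      have h4 : ((n : ℝ) + 1) ≤ h (n + 1) := by exact_mod_cast le_h D (n + 1)
      have h5 : μ.real {y : Sp | y (0, n + 1) = true} ≤ 1 / ((n : ℝ) + 1) := by
        rw [le_div_iff₀ (by positivity)]
        nlinarith [measureReal_nonneg (μ := μ) (s := {y : Sp | y (0, n + 1) = true})]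
      linarith
    · have h2 : μ.real {x} ≤ μ.real (Tw h (n + 1))ᶜ :=
        measureReal_mono (Set.singleton_subset_iff.mpr hx)
      linarith [real_compl_Tw I (n + 1)]
  have h2 : Tendsto (fun n : ℕ => (1 / 2 : ℝ) ^ (n + 1) + 1 / ((n : ℝ) + 1)) atTop (𝓝 (0 + 0)) :=
    ((tendsto_pow_atTop_nhds_zero_of_lt_one (by norm_num) (by norm_num)).comp
      (tendsto_add_atTop_nat 1)).add tendsto_one_div_add_atTop_nhds_zero_nat
  have h3 : μ.real {x} ≤ 0 + 0 := ge_of_tendsto' h2 h1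
  rw [← measureReal_eq_zero_iff]
  exact le_antisymm (by linarith) measureReal_nonneg

lemma level_zero (D : Data h Λ) (I : Inv h Λ μ) {g : Sp → ℂ} (hg : Integrable g μ)
    (h0 : ∫ x, g x ∂μ = 0)
    (hs : ∀ (t : ℤ) (k : ℕ), ∫ x in {x | x (t, k) = true}, g x ∂μ
      = ∫ x in {x | x (t - 1, k) = true}, g x ∂μ) (t : ℤ) (k : ℕ) :
    ∫ x in {x | x (t, k) = true}, g x ∂μ = 0 := by
  have := I.prob
  have h1 : ∀ (t : ℤ) (k : ℕ), ∫ x in {x | x (t, k) = true}, g x ∂μ
      = ∫ x in {x | x (0, k) = true}, g x ∂μ := by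
    intro t k
    induction t using Int.induction_on with
    | zero => rfl
    | succ i ih => rw [hs, add_sub_cancel_right, ih]
    | pred i ih => rw [← hs, ih]
  have h2 : ∀ m : ℕ, ‖∫ x in {x | x (t, k) = true}, g x ∂μ‖
      ≤ ‖∫ x in (Tw h (k + m))ᶜ, g x ∂μ‖ := by
    intro m
    rw [setIntegral_compl (meas_Tw _) hg, h0, zero_sub, norm_neg,
      setIntegral_eq I hg (meas_Tw _) (Ico_close _) fun x _ => Iff.rfl,
      setIntegral_eq I hg (meas_E _) (Uz_close D t k m) fun x hx => tower_Uz hx t k m]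
    simp only [h1 _ (k + m), sum_const, nsmul_eq_mul, norm_mul, Complex.norm_natCast]
    refine mul_le_mul_of_nonneg_right ?_ (norm_nonneg _)
    rw [card_Uz]
    have h3 : Lam Λ k m ⊆ range (h (k + m)) := fun a ha => by
      have h4 := Lam_le D k m a ha
      have h5 := D.two k
      rw [mem_range]
      omega
    have := card_le_card h3
    simpa using this
  have h3 : Tendsto (μ ∘ fun m : ℕ => (Tw h (k + m))ᶜ) atTop (𝓝 0) := by
    refine (ENNReal.tendsto_toReal_zero_iff fun m => measure_ne_top _ _).mp ?_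
    refine squeeze_zero (fun m => ENNReal.toReal_nonneg) (fun m => real_compl_Tw I (k + m)) ?_
    have h4 := (tendsto_pow_atTop_nhds_zero_of_lt_one (r := (1 / 2 : ℝ)) (by norm_num)
      (by norm_num)).comp (tendsto_add_atTop_nat k)
    refine h4.congr fun m => ?_
    simp [add_comm]
  have h4 := (hg.tendsto_setIntegral_nhds_zero h3).norm
  rw [norm_zero] at h4
  exact norm_le_zero_iff.mp (ge_of_tendsto' h4 h2)

/-- finite intersections of the basic sets -/
def Cyl : Set (Set Sp) := {A | ∃ F : Finset (ℤ × ℕ), A = {x | ∀ p ∈ F, x p = true}}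

lemma meas_cyl (F : Finset (ℤ × ℕ)) : MeasurableSet {x : Sp | ∀ p ∈ F, x p = true} := by
  have : {x : Sp | ∀ p ∈ F, x p = true} = ⋂ p ∈ F, {x : Sp | x p = true} := by
    ext x
    simp
  rw [this]
  exact Finset.measurableSet_biInter _ fun p _ => meas_E _

lemma pi_cyl : IsPiSystem Cyl := by
  rintro _ ⟨F, rfl⟩ _ ⟨G, rfl⟩ _
  refine ⟨F ∪ G, ?_⟩
  ext x
  simp only [Set.mem_inter_iff, Set.mem_ofPred_eq, mem_union, or_imp, forall_and]

lemma gen_cyl : (inferInstance : MeasurableSpace Sp) = MeasurableSpace.generateFrom Cyl := by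
  refine le_antisymm ?_ (MeasurableSpace.generateFrom_le ?_)
  · refine iSup_le fun p => ?_
    rw [← measurable_iff_comap_le]
    refine @measurable_to_bool _ (MeasurableSpace.generateFrom Cyl) _
      (MeasurableSpace.measurableSet_generateFrom ⟨{p}, ?_⟩)
    ext x
    simp
  · rintro _ ⟨F, rfl⟩
    exact meas_cyl F

lemma cyl_zero (D : Data h Λ) (I : Inv h Λ μ) {g : Sp → ℂ} (hg : Integrable g μ)
    (h0 : ∫ x, g x ∂μ = 0) (hl : ∀ (t : ℤ) (k : ℕ), ∫ x in {x | x (t, k) = true}, g x ∂μ = 0)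
    (F : Finset (ℤ × ℕ)) : ∫ x in {x | ∀ p ∈ F, x p = true}, g x ∂μ = 0 := by
  rcases F.eq_empty_or_nonempty with rfl | ⟨p₀, hp₀⟩
  · simpa using h0
  obtain ⟨R, hR⟩ : ∃ R : ℕ, ∀ p ∈ F, p.1.natAbs ≤ R ∧ p.2 ≤ R :=
    ⟨F.sup fun p => p.1.natAbs + p.2, fun p hp => by
      have := le_sup (f := fun p : ℤ × ℕ => p.1.natAbs + p.2) hp
      omega⟩
  have hn : ∀ p ∈ F, p.2 + (3 * R - p.2) = 3 * R := fun p hp => by
    have := hR p hp
    omega
  have hT : ∀ x, Tower h Λ x → ∀ p ∈ F,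
      (x p = true ↔ ∃ u ∈ Uz Λ p.1 p.2 (3 * R - p.2), x (u, 3 * R) = true) := by
    intro x hx p hp
    have := tower_Uz hx p.1 p.2 (3 * R - p.2)
    rwa [hn p hp] at this
  have hM : ∀ p ∈ F, ∀ u ∈ Uz Λ p.1 p.2 (3 * R - p.2), u ≤ R ∧ (R : ℤ) < u + h (3 * R) := by
    intro p hp u hu
    have h1 := mem_Uz D hu
    rw [hn p hp] at h1
    have h2 := hR p hp
    omega
  rw [setIntegral_eq I hg (meas_cyl F) (n := 3 * R)
    (U := (Uz Λ p₀.1 p₀.2 (3 * R - p₀.2)).filter fun u => ∀ p ∈ F, u ∈ Uz Λ p.1 p.2 (3 * R - p.2))]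
  · simp [hl]
  · intro u hu v hv
    have h1 := hM p₀ hp₀ u (mem_filter.mp hu).1
    have h2 := hM p₀ hp₀ v (mem_filter.mp hv).1
    omega
  · intro x hx
    constructor
    · intro hxF
      obtain ⟨u, hu, h1⟩ := (hT x hx p₀ hp₀).mp (hxF p₀ hp₀)
      refine ⟨u, mem_filter.mpr ⟨hu, fun p hp => ?_⟩, h1⟩
      obtain ⟨v, hv, h2⟩ := (hT x hx p hp).mp (hxF p hp)
      have h3 := hM p₀ hp₀ u hu
      have h4 := hM p hp v hv
      rwa [tower_uniq hx h1 h2 (by omega) (by omega)]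
    · rintro ⟨u, hu, h1⟩ p hp
      exact (hT x hx p hp).mpr ⟨u, (mem_filter.mp hu).2 p hp, h1⟩

end Gram

open Gram in
theorem gram_prop : GramProp := by
  intro h Λ μ D I k l s t
  filter_upwards [eventually_ge_atTop (k + l + (s - t).natAbs)] with n hn
  obtain ⟨m, hm⟩ : ∃ m, n = k + m := ⟨n - k, by omega⟩
  obtain ⟨m', hm'⟩ : ∃ m', n = l + m' := ⟨n - l, by omega⟩
  have h1 : ∀ θ, PP Λ k n θ = Pn (Lam Λ k m) θ := fun θ => hm ▸ PP_eq D k θ m
  have h2 : ∀ θ, PP Λ l n θ = Pn (Lam Λ l m') θ := fun θ => hm' ▸ PP_eq D l θ m'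
  simp only [h1, h2]
  rw [integral_Pn, beta_eq D I k m, beta_eq D I l m', ← hm, ← hm',
    real_eq I (n := n) (U := Uz Λ s k m ∩ Uz Λ t l m')
      (A := {x | x (s, k) = true ∧ x (t, l) = true}) ((meas_E (s, k)).inter (meas_E (t, l)))]
  · have h3 : (0 : ℝ) < (Lam Λ k m).card := by exact_mod_cast (Lam_nonempty D k m).card_pos
    have h4 : (0 : ℝ) < (Lam Λ l m').card := by exact_mod_cast (Lam_nonempty D l m').card_pos
    have h5 : (0 : ℝ) ≤ μ.real {x : Sp | x (0, n) = true} := measureReal_nonneg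
    rw [Real.sqrt_mul h3.le, Real.sqrt_mul h4.le]
    have h6 := Real.mul_self_sqrt h5
    have h7 : (√((Lam Λ k m).card : ℝ) : ℝ) ≠ 0 := (Real.sqrt_pos.mpr h3).ne'
    have h8 : (√((Lam Λ l m').card : ℝ) : ℝ) ≠ 0 := (Real.sqrt_pos.mpr h4).ne'
    rw [← Complex.ofReal_natCast, ← Complex.ofReal_div, ← Complex.ofReal_mul]
    congr 1
    unfold Uz
    field_simp
    rw [Real.sq_sqrt h5]
  · intro u hu v hv
    exact hm ▸ Uz_close D s k m u (mem_inter.mp hu).1 v (mem_inter.mp hv).1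
  · intro x hx
    have h3 := tower_Uz hx s k m
    have h4 := tower_Uz hx t l m'
    rw [← hm] at h3
    rw [← hm'] at h4
    constructor
    · rintro ⟨h5, h6⟩
      obtain ⟨u, hu, h7⟩ := h3.mp h5
      obtain ⟨v, hv, h8⟩ := h4.mp h6
      have h9 := mem_Uz D hu
      have h10 := mem_Uz D hv
      rw [← hm] at h9
      rw [← hm'] at h10
      have : u = v := tower_uniq hx h7 h8 (by omega) (by omega)
      subst this
      exact ⟨u, mem_inter.mpr ⟨hu, hv⟩, h7⟩
    · rintro ⟨u, hu, h5⟩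
      exact ⟨h3.mpr ⟨u, (mem_inter.mp hu).1, h5⟩, h4.mpr ⟨u, (mem_inter.mp hu).2, h5⟩⟩

open Gram in
theorem dense_prop : DenseProp := by
  intro h Λ μ D I
  refine ⟨⟨no_atoms D I⟩, fun g hg h0 hs => ?_⟩
  have hl := level_zero D I hg h0 hs
  have key : ∀ A, MeasurableSet A → ∫ x in A, g x ∂μ = 0 := by
    refine MeasurableSpace.induction_on_inter gen_cyl pi_cyl (by simp) ?_ ?_ ?_
    · rintro _ ⟨F, rfl⟩
      exact cyl_zero D I hg h0 hl F
    · intro A hA h1
      rw [setIntegral_compl hA hg, h0, h1, sub_zero]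
    · intro f hd hf h1
      rw [integral_iUnion hf hd hg.integrableOn]
      simp [h1]
  exact hg.ae_eq_zero_of_forall_setIntegral_eq_zero fun A hA _ => key A hA

end Vale.Agent.P130
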