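import Vale.Agent.P130.Defs

/-! The key lemma from the tiling, the modes and the limit of one term. -/

namespace Vale.Agent.P130

open Finset MeasureTheory Filter Topology
open Vale.Agent.P110

namespace Key

lemma ii_ite {p : ℝ → Prop} [DecidablePred p] (hp : MeasurableSet {θ | p θ}) {f : ℝ → ℝ}
    (hf : Continuous f) : IntervalIntegrable (fun θ => if p θ then f θ else 0) volume 0 1 := by
  have h : (fun θ => if p θ then f θ else 0) = Set.indicator {θ | p θ} f := by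
    funext θ
    simp [Set.indicator]
  rw [h]
  exact ⟨((hf.intervalIntegrable 0 1).1).indicator hp, ((hf.intervalIntegrable 0 1).2).indicator hp⟩

lemma ii_sum {ι : Type} (s : Finset ι) {f : ι → ℝ → ℝ}
    (hf : ∀ i ∈ s, IntervalIntegrable (f i) volume 0 1) :
    IntervalIntegrable (fun θ => ∑ i ∈ s, f i θ) volume 0 1 := by
  have h : (fun θ => ∑ i ∈ s, f i θ) = ∑ i ∈ s, f i := by
    funext θ
    simp only [Finset.sum_apply]
  rw [h]
  exact IntervalIntegrable.sum s hf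

lemma meas_arc (L : ℕ) (β lam : ℝ) {f : ℝ → ℝ} (hf : Continuous f) :
    MeasurableSet {θ | arc L β lam (f θ)} := by
  unfold arc
  exact measurableSet_lt (measurable_fract.comp
    ((continuous_const.mul (hf.sub continuous_const)).measurable)) measurable_const

lemma cont_e : Continuous e := by
  unfold e
  fun_prop

lemma cont_chirp (L : ℕ) (A : ℤ) (β lam : ℝ) (J : ℕ) : Continuous (chirp L A β lam J) := by
  unfold chirp
  exact continuous_finset_sum _ fun j _ => cont_e.comp (by fun_prop)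

lemma gap_block {ε : ℝ} (hε : 0 < ε) {h B : ℕ} (hh : 0 < h) (Z : ℝ) {i i' : ℕ} (hi : i < i')
    (hi' : i' < B)
    (h1 : Int.fract (aa ε h * i + ε * aa ε h * (i : ℝ) ^ 2 / (2 * B) + Z) < aa ε h)
    (h2 : Int.fract (aa ε h * i' + ε * aa ε h * (i' : ℝ) ^ 2 / (2 * B) + Z) < aa ε h) :
    i + h ≤ i' := by
  have hhr : (0 : ℝ) < h := by exact_mod_cast hh
  have ha : 0 < aa ε h := by unfold aa; positivity
  have ha2 : aa ε h * (1 + ε) * h = 1 := by unfold aa; field_simp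
  have hB : (0 : ℝ) < B := by exact_mod_cast (by omega : 0 < B)
  set a := aa ε h
  set u := a * i + ε * a * (i : ℝ) ^ 2 / (2 * B) + Z with hu
  set u' := a * i' + ε * a * (i' : ℝ) ^ 2 / (2 * B) + Z with hu'
  have hd : (1 : ℝ) ≤ (i' : ℝ) - i := by
    have : ((i + 1 : ℕ) : ℝ) ≤ i' := by exact_mod_cast hi
    push_cast at this
    linarith
  have hs : ((i : ℝ) + i') / (2 * B) ≤ 1 := by
    rw [div_le_one (by positivity)]
    have h3 : (i : ℝ) ≤ B := by exact_mod_cast (by omega : i ≤ B)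
    have h4 : (i' : ℝ) ≤ B := by exact_mod_cast hi'.le
    linarith
  have hs0 : 0 ≤ ((i : ℝ) + i') / (2 * B) := by positivity
  have hdiff : u' - u = ((i' : ℝ) - i) * a * (1 + ε * (((i : ℝ) + i') / (2 * B))) := by
    rw [hu, hu']; field_simp; ring
  have hda : 0 ≤ ((i' : ℝ) - i) * a := by positivity
  have hlow : a ≤ u' - u := by
    rw [hdiff]
    have h5 : a ≤ ((i' : ℝ) - i) * a := by nlinarith
    nlinarith [mul_nonneg hda (mul_nonneg hε.le hs0)]
  have hup : u' - u ≤ ((i' : ℝ) - i) * a * (1 + ε) := by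
    rw [hdiff]
    exact mul_le_mul_of_nonneg_left (by nlinarith) hda
  have hf := Int.fract_nonneg u
  have hf' := Int.fract_nonneg u'
  have e1 := Int.floor_add_fract u
  have e2 := Int.floor_add_fract u'
  have hfl : ⌊u⌋ < ⌊u'⌋ := by
    have : (⌊u⌋ : ℝ) < ⌊u'⌋ := by linarith
    exact_mod_cast this
  have hfl' : (⌊u⌋ : ℝ) + 1 ≤ ⌊u'⌋ := by exact_mod_cast hfl
  have h6 : 1 - a < ((i' : ℝ) - i) * a * (1 + ε) := by linarith
  have h7 : (1 - a) * h < (i' : ℝ) - i := by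
    have := mul_lt_mul_of_pos_right h6 hhr
    calc (1 - a) * h < ((i' : ℝ) - i) * a * (1 + ε) * h := this
      _ = ((i' : ℝ) - i) * (a * (1 + ε) * h) := by ring
      _ = _ := by rw [ha2, mul_one]
  have h8 : a * h ≤ 1 := by nlinarith [mul_pos (mul_pos ha hε) hhr]
  have h9 : ((i + h : ℕ) : ℝ) < ((i' + 1 : ℕ) : ℝ) := by push_cast; nlinarith
  have : i + h < i' + 1 := by exact_mod_cast h9
  omega

/-- position of the point i of the block β -/
def pos (M B h : ℕ) (β : Fin M × Fin B) (i : Fin B) : ℕ := (β.1 * B + β.2) * (B + h) + i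

lemma blk_inj {M B : ℕ} {β β' : Fin M × Fin B}
    (h : (β.1 : ℕ) * B + β.2 = β'.1 * B + β'.2) : β = β' := by
  have h1 := β.2.2
  have h2 := β'.2.2
  have h3 : (β.1 : ℕ) = β'.1 := by
    have a1 := congrArg (· / B) h
    simp only [mul_comm _ B] at a1
    rwa [Nat.mul_add_div (by omega), Nat.mul_add_div (by omega), Nat.div_eq_of_lt h1,
      Nat.div_eq_of_lt h2, add_zero, add_zero] at a1
  refine Prod.ext (Fin.ext h3) (Fin.ext ?_)
  rw [h3] at h
  omega

lemma pos_cases {M B h : ℕ} {β β' : Fin M × Fin B} {i i' : Fin B}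
    (hle : pos M B h β i ≤ pos M B h β' i') :
    (β = β' ∧ (i : ℕ) ≤ i') ∨ pos M B h β i + h < pos M B h β' i' := by
  unfold pos at hle ⊢
  have h1 := i.2
  have h2 := i'.2
  rcases lt_trichotomy ((β.1 : ℕ) * B + β.2) (β'.1 * B + β'.2) with hlt | heq | hgt
  · right
    have := Nat.mul_le_mul_right (B + h) (Nat.succ_le_of_lt hlt)
    rw [Nat.succ_mul] at this
    omega
  · left
    refine ⟨blk_inj heq, ?_⟩
    rw [heq] at hle
    omega
  · exfalso
    have := Nat.mul_le_mul_right (B + h) (Nat.succ_le_of_lt hgt)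
    rw [Nat.succ_mul] at this
    omega

lemma pos_lt {M B h : ℕ} (β : Fin M × Fin B) (i : Fin B) :
    pos M B h β i + h < M * B * (B + h) := by
  unfold pos
  have h1 := i.2
  have h2 : (β.1 : ℕ) * B + β.2 + 1 ≤ M * B := by
    have := Nat.mul_le_mul_right B (Nat.succ_le_of_lt β.1.2)
    rw [Nat.succ_mul] at this
    have := β.2.2
    omega
  have := Nat.mul_le_mul_right (B + h) h2
  rw [add_mul _ 1, one_mul] at this
  omega

lemma norm_seg {M B h : ℕ} (a ε lam : ℝ) (u : ℝ × ℝ) (v : Fin M → ℝ × ℝ) (k : ℕ) (μ : ℤ)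
    (L : ℕ) (A : ℤ) (hA : k * u.1 + μ * u.2 = A / L) (s : Fin M) (θ : ℝ) :
    ‖∑ β ∈ univ.filter (fun β : Fin M × Fin B => β.1 = s), ∑ i : Fin B,
      e (k * ((a * (i : ℕ) + ε * a * ((i : ℕ) : ℝ) ^ 2 / (2 * B)) +
          (((β.2 : ℕ) : ℝ) ^ 2 * u.1 + (β.2 : ℕ) * (v β.1).1 +
            ((β.2 : ℕ) : ℝ) ^ 2 * lam / (2 * B))) +
        μ * (((β.2 : ℕ) : ℝ) ^ 2 * u.2 + (β.2 : ℕ) * (v β.1).2) - pos M B h β i * θ)‖
      = ‖chirp 1 0 (k * a) (k * ε * a) B θ‖ *
        ‖chirp L A (k * (v s).1 + μ * (v s).2) (k * lam) B (((B + h : ℕ) : ℝ) * θ)‖ := by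
  rw [sum_filter, Fintype.sum_prod_type, sum_eq_single s (fun s' _ hs' => by simp [hs'])
    (by simp)]
  simp only [if_true]
  rw [← norm_mul, chirp, chirp, sum_range, sum_range, sum_mul_sum, sum_comm,
    ← one_mul ‖∑ j : Fin B, ∑ i : Fin B, _ * _‖, ← norm_e (-((s : ℕ) * B * (B + h) * θ)),
    ← norm_mul, mul_sum]
  congr 1
  refine sum_congr rfl fun i _ => ?_
  rw [mul_sum]
  refine sum_congr rfl fun j _ => ?_
  rw [← e_add, ← e_add]
  congr 1
  have h1 : (A : ℝ) * ((j : ℕ) : ℝ) ^ 2 / L = ((j : ℕ) : ℝ) ^ 2 * (k * u.1 + μ * u.2) := by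
    rw [hA]; ring
  rw [h1]
  simp only [pos]
  push_cast
  ring

lemma coef_eq {M L k : ℕ} {lam ε a s b : ℝ} (hk : 0 < k) (hε : 0 < ε) (ha : 0 < a)
    (hs : 0 ≤ s) :
    (M : ℝ) * (a * s * b * √(L * (k * lam) / (k * ε * a)))
      = √(M * a) * (√(M * (L * (k * lam))) * √(s ^ 2 / (k * ε)) * b) := by
  have hkr : (0 : ℝ) < k := by exact_mod_cast hk
  have hM : (0 : ℝ) ≤ M := by positivity
  rw [Real.sqrt_mul hM, Real.sqrt_mul hM, Real.sqrt_div' _ (by positivity),
    Real.sqrt_div' _ (by positivity), Real.sqrt_sq hs, Real.sqrt_mul (by positivity) a]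
  have h1 : 0 < √a := Real.sqrt_pos.2 ha
  have h2 : 0 < √((k : ℝ) * ε) := Real.sqrt_pos.2 (by positivity)
  have h3 := Real.mul_self_sqrt hM
  have h4 := Real.mul_self_sqrt ha.le
  generalize √(M : ℝ) = p at h3 ⊢
  generalize √a = q at h1 h4 ⊢
  subst h4
  rw [← h3]
  field_simp

lemma tendsto_sqrt (M h : ℕ) :
    Tendsto (fun B : ℕ => √(((M * B * (B + h) : ℕ) : ℝ) / h) / B) atTop (𝓝 √((M : ℝ) / h)) := by
  have h1 : Tendsto (fun B : ℕ => (M : ℝ) / h * (1 + (h : ℝ) / B)) atTop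
      (𝓝 ((M : ℝ) / h * (1 + 0))) :=
    tendsto_const_nhds.mul (tendsto_const_nhds.add (tendsto_const_div_atTop_nhds_zero_nat _))
  rw [add_zero, mul_one] at h1
  refine h1.sqrt.congr' ?_
  filter_upwards [eventually_gt_atTop 0] with B hB
  have hBr : (0 : ℝ) < B := by exact_mod_cast hB
  rw [eq_div_iff hBr.ne', ← Real.sqrt_sq hBr.le, ← Real.sqrt_mul (by positivity),
    Real.sqrt_sq hBr.le]
  congr 1
  push_cast
  field_simp

end Key

open Key

set_option maxHeartbeats 800000 in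
theorem key_prop (hT : TileProp) (hM : ModeProp) (hTerm : TermProp) : KeyProp := by
  intro ε hε
  obtain ⟨η, hη0, hη1, hη2⟩ : ∃ η : ℝ, 0 < η ∧ η ≤ 1 / 2 ∧ 2 * η ≤ ε :=
    ⟨min ε 1 / 2, by positivity, by linarith [min_le_right ε 1], by linarith [min_le_left ε 1]⟩
  obtain ⟨ε₁, hε₁, hε₁η, C, hC, η', hη', hT⟩ := hT η hη0
  refine ⟨C, hC, fun h hh w hw hper hw0 N₀ => ?_⟩
  obtain ⟨K, hT⟩ := hT h hh
  have hhr : (0 : ℝ) < h := by exact_mod_cast hh
  have hh1 : (1 : ℝ) ≤ h := by exact_mod_cast hh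
  have ha0 : 0 < aa ε₁ h := by unfold aa; positivity
  have ha1 : aa ε₁ h < 1 := by
    unfold aa
    rw [div_lt_one (by positivity)]
    nlinarith
  obtain ⟨S, _, _, k, μ, b, hk, hdet, hb, hE, hP⟩ := hM K η' (aa ε₁ h) hη' ha0 ha1
  obtain ⟨T, M, u, v, lam, L, A, hM0, hlam, hpar, hdis, hcov⟩ := hT S k μ b hk hdet hb hE
  set a := aa ε₁ h with ha
  -- the terms
  let act : ℕ → S × ℤˣ × Fin M → ℝ → Prop := fun B q θ =>
    arc 1 (k q.1 * a) (k q.1 * ε₁ * a) ((q.2.1 : ℤ) * θ) ∧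
      arc (L q.1) (k q.1 * (v q.2.2).1 + μ q.1 * (v q.2.2).2) (k q.1 * lam)
        ((q.2.1 : ℤ) * (((B + h : ℕ) : ℝ) * θ))
  let val : ℕ → S × ℤˣ × Fin M → ℝ → ℝ := fun B q θ =>
    ‖chirp 1 0 (k q.1 * a) (k q.1 * ε₁ * a) B ((q.2.1 : ℤ) * θ)‖ *
      ‖chirp (L q.1) (A q.1) (k q.1 * (v q.2.2).1 + μ q.1 * (v q.2.2).2) (k q.1 * lam) B
        ((q.2.1 : ℤ) * (((B + h : ℕ) : ℝ) * θ))‖
  let cf : S → ℝ := fun m => a * sn (k m * a) * b m
  let F : ℕ → ℝ → ℝ := fun B θ =>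
    ∑ q ∈ T ×ˢ (univ : Finset (ℤˣ × Fin M)), if act B q θ then cf q.1 * val B q θ else 0
  have hact : ∀ B q, MeasurableSet {θ | act B q θ} := fun B q =>
    (meas_arc _ _ _ (by fun_prop)).inter (meas_arc _ _ _ (by fun_prop))
  have hval : ∀ B q, Continuous (val B q) := fun B q =>
    ((cont_chirp _ _ _ _ _).comp (by fun_prop)).norm.mul
      ((cont_chirp _ _ _ _ _).comp (by fun_prop)).norm
  have hF : ∀ B, IntervalIntegrable (F B) volume 0 1 := fun B =>
    ii_sum (T ×ˢ (univ : Finset (ℤˣ × Fin M)))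
      (f := fun q θ => if act B q θ then cf q.1 * val B q θ else 0)
      (fun q _ => ii_ite (hact B q) (continuous_const.mul (hval B q)))
  let W : S → ℤˣ → ℝ := fun m σ =>
    ∫ θ in (0 : ℝ)..1, if win ε₁ h (k m) ((σ : ℤ) * θ) then w θ else 0
  have hlim : Tendsto (fun B : ℕ => (∫ θ in (0 : ℝ)..1, w θ * F B θ) / B) atTop
      (𝓝 (∑ q ∈ T ×ˢ (univ : Finset (ℤˣ × Fin M)),
        cf q.1 * (√(L q.1 * (k q.1 * lam) / (k q.1 * ε₁ * a)) * W q.1 q.2.1))) := by
    have h1 : ∀ B : ℕ, (∫ θ in (0 : ℝ)..1, w θ * F B θ) / B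
        = ∑ q ∈ T ×ˢ (univ : Finset (ℤˣ × Fin M)), cf q.1 *
          ((∫ θ in (0 : ℝ)..1, if act B q θ then w θ * val B q θ else 0) / B) := by
      intro B
      simp only [← mul_div_assoc, ← intervalIntegral.integral_const_mul]
      rw [← sum_div, ← intervalIntegral.integral_finset_sum
        (f := fun q θ => cf q.1 * if act B q θ then w θ * val B q θ else 0) fun q _ =>
        (ii_ite (hact B q) (hw.mul (hval B q))).const_mul _]
      congr 2
      funext θ
      simp only [F, mul_sum]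
      refine sum_congr rfl fun q _ => ?_
      split_ifs
      · ring
      · simp
    simp only [h1]
    refine tendsto_finset_sum _ fun q hq => tendsto_const_nhds.mul ?_
    obtain ⟨p1, p2, -, p4, p5⟩ := hpar q.1 (mem_product.1 hq).1
    have hkr : (0 : ℝ) < k q.1 := by exact_mod_cast hk q.1
    have := hTerm w q.2.1 h (k q.1 * a) (k q.1 * ε₁ * a) (L q.1) (A q.1)
      (k q.1 * (v q.2.2).1 + μ q.1 * (v q.2.2).2) (k q.1 * lam) hw hper (by positivity) p5 p1 p2
      (by positivity) p4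
    convert this using 6
    exact Iff.rfl
  set WD := ∫ θ in Set.Icc (C / h) (1 - C / h), w θ with hWD
  have hWD0 : 0 ≤ WD := setIntegral_nonneg measurableSet_Icc fun θ _ => hw0 θ
  let cv : S → ℝ := fun m => √(M * (L m * (k m * lam))) * √(load ε₁ h (k m)) * b m
  have hcv0 : ∀ m, 0 ≤ cv m := fun m => mul_nonneg (by positivity) (hb m)
  have hwin : ∀ (m : S) (σ : ℤˣ), MeasurableSet {θ : ℝ | win ε₁ h (k m) ((σ : ℤ) * θ)} :=
    fun m σ => meas_arc _ _ _ (by fun_prop)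
  have hsum : (1 - η) * WD ≤ ∑ m ∈ T, ∑ σ : ℤˣ, cv m * W m σ := by
    have hi : ∀ (m : S) (σ : ℤˣ), IntervalIntegrable
        (fun θ => cv m * if win ε₁ h (k m) ((σ : ℤ) * θ) then w θ else 0) volume 0 1 :=
      fun m σ => (ii_ite (hwin m σ) hw).const_mul _
    have hi2 : ∀ m : S, IntervalIntegrable (fun θ => ∑ σ : ℤˣ,
        cv m * if win ε₁ h (k m) ((σ : ℤ) * θ) then w θ else 0) volume 0 1 := fun m =>
      ii_sum univ (fun σ _ => hi m σ)
    have hi3 : IntervalIntegrable (fun θ => ∑ m ∈ T, ∑ σ : ℤˣ,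
        cv m * if win ε₁ h (k m) ((σ : ℤ) * θ) then w θ else 0) volume 0 1 :=
      ii_sum T (fun m _ => hi2 m)
    have h1 : ∑ m ∈ T, ∑ σ : ℤˣ, cv m * W m σ = ∫ θ in (0 : ℝ)..1, ∑ m ∈ T, ∑ σ : ℤˣ,
        cv m * if win ε₁ h (k m) ((σ : ℤ) * θ) then w θ else 0 := by
      rw [intervalIntegral.integral_finset_sum fun m _ => hi2 m]
      refine sum_congr rfl fun m _ => ?_
      rw [intervalIntegral.integral_finset_sum fun σ _ => hi m σ]
      simp only [intervalIntegral.integral_const_mul, W]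
    have hCh : 0 < C / h := by positivity
    rw [h1, intervalIntegral.integral_of_le zero_le_one, hWD, ← integral_const_mul]
    refine le_trans (setIntegral_mono_on ?_ ?_ measurableSet_Icc fun θ hθ => ?_)
      (setIntegral_mono_set hi3.1 (ae_of_all _ fun θ => ?_) (HasSubset.Subset.eventuallyLE
        fun θ hθ => ⟨by linarith [hθ.1], by linarith [hθ.2]⟩))
    · exact (continuous_const.mul hw).integrableOn_Icc
    · exact hi3.1.mono_set fun θ hθ => ⟨by linarith [hθ.1], by linarith [hθ.2]⟩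
    · refine (mul_le_mul_of_nonneg_right (hcov θ hθ.1 hθ.2) (hw0 θ)).trans (le_of_eq ?_)
      rw [sum_mul]
      refine sum_congr rfl fun m _ => ?_
      rw [sum_mul]
      refine sum_congr rfl fun σ _ => ?_
      split_ifs
      · rfl
      · simp
    · refine sum_nonneg fun m _ => sum_nonneg fun σ _ => mul_nonneg (hcv0 m) ?_
      split_ifs
      · exact hw0 θ
      · exact le_rfl
  have hLim : ∑ q ∈ T ×ˢ (univ : Finset (ℤˣ × Fin M)),
      cf q.1 * (√(L q.1 * (k q.1 * lam) / (k q.1 * ε₁ * a)) * W q.1 q.2.1)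
      = √(M * a) * ∑ m ∈ T, ∑ σ : ℤˣ, cv m * W m σ := by
    rw [sum_product, mul_sum]
    refine sum_congr rfl fun m _ => ?_
    rw [Fintype.sum_prod_type, mul_sum]
    refine sum_congr rfl fun σ _ => ?_
    simp only [sum_const, card_univ, Fintype.card_fin, nsmul_eq_mul]
    have := coef_eq (M := M) (L := L m) (lam := lam) (b := b m) (s := sn (k m * a)) (hk m) hε₁
      ha0 (norm_nonneg _)
    calc (M : ℝ) * (cf m * (√(L m * (k m * lam) / (k m * ε₁ * a)) * W m σ))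
        = (M : ℝ) * (a * sn (k m * a) * b m * √(L m * (k m * lam) / (k m * ε₁ * a))) * W m σ := by
          simp only [cf]; ring
      _ = √(M * a) * (√(M * (L m * (k m * lam))) * √(sn (k m * a) ^ 2 / (k m * ε₁)) * b m)
          * W m σ := by rw [← this]
      _ = _ := by simp only [cv, load]; ring
  have hMr : (0 : ℝ) < M := by exact_mod_cast hM0
  have hlt : √((M : ℝ) / h) * ((1 - ε) * WD - ε)
      < √(M * a) * ∑ m ∈ T, ∑ σ : ℤˣ, cv m * W m σ := by
    have h1 : 0 < √((M : ℝ) / h) := Real.sqrt_pos.2 (by positivity)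
    have h2 : √((M : ℝ) / h) * (1 - η) ≤ √(M * a) := by
      rw [← Real.sqrt_sq (show 0 ≤ 1 - η by linarith), ← Real.sqrt_mul (by positivity)]
      refine Real.sqrt_le_sqrt ?_
      have h3 : (M : ℝ) * a = M / h * (1 / (1 + ε₁)) := by rw [ha]; unfold aa; field_simp
      rw [h3]
      refine mul_le_mul_of_nonneg_left ?_ (by positivity)
      rw [le_div_iff₀ (by positivity)]
      nlinarith [mul_pos hη0 hη0, mul_pos hη0 hε₁, sq_nonneg (1 - η)]
    have h3 := mul_le_mul h2 hsum (mul_nonneg (by linarith) hWD0) (Real.sqrt_nonneg _)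
    refine lt_of_lt_of_le ?_ h3
    rw [mul_assoc]
    refine mul_lt_mul_of_pos_left ?_ h1
    nlinarith [mul_nonneg (sq_nonneg η) hWD0, mul_nonneg (show 0 ≤ ε - 2 * η by linarith) hWD0]
  rw [hLim] at hlim
  have hev := ((tendsto_sqrt M h).mul_const ((1 - ε) * WD - ε)).eventually_lt hlim hlt
  obtain ⟨B, hB, hB0, hBN⟩ := (hev.and ((eventually_gt_atTop 0).and
    (eventually_ge_atTop N₀))).exists
  have hBr : (0 : ℝ) < B := by exact_mod_cast hB0
  obtain ⟨Z, hZ⟩ := hP (Fin M) (Fin M × Fin B) (Fin B) Prod.fst (pos M B h)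
    (fun i => a * (i : ℕ) + ε₁ * a * ((i : ℕ) : ℝ) ^ 2 / (2 * B))
    (fun β => ((β.2 : ℕ) : ℝ) ^ 2 * u.1 + (β.2 : ℕ) * (v β.1).1 +
      ((β.2 : ℕ) : ℝ) ^ 2 * lam / (2 * B))
    (fun β => ((β.2 : ℕ) : ℝ) ^ 2 * u.2 + (β.2 : ℕ) * (v β.1).2) w (F B) hw hw0 (hF B) (by
      intro θ
      by_cases hex : ∃ q ∈ T ×ˢ (univ : Finset (ℤˣ × Fin M)), act B q θ
      · right
        obtain ⟨q, hq, hqa⟩ := hex
        refine ⟨q.1, q.2.2, q.2.1, le_of_eq ?_⟩
        rw [norm_seg a ε₁ lam u v (k q.1) (μ q.1) (L q.1) (A q.1)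
          (hpar q.1 (mem_product.1 hq).1).2.2.1]
        simp only [F]
        rw [sum_eq_single_of_mem q hq, if_pos hqa]
        · simp only [cf, val, mul_left_comm ((B + h : ℕ) : ℝ)]
        · intro q' hq' hne
          rw [if_neg]
          intro hqa'
          obtain ⟨e1, e2, e3⟩ := hdis θ (((B + h : ℕ) : ℝ) * θ) q'.1 (mem_product.1 hq').1 q.1
            (mem_product.1 hq).1 q'.2.1 q.2.1 q'.2.2 q.2.2 hqa'.1 hqa'.2 hqa.1 hqa.2
          exact hne (Prod.ext e1 (Prod.ext e2 e3))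
      · left
        refine le_of_eq (sum_eq_zero fun q hq => if_neg fun hqa => hex ⟨q, hq, hqa⟩))
  let G : Finset ((Fin M × Fin B) × Fin B) := univ.filter fun q =>
    Int.fract (a * (q.2 : ℕ) + ε₁ * a * ((q.2 : ℕ) : ℝ) ^ 2 / (2 * B) + Z q.1) < a
  refine ⟨M * B * (B + h), ?_, G.image fun q => pos M B h q.1 q.2, ?_, ?_, ?_⟩
  · calc N₀ ≤ B := hBN
      _ = 1 * B * 1 := by ring
      _ ≤ M * B * (B + h) := Nat.mul_le_mul (Nat.mul_le_mul_right _ hM0) (by omega)
  · intro x hx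
    obtain ⟨q, -, rfl⟩ := mem_image.1 hx
    exact pos_lt _ _
  · intro x hx y hy hxy
    obtain ⟨q, hq, rfl⟩ := mem_image.1 hx
    obtain ⟨q', hq', rfl⟩ := mem_image.1 hy
    rcases pos_cases hxy.le with ⟨e1, e2⟩ | hlt
    · have h1 := (mem_filter.1 hq).2
      have h2 := (mem_filter.1 hq').2
      rw [← e1] at h2
      have h3 : (q.2 : ℕ) < q'.2 := by
        unfold pos at hxy
        rw [e1] at hxy
        omega
      have := gap_block hε₁ hh (Z q.1) h3 q'.2.2 h1 h2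
      unfold pos
      rw [e1]
      omega
    · exact hlt.le
  · have h1 : ∀ θ : ℝ, ∑ x ∈ G.image (fun q => pos M B h q.1 q.2), e (x * θ)
        = ∑ β : Fin M × Fin B, ∑ i : Fin B, if Int.fract (a * (i : ℕ) + ε₁ * a *
          ((i : ℕ) : ℝ) ^ 2 / (2 * B) + Z β) < a then e (pos M B h β i * θ) else 0 := by
      intro θ
      rw [sum_image, sum_filter, Fintype.sum_prod_type]
      intro q _ q' _ hqq
      have hqq' : pos M B h q.1 q.2 = pos M B h q'.1 q'.2 := hqq
      rcases pos_cases hqq'.le with ⟨e1, e2⟩ | hlt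
      · refine Prod.ext e1 (Fin.ext ?_)
        unfold pos at hqq'
        rw [e1] at hqq'
        omega
      · omega
    simp only [h1]
    refine le_trans ?_ hZ
    rw [div_mul_eq_mul_div, div_lt_div_iff_of_pos_right hBr] at hB
    exact hB.le

end Vale.Agent.P130
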