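import Vale.Agent.P130.Defs

/-! The limits in L2 of the circle of the products of the rank-one polynomials. -/

namespace Vale.Agent.P130

open Finset MeasureTheory Filter Topology
open Vale.Agent.P110 (e)

namespace Limit

abbrev Cir : Type := AddCircle (1 : ℝ)

lemma fourier_coe (n : ℤ) (θ : ℝ) : fourier n (θ : Cir) = e (n * θ) := by
  rw [fourier_coe_apply]
  unfold e
  congr 1
  push_cast
  ring

lemma int_haar {E : Type*} [NormedAddCommGroup E] [NormedSpace ℝ E] (f : Cir → E) :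
    ∫ z, f z ∂haar = ∫ θ in (0 : ℝ)..1, f θ := by
  rw [AddCircle.integral_haarAddCircle, inv_one, one_smul,
    ← AddCircle.intervalIntegral_preimage 1 0 f, zero_add]

lemma norm_fourier (d : ℤ) (z : Cir) : ‖fourier d z‖ = 1 := by
  rw [fourier_apply]; exact Circle.norm_coe _

lemma normsq (f : Lp ℂ 2 haar) : ‖f‖ ^ 2 = ∫ z, ‖f z‖ ^ 2 ∂haar := by
  have h1 : ((‖f‖ ^ 2 : ℝ) : ℂ) = ((∫ z, ‖f z‖ ^ 2 ∂haar : ℝ) : ℂ) := by
    rw [← integral_complex_ofReal]
    have := inner_self_eq_norm_sq_to_K (𝕜 := ℂ) f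
    rw [L2.inner_def] at this
    push_cast
    refine this.symm.trans (integral_congr_ae (Eventually.of_forall fun z => ?_))
    exact inner_self_eq_norm_sq_to_K (𝕜 := ℂ) (f z)
  exact_mod_cast h1

lemma inner_eq (f g : Lp ℂ 2 haar) :
    inner ℂ f g = ∫ z, (starRingEnd ℂ) (f z) * g z ∂haar := by
  rw [L2.inner_def]
  refine integral_congr_ae (Eventually.of_forall fun z => ?_)
  simp [mul_comm]

lemma norm_le_of_ae {f g : Lp ℂ 2 haar} (h : ∀ᵐ z ∂haar, ‖f z‖ ≤ ‖g z‖) : ‖f‖ ≤ ‖g‖ :=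
  Lp.norm_le_norm_of_ae_le h

/-- multiplication by a bounded measurable function -/
lemma memLp_mul {c : Cir → ℂ} (hc : Measurable c) (hb : ∀ z, ‖c z‖ ≤ 1) (f : Lp ℂ 2 haar) :
    MemLp (fun z => c z * f z) 2 haar := by
  refine MemLp.of_le (Lp.memLp f)
    (hc.aestronglyMeasurable.mul (Lp.aestronglyMeasurable f)) (Eventually.of_forall fun z => ?_)
  rw [norm_mul]
  exact mul_le_of_le_one_left (norm_nonneg _) (hb z)

noncomputable def mul {c : Cir → ℂ} (hc : Measurable c) (hb : ∀ z, ‖c z‖ ≤ 1)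
    (f : Lp ℂ 2 haar) : Lp ℂ 2 haar := (memLp_mul hc hb f).toLp _

lemma mul_ae {c : Cir → ℂ} (hc : Measurable c) (hb : ∀ z, ‖c z‖ ≤ 1) (f : Lp ℂ 2 haar) :
    mul hc hb f =ᵐ[haar] fun z => c z * f z := MemLp.coeFn_toLp _

lemma mul_continuous {c : Cir → ℂ} (hc : Measurable c) (hb : ∀ z, ‖c z‖ ≤ 1) :
    Continuous (mul hc hb) := by
  refine (LipschitzWith.of_dist_le_mul (K := 1) fun f g => ?_).continuous
  rw [dist_eq_norm, dist_eq_norm, NNReal.coe_one, one_mul]
  refine norm_le_of_ae ?_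
  filter_upwards [mul_ae hc hb f, mul_ae hc hb g, Lp.coeFn_sub (mul hc hb f) (mul hc hb g),
    Lp.coeFn_sub f g] with z h1 h2 h3 h4
  rw [h3, h4, Pi.sub_apply, Pi.sub_apply, h1, h2, ← mul_sub, norm_mul]
  exact mul_le_of_le_one_left (norm_nonneg _) (hb z)

/-- an integrable function with vanishing Fourier coefficients vanishes -/
lemma eq_zero_of_coeff {H : Cir → ℂ} (hH : Integrable H haar)
    (h0 : ∀ d : ℤ, ∫ z, fourier d z * H z ∂haar = 0) : H =ᵐ[haar] 0 := by
  have hint : ∀ c : C(Cir, ℂ), Integrable (fun z => c z * H z) haar := fun c =>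
    hH.bdd_mul (c := ‖c‖) c.continuous.aestronglyMeasurable
      (Eventually.of_forall fun z => c.norm_coe_le_norm z)
  let L : C(Cir, ℂ) →ₗ[ℂ] ℂ :=
    { toFun := fun c => ∫ z, c z * H z ∂haar
      map_add' := fun c c' => by
        rw [← integral_add (hint c) (hint c')]
        simp [add_mul]
      map_smul' := fun a c => by
        simp only [ContinuousMap.smul_apply, smul_eq_mul, RingHom.id_apply, mul_assoc]
        rw [integral_const_mul] }
  have hL : ∀ c : C(Cir, ℂ), ‖L c‖ ≤ (∫ z, ‖H z‖ ∂haar) * ‖c‖ := fun c => by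
    refine (norm_integral_le_integral_norm _).trans ?_
    rw [← integral_mul_const]
    refine integral_mono (hint c).norm (hH.norm.mul_const _) fun z => ?_
    simp only [norm_mul]
    rw [mul_comm]
    exact mul_le_mul_of_nonneg_left (c.norm_coe_le_norm z) (norm_nonneg _)
  let L' : C(Cir, ℂ) →L[ℂ] ℂ := L.mkContinuous _ hL
  have hall : ∀ c : C(Cir, ℂ), ∫ z, c z * H z ∂haar = 0 := by
    intro c
    have h1 : Submodule.span ℂ (Set.range (@fourier (1 : ℝ))) ≤ LinearMap.ker L := by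
      rw [Submodule.span_le]
      rintro _ ⟨d, rfl⟩
      exact h0 d
    have h2 : IsClosed ((LinearMap.ker L : Submodule ℂ C(Cir, ℂ)) : Set C(Cir, ℂ)) :=
      isClosed_eq L'.continuous continuous_const
    have h3 := Submodule.topologicalClosure_minimal _ h1 h2
    rw [span_fourier_closure_eq_top] at h3
    exact h3 Submodule.mem_top
  refine ae_eq_zero_of_forall_setIntegral_isClosed_eq_zero hH fun F hF => ?_
  have hδ : ∀ n : ℕ, (0 : ℝ) < 1 / ((n : ℝ) + 1) := fun n => by positivity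
  have hlim := thickenedIndicator_tendsto_indicator_closure hδ
    tendsto_one_div_add_atTop_nhds_zero_nat F
  rw [hF.closure_eq, tendsto_pi_nhds] at hlim
  let c : ℕ → C(Cir, ℂ) := fun n =>
    ⟨fun z => (((thickenedIndicator (hδ n) F z : NNReal) : ℝ) : ℂ), by fun_prop⟩
  have hconv : Tendsto (fun n => ∫ z, c n z * H z ∂haar) atTop
      (𝓝 (∫ z, F.indicator H z ∂haar)) := by
    refine tendsto_integral_of_dominated_convergence (fun z => ‖H z‖)
      (fun n => (hint (c n)).aestronglyMeasurable) hH.norm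
      (fun n => Eventually.of_forall fun z => ?_) (Eventually.of_forall fun z => ?_)
    · rw [norm_mul]
      refine mul_le_of_le_one_left (norm_nonneg _) ?_
      have := thickenedIndicator_le_one (hδ n) F z
      simp only [c, ContinuousMap.coe_mk, Complex.norm_real, Real.norm_eq_abs, NNReal.abs_eq]
      exact_mod_cast this
    · have h1 : Tendsto (fun n => c n z) atTop
          (𝓝 ((((F.indicator (fun _ => (1 : NNReal)) z : NNReal) : ℝ)) : ℂ)) :=
        (Complex.continuous_ofReal.tendsto _).comp ((NNReal.continuous_coe.tendsto _).comp (hlim z))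
      have h2 := h1.mul_const (H z)
      by_cases hz : z ∈ F
      · simpa [hz] using h2
      · simpa [hz] using h2
  rw [integral_indicator hF.measurableSet] at hconv
  simp only [hall] at hconv
  exact (tendsto_nhds_unique tendsto_const_nhds hconv).symm

/-- the polynomial on the circle -/
noncomputable def Pc (Λ : Finset ℕ) (z : Cir) : ℂ :=
  (∑ x ∈ Λ, fourier (x : ℤ) z) / (√(Λ.card : ℝ) : ℝ)

lemma Pc_coe (Λ : Finset ℕ) (θ : ℝ) : Pc Λ θ = Pn Λ θ := by
  unfold Pc Pn
  simp only [fourier_coe, Int.cast_natCast]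

lemma Pc_cont (Λ : Finset ℕ) : Continuous (Pc Λ) := by
  unfold Pc
  fun_prop

open Classical in
/-- the phase -/
noncomputable def ph (Λ : Finset ℕ) (z : Cir) : ℂ :=
  if Pc Λ z = 0 then 1 else (starRingEnd ℂ) (Pc Λ z) / (‖Pc Λ z‖ : ℝ)

lemma ph_meas (Λ : Finset ℕ) : Measurable (ph Λ) := by
  have h := Pc_cont Λ
  refine Measurable.ite (measurableSet_eq_fun h.measurable measurable_const) measurable_const ?_
  exact (Complex.continuous_conj.comp h).measurable.div
    (Complex.continuous_ofReal.comp h.norm).measurable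

lemma ph_norm (Λ : Finset ℕ) (z : Cir) : ‖ph Λ z‖ = 1 := by
  unfold ph
  split_ifs with h
  · simp
  · have : ‖Pc Λ z‖ ≠ 0 := norm_ne_zero_iff.mpr h
    simp [this]

lemma Pc_mul_ph (Λ : Finset ℕ) (z : Cir) : Pc Λ z * ph Λ z = (‖Pc Λ z‖ : ℝ) := by
  unfold ph
  split_ifs with h
  · simp [h]
  · have : ((‖Pc Λ z‖ : ℝ) : ℂ) ≠ 0 := by exact_mod_cast norm_ne_zero_iff.mpr h
    rw [← mul_div_assoc, Complex.mul_conj, div_eq_iff this, Complex.normSq_eq_norm_sq]
    push_cast
    ring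

/-- the product of polynomials -/
noncomputable def q (Λ : ℕ → Finset ℕ) (k n : ℕ) (z : Cir) : ℂ :=
  (1 - fourier 1 z) * ∏ j ∈ Ico k n, Pc (Λ j) z

lemma q_coe (Λ : ℕ → Finset ℕ) (k n : ℕ) (θ : ℝ) : q Λ k n θ = (1 - e θ) * PP Λ k n θ := by
  unfold q PP
  simp only [fourier_coe, Pc_coe, Int.cast_one, one_mul]

lemma q_cont (Λ : ℕ → Finset ℕ) (k n : ℕ) : Continuous (q Λ k n) := by
  unfold q
  exact (continuous_const.sub (fourier 1).continuous).mul
    (continuous_finsetProd _ fun j _ => Pc_cont _)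

/-- the product of phases -/
noncomputable def Φ (Λ : ℕ → Finset ℕ) (n : ℕ) (z : Cir) : ℂ := ∏ j ∈ range n, ph (Λ j) z

lemma Φ_meas (Λ : ℕ → Finset ℕ) (n : ℕ) : Measurable (Φ Λ n) :=
  Finset.measurable_prod _ fun j _ => ph_meas (Λ j)

lemma Φ_norm (Λ : ℕ → Finset ℕ) (n : ℕ) (z : Cir) : ‖Φ Λ n z‖ = 1 := by
  unfold Φ
  rw [norm_prod]
  simp [ph_norm]

lemma memLp_Y (Λ : ℕ → Finset ℕ) (k n : ℕ) :
    MemLp (fun z => q Λ k n z * Φ Λ n z) 2 haar := by
  let c : C(Cir, ℂ) := ⟨q Λ k n, q_cont Λ k n⟩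
  refine MemLp.of_bound ((q_cont Λ k n).measurable.mul (Φ_meas Λ n)).aestronglyMeasurable ‖c‖
    (Eventually.of_forall fun z => ?_)
  rw [norm_mul, Φ_norm, mul_one]
  exact c.norm_coe_le_norm z

/-- the approximating vectors -/
noncomputable def Y (Λ : ℕ → Finset ℕ) (k n : ℕ) : Lp ℂ 2 haar := (memLp_Y Λ k n).toLp _

lemma Y_ae (Λ : ℕ → Finset ℕ) (k n : ℕ) :
    Y Λ k n =ᵐ[haar] fun z => q Λ k n z * Φ Λ n z := MemLp.coeFn_toLp _

lemma Y_step {h : ℕ → ℕ} {Λ : ℕ → Finset ℕ} (D : Data h Λ) {k n : ℕ} (hkn : k ≤ n) :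
    ‖Y Λ k (n + 1) - Y Λ k n‖ ≤ (1 / 2 : ℝ) ^ n := by
  have h1 : ‖Y Λ k (n + 1) - Y Λ k n‖ ^ 2
      = ∫ z, ‖q Λ k n z‖ ^ 2 * (‖Pc (Λ n) z‖ - 1) ^ 2 ∂haar := by
    rw [normsq]
    refine integral_congr_ae ?_
    filter_upwards [Y_ae Λ k (n + 1), Y_ae Λ k n, Lp.coeFn_sub (Y Λ k (n + 1)) (Y Λ k n)]
      with z h1 h2 h3
    rw [h3, Pi.sub_apply, h1, h2]
    have h4 : q Λ k (n + 1) z * Φ Λ (n + 1) z - q Λ k n z * Φ Λ n z
        = q Λ k n z * Φ Λ n z * ((‖Pc (Λ n) z‖ - 1 : ℝ) : ℂ) := by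
      have h5 := Pc_mul_ph (Λ n) z
      unfold q Φ
      rw [prod_Ico_succ_top hkn, prod_range_succ]
      push_cast
      rw [← h5]
      ring
    rw [h4, norm_mul, norm_mul, Φ_norm, mul_one, Complex.norm_real, Real.norm_eq_abs, mul_pow,
      sq_abs]
  rw [int_haar] at h1
  simp only [q_coe, Pc_coe] at h1
  have h2 := D.flat k n hkn
  rw [← h1] at h2
  have h3 : (1 / 4 : ℝ) ^ n = ((1 / 2 : ℝ) ^ n) ^ 2 := by
    rw [← pow_mul, mul_comm, pow_mul]; norm_num
  rw [h3] at h2
  exact (pow_le_pow_iff_left₀ (norm_nonneg _) (by positivity) two_ne_zero).mp h2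

lemma exists_lim {h : ℕ → ℕ} {Λ : ℕ → Finset ℕ} (D : Data h Λ) (k : ℕ) :
    ∃ y : Lp ℂ 2 haar, Tendsto (Y Λ k) atTop (𝓝 y) ∧ ‖Y Λ k k - y‖ ≤ 2 * (1 / 2 : ℝ) ^ k := by
  have hd : ∀ n, dist (Y Λ k (n + k)) (Y Λ k (n + 1 + k)) ≤ (1 / 2 : ℝ) ^ k * (1 / 2) ^ n := by
    intro n
    rw [dist_comm, dist_eq_norm, ← pow_add, add_comm k n, add_right_comm]
    exact Y_step D (Nat.le_add_left k n)
  have hc : CauchySeq fun n => Y Λ k (n + k) :=
    cauchySeq_of_le_geometric (1 / 2) _ (by norm_num) hd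
  obtain ⟨y, hy⟩ := cauchySeq_tendsto_of_complete hc
  refine ⟨y, (tendsto_add_atTop_iff_nat k).mp hy, ?_⟩
  have := dist_le_of_le_geometric_of_tendsto₀ (1 / 2) _ (by norm_num) hd hy
  rw [zero_add, dist_eq_norm] at this
  refine this.trans (le_of_eq ?_)
  ring

lemma one_sub_ne : ∀ᵐ z ∂haar, (1 - fourier 1 z : ℂ) ≠ 0 := by
  have h0 : haar ({0} : Set Cir) = 0 := by
    have h1 := AddCircle.volume_closedBall (T := 1) (x := 0) 0
    rw [Metric.closedBall_zero, AddCircle.volume_eq_smul_haarAddCircle] at h1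
    simpa using h1
  rw [ae_iff]
  refine measure_mono_null (fun z hz => ?_) h0
  simp only [ne_eq, not_not, Set.mem_ofPred_eq] at hz
  rw [fourier_one, sub_eq_zero] at hz
  refine AddCircle.injective_toCircle one_ne_zero ?_
  rw [AddCircle.toCircle_zero]
  exact Subtype.ext hz.symm

end Limit

open Limit in
theorem limit_prop : LimitProp := by
  intro h Λ D
  choose y hy hyk using exists_lim D
  have hf : ∀ d : ℤ, Measurable fun z : Cir => fourier d z := fun d =>
    (fourier d).continuous.measurable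
  have hb : ∀ (d : ℤ) (z : Cir), ‖fourier d z‖ ≤ 1 := fun d z => (norm_fourier d z).le
  refine ⟨y, fun k l d => ?_, fun g hg => ?_⟩
  · have h1 := (hy k).inner (𝕜 := ℂ) (((mul_continuous (hf d) (hb d)).tendsto _).comp (hy l))
    have h2 : inner ℂ (y k) (mul (hf d) (hb d) (y l))
        = ∫ z, (starRingEnd ℂ) (y k z) * y l z * fourier d z ∂haar := by
      rw [inner_eq]
      refine integral_congr_ae ?_
      filter_upwards [mul_ae (hf d) (hb d) (y l)] with z h1
      rw [h1]; ring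
    rw [h2] at h1
    refine h1.congr fun n => ?_
    have h3 : inner ℂ (Y Λ k n) (mul (hf d) (hb d) (Y Λ l n))
        = ∫ z, (starRingEnd ℂ) (q Λ k n z) * q Λ l n z * fourier d z ∂haar := by
      rw [inner_eq]
      refine integral_congr_ae ?_
      filter_upwards [mul_ae (hf d) (hb d) (Y Λ l n), Y_ae Λ k n, Y_ae Λ l n] with z h1 h2 h3
      rw [h1, h2, h3, map_mul]
      have h4 : (starRingEnd ℂ) (Φ Λ n z) * Φ Λ n z = 1 := by
        rw [Complex.conj_mul', Φ_norm]; simp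
      linear_combination ((starRingEnd ℂ) (q Λ k n z) * q Λ l n z * fourier d z) * h4
    rw [Function.comp_apply, h3, int_haar]
    simp only [q_coe, fourier_coe]
  · have hz : ∀ k, ∀ᵐ z ∂haar, (starRingEnd ℂ) (g z) * y k z = 0 := by
      intro k
      have hi : Integrable (fun z => (starRingEnd ℂ) (g z) * y k z) haar := by
        refine (L2.integrable_inner (𝕜 := ℂ) g (y k)).congr (Eventually.of_forall fun z => ?_)
        simp [mul_comm]
      refine eq_zero_of_coeff hi fun d => ?_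
      rw [← hg k d]
      refine integral_congr_ae (Eventually.of_forall fun z => ?_)
      ring
    -- the function |g| |1 - z| has integral zero
    have hi : Integrable (fun z => ‖g z‖ * ‖(1 : ℂ) - fourier 1 z‖) haar := by
      have hg1 : Integrable g haar := (Lp.memLp g).integrable (by norm_num)
      refine hg1.norm.mul_bdd (c := 2)
        (continuous_const.sub (fourier 1).continuous).norm.aestronglyMeasurable
        (Eventually.of_forall fun z => ?_)
      rw [norm_norm]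
      refine (norm_sub_le _ _).trans ?_
      rw [norm_fourier]; norm_num
    have hle : ∀ k, ∫ z, ‖g z‖ * ‖(1 : ℂ) - fourier 1 z‖ ∂haar ≤ ‖g‖ * (2 * (1 / 2 : ℝ) ^ k) := by
      intro k
      have h1 : ∫ z, ‖g z‖ * ‖(1 : ℂ) - fourier 1 z‖ ∂haar
          = ∫ z, ‖g z‖ * ‖(Y Λ k k - y k) z‖ ∂haar := by
        refine integral_congr_ae ?_
        filter_upwards [hz k, Y_ae Λ k k, Lp.coeFn_sub (Y Λ k k) (y k)] with z h1 h2 h3
        rw [h3, Pi.sub_apply, h2]
        rcases mul_eq_zero.mp h1 with h4 | h4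
        · have : g z = 0 := by simpa using h4
          simp [this]
        · rw [h4, sub_zero, norm_mul, Φ_norm, mul_one]
          simp [q]
      have h2 : ∫ z, ‖g z‖ * ‖(Y Λ k k - y k) z‖ ∂haar ≤ ‖g‖ * ‖Y Λ k k - y k‖ := by
        generalize Y Λ k k - y k = u
        have h3 := integral_mul_norm_le_Lp_mul_Lq (μ := haar) (f := g) (g := u)
          Real.HolderConjugate.two_two (by simpa using Lp.memLp g)
          (by simpa using Lp.memLp u)
        have h4 : ∀ f : Lp ℂ 2 haar, (∫ z, ‖f z‖ ^ (2 : ℝ) ∂haar) ^ (1 / (2 : ℝ)) = ‖f‖ := by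
          intro f
          simp only [Real.rpow_two]
          rw [← normsq, ← Real.sqrt_eq_rpow, Real.sqrt_sq (norm_nonneg _)]
        rwa [h4, h4] at h3
      rw [h1]
      exact h2.trans (mul_le_mul_of_nonneg_left (hyk k) (norm_nonneg _))
    have hlim : Tendsto (fun k : ℕ => ‖g‖ * (2 * (1 / 2 : ℝ) ^ k)) atTop (𝓝 (‖g‖ * (2 * 0))) :=
      ((tendsto_pow_atTop_nhds_zero_of_lt_one (by norm_num) (by norm_num)).const_mul _).const_mul _
    have h0 : ∫ z, ‖g z‖ * ‖(1 : ℂ) - fourier 1 z‖ ∂haar = 0 := by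
      refine le_antisymm ?_ (integral_nonneg fun z => by positivity)
      simpa using ge_of_tendsto' hlim hle
    rw [integral_eq_zero_iff_of_nonneg (fun z => by positivity) hi] at h0
    refine Lp.ext ?_
    filter_upwards [h0, one_sub_ne, Lp.coeFn_zero ℂ 2 haar] with z h1 h2 h3
    rw [h3]
    rcases mul_eq_zero.mp h1 with h4 | h4
    · exact norm_eq_zero.mp h4
    · exact absurd (norm_eq_zero.mp h4) h2

end Vale.Agent.P130
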