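import Vale.Agent.P130.Defs

/-! Windows and loads. -/

namespace Vale.Agent.P130

open Finset MeasureTheory Filter Topology
open Vale.Agent.P110

namespace Loads

lemma ii_e (x : ℝ) : IntervalIntegrable (fun t : ℝ => e (-(x * t))) volume 0 1 :=
  (continuous_e.comp (by fun_prop)).intervalIntegrable _ _

lemma sn_nonneg (x : ℝ) : 0 ≤ sn x := norm_nonneg _

lemma sn_le_one (x : ℝ) : sn x ≤ 1 := by
  have := intervalIntegral.norm_integral_le_of_norm_le_const (a := 0) (b := 1) (C := 1)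
    (f := fun t : ℝ => e (-(x * t))) fun t _ => (norm_e _).le
  simpa [sn] using this

lemma sn_neg (x : ℝ) : sn (-x) = sn x := by
  unfold sn
  rw [← Complex.norm_conj, ← intervalIntegral.intervalIntegral_conj]
  simp only [conj_e, neg_mul, neg_neg]

lemma sn_lip (x y : ℝ) : |sn x - sn y| ≤ 2 * Real.pi * |x - y| := by
  refine (abs_norm_sub_norm_le _ _).trans ?_
  rw [← intervalIntegral.integral_sub (ii_e x) (ii_e y)]
  have := intervalIntegral.norm_integral_le_of_norm_le_const (a := 0) (b := 1)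
    (C := 2 * Real.pi * |x - y|) (f := fun t : ℝ => e (-(x * t)) - e (-(y * t))) fun t ht => by
      refine (norm_e_sub_e_le _ _).trans (mul_le_mul_of_nonneg_left ?_ (by positivity))
      rw [Set.uIoc_of_le zero_le_one] at ht
      have h1 : -(x * t) - -(y * t) = -((x - y) * t) := by ring
      rw [h1, abs_neg, abs_mul, abs_of_pos ht.1]
      exact mul_le_of_le_one_right (abs_nonneg _) ht.2
  simpa using this

lemma sq_lip (x y : ℝ) : |sn x ^ 2 - sn y ^ 2| ≤ 4 * Real.pi * |x - y| := by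
  have h1 : sn x ^ 2 - sn y ^ 2 = (sn x - sn y) * (sn x + sn y) := by ring
  rw [h1, abs_mul, abs_of_nonneg (add_nonneg (sn_nonneg x) (sn_nonneg y))]
  have h2 := sn_lip x y
  have h3 : sn x + sn y ≤ 2 := by linarith [sn_le_one x, sn_le_one y]
  calc |sn x - sn y| * (sn x + sn y) ≤ (2 * Real.pi * |x - y|) * 2 :=
        mul_le_mul h2 h3 (add_nonneg (sn_nonneg x) (sn_nonneg y)) (by positivity)
    _ = _ := by ring

lemma sn_int {n : ℤ} (hn : n ≠ 0) : sn n = 0 := by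
  have := integral_e_int (-n) 0
  rw [zero_add, if_neg (neg_ne_zero.2 hn)] at this
  simp only [Int.cast_neg, neg_mul] at this
  rw [sn, this, norm_zero]

lemma sn_le {x : ℝ} (hx : 0 < x) : sn x ≤ 1 / (Real.pi * x) := by
  have hpi := Real.pi_pos
  have hc : (((2 * Real.pi * -x : ℝ) : ℂ) * Complex.I) ≠ 0 := by
    refine mul_ne_zero ?_ Complex.I_ne_zero
    have : (2 * Real.pi * -x : ℝ) ≠ 0 := mul_ne_zero (by positivity) (neg_ne_zero.2 hx.ne')
    exact_mod_cast this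
  have hd : ∀ t ∈ Set.uIcc (0 : ℝ) 1, HasDerivAt
      (fun y : ℝ => e (-(x * y)) / (((2 * Real.pi * -x : ℝ) : ℂ) * Complex.I))
      (e (-(x * t))) t := by
    intro t _
    have h0 : HasDerivAt (fun y : ℝ => -(x * y)) (-x) t := by
      have h00 := ((hasDerivAt_id t).const_mul x).neg
      rw [mul_one] at h00
      exact h00
    have := (HasDerivAt.e_comp h0).div_const (((2 * Real.pi * -x : ℝ) : ℂ) * Complex.I)
    rwa [mul_div_cancel_left₀ _ hc] at this
  rw [sn, intervalIntegral.integral_eq_sub_of_hasDerivAt hd (ii_e x), ← sub_div, norm_div,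
    norm_mul, Complex.norm_I, mul_one, Complex.norm_real, Real.norm_eq_abs, mul_neg, abs_neg,
    abs_of_pos (by positivity), div_le_div_iff₀ (by positivity) (by positivity)]
  have h1 := norm_sub_le (e (-(x * 1))) (e (-(x * 0)))
  rw [norm_e, norm_e, mul_one] at h1
  nlinarith [mul_pos hpi hx]

lemma hasSum_sn (x : ℝ) : HasSum (fun j : ℤ => sn (x + j) ^ 2) 1 := by
  have hm : MemLp (fun t : ℝ => e (-(x * t))) 2 (volume.restrict (Set.Ioc (0 : ℝ) 1)) :=
    MemLp.of_bound (continuous_e.comp (by fun_prop)).aestronglyMeasurable 1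
      (ae_of_all _ fun t => (norm_e _).le)
  have h := hasSum_sq_fourierCoeffOn zero_lt_one hm
  simp only [norm_e, one_pow, intervalIntegral.integral_const, sub_zero, smul_eq_mul, mul_one,
    inv_one] at h
  convert h using 3 with j
  rw [fourierCoeffOn_eq_integral, sn]
  simp only [sub_zero, div_one, one_smul, fourier_coe_apply, smul_eq_mul]
  congr 2
  funext t
  have h1 : -((x + j) * t) = -(j * t) + -(x * t) := by ring
  rw [h1, e_add]
  congr 1
  unfold e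
  congr 1
  push_cast
  ring

lemma hasSum_nat (x : ℝ) : HasSum (fun j : ℕ => sn (x + j) ^ 2 + sn (1 - x + j) ^ 2) 1 := by
  have h : ∀ j : ℕ, sn (x + j) ^ 2 + sn (1 - x + j) ^ 2
      = sn (x + ((j : ℤ) : ℝ)) ^ 2 + sn (x + ((-((j : ℤ) + 1) : ℤ) : ℝ)) ^ 2 := fun j => by
    rw [← sn_neg (1 - x + j)]
    congr 3
    push_cast
    ring
  simp only [h]
  exact (hasSum_sn x).nat_add_neg_add_one

lemma sum_le (x : ℝ) (N : ℕ) : ∑ j ∈ range N, (sn (x + j) ^ 2 + sn (1 - x + j) ^ 2) ≤ 1 :=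
  sum_le_hasSum _ (fun _ _ => by positivity) (hasSum_nat x)

lemma sq_le {y : ℝ} {m : ℝ} (hm : 0 < m) (hy : m + 1 ≤ y) :
    sn y ^ 2 ≤ 1 / 2 * (1 / m - 1 / (m + 1)) := by
  have h1 := sn_le (x := y) (by linarith)
  have h2 : 1 / (Real.pi * y) ≤ 1 / (2 * (m + 1)) :=
    one_div_le_one_div_of_le (by positivity) (mul_le_mul Real.two_le_pi hy (by positivity)
      Real.pi_pos.le)
  have h3 := pow_le_pow_left₀ (sn_nonneg y) (h1.trans h2) 2
  refine h3.trans ?_
  rw [div_sub_div _ _ hm.ne' (by positivity), div_pow, ← mul_div_assoc,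
    div_le_div_iff₀ (by positivity) (by positivity)]
  nlinarith

lemma le_sum {x : ℝ} (h0 : 0 ≤ x) (h1 : x ≤ 1) {N : ℕ} (hN : 0 < N) :
    1 - 1 / (N : ℝ) ≤ ∑ j ∈ range (N + 1), (sn (x + j) ^ 2 + sn (1 - x + j) ^ 2) := by
  have hNr : (0 : ℝ) < N := by exact_mod_cast hN
  have h := ((hasSum_nat_add_iff' (N + 1)).2 (hasSum_nat x)).tendsto_sum_nat
  have hb : ∀ n : ℕ, ∑ i ∈ range n, (sn (x + (i + (N + 1) : ℕ)) ^ 2
      + sn (1 - x + (i + (N + 1) : ℕ)) ^ 2) ≤ 1 / (N : ℝ) - 1 / (n + N) := by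
    intro n
    induction n with
    | zero => simp
    | succ n ih =>
      rw [sum_range_succ]
      have a1 := sq_le (y := x + (n + (N + 1) : ℕ)) (m := n + N) (by positivity)
        (by push_cast; linarith)
      have a2 := sq_le (y := 1 - x + (n + (N + 1) : ℕ)) (m := n + N) (by positivity)
        (by push_cast; linarith)
      have a3 : ((n + 1 : ℕ) : ℝ) + N = n + N + 1 := by push_cast; ring
      rw [a3]
      linarith
  have h2 := le_of_tendsto' h fun n => (hb n).trans (sub_le_self _ (by positivity))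
  linarith

lemma count_le {ε y : ℝ} (hε : 0 < ε) (hε1 : ε ≤ 1) {k₀ : ℕ} (hk₀ : 1 ≤ k₀ * ε ^ 2)
    (s : Finset ℕ) (hs : ∀ k ∈ s, k₀ ≤ k ∧ y / (1 + ε) ≤ k ∧ (k : ℝ) ≤ y) :
    ∑ k ∈ s, 1 / (k * ε) ≤ 1 + 2 * ε := by
  rcases s.eq_empty_or_nonempty with rfl | ⟨k, hk⟩
  · simp only [sum_empty]; positivity
  have h1 : (k₀ : ℝ) ≤ y := le_trans (by exact_mod_cast (hs k hk).1) (hs k hk).2.2
  have h2 : 1 ≤ y * ε ^ 2 := hk₀.trans (mul_le_mul_of_nonneg_right h1 (by positivity))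
  have hy : 0 < y := by
    by_contra hc
    nlinarith [sq_nonneg ε]
  have h3 : s ⊆ Icc ⌈y / (1 + ε)⌉₊ ⌊y⌋₊ := fun k hk =>
    mem_Icc.2 ⟨Nat.ceil_le.2 (hs k hk).2.1, Nat.le_floor (hs k hk).2.2⟩
  have h4 : (s.card : ℝ) ≤ y + 1 - y / (1 + ε) := by
    have a1 := card_le_card h3
    have a2 := mem_Icc.1 (h3 hk)
    rw [Nat.card_Icc] at a1
    have a3 : s.card + ⌈y / (1 + ε)⌉₊ ≤ ⌊y⌋₊ + 1 := by omega
    have a4 : (s.card : ℝ) + ⌈y / (1 + ε)⌉₊ ≤ ⌊y⌋₊ + 1 := by exact_mod_cast a3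
    linarith [Nat.le_ceil (y / (1 + ε)), Nat.floor_le hy.le]
  have h5 : ∀ k ∈ s, 1 / ((k : ℝ) * ε) ≤ (1 + ε) / (y * ε) := fun k hk => by
    have a1 := (hs k hk).2.1
    have a2 : 0 < y / (1 + ε) := by positivity
    rw [div_le_iff₀ (by positivity)] at a1
    rw [div_le_div_iff₀ (mul_pos (a2.trans_le (hs k hk).2.1) hε) (by positivity)]
    nlinarith
  refine (sum_le_card_nsmul s _ _ h5).trans ?_
  rw [nsmul_eq_mul]
  refine (mul_le_mul_of_nonneg_right h4 (by positivity)).trans ?_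
  have h6 : (y + 1 - y / (1 + ε)) * ((1 + ε) / (y * ε)) = 1 + (1 + ε) / (y * ε) := by
    field_simp
    ring
  rw [h6, add_le_add_iff_left, div_le_iff₀ (by positivity)]
  nlinarith

lemma le_count {ε y : ℝ} (hε : 0 < ε) (hy : 1 ≤ y * ε ^ 2) :
    1 - 2 * ε ≤ ∑ k ∈ Ioc ⌊y / (1 + ε)⌋₊ ⌊y⌋₊, 1 / ((k : ℝ) * ε) := by
  have hy0 : 0 < y := by
    by_contra hc
    nlinarith [sq_nonneg ε]
  have h1 : y / (1 + ε) ≤ y := div_le_self hy0.le (by linarith)
  have h2 : y - 1 - y / (1 + ε) ≤ ((Ioc ⌊y / (1 + ε)⌋₊ ⌊y⌋₊).card : ℝ) := by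
    rw [Nat.card_Ioc, Nat.cast_sub (Nat.floor_le_floor h1)]
    linarith [Nat.lt_floor_add_one y, Nat.floor_le (show 0 ≤ y / (1 + ε) by positivity)]
  have h5 : ∀ k ∈ Ioc ⌊y / (1 + ε)⌋₊ ⌊y⌋₊, 1 / (y * ε) ≤ 1 / ((k : ℝ) * ε) := fun k hk => by
    have a1 := mem_Ioc.1 hk
    have a2 : (0 : ℝ) < k := by exact_mod_cast (by omega : 0 < k)
    refine one_div_le_one_div_of_le (by positivity) (mul_le_mul_of_nonneg_right ?_ hε.le)
    exact le_trans (by exact_mod_cast a1.2) (Nat.floor_le hy0.le)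
  refine le_trans ?_ (card_nsmul_le_sum _ _ _ h5)
  rw [nsmul_eq_mul]
  refine le_trans ?_ (mul_le_mul_of_nonneg_right h2 (by positivity))
  have h6 : (y - 1 - y / (1 + ε)) * (1 / (y * ε)) = 1 / (1 + ε) - 1 / (y * ε) := by
    field_simp
    ring
  have h7 : 1 - ε ≤ 1 / (1 + ε) := by
    rw [le_div_iff₀ (by positivity)]
    nlinarith [sq_nonneg ε]
  have h8 : 1 / (y * ε) ≤ ε := by
    rw [div_le_iff₀ (by positivity)]
    nlinarith
  rw [h6]
  linarith

open Classical in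
/-- the retained modes -/
noncomputable def KK (ε a : ℝ) (N k₀ : ℕ) : Finset ℕ :=
  (range (⌈(N + 1) / a⌉₊ + 1)).filter fun k => k₀ ≤ k ∧ k * a < N + 1 ∧
    0 < Int.fract (k * a) ∧ Int.fract (k * a) + k * ε * a < 1

lemma mem_KK {ε a : ℝ} (ha : 0 < a) {N k₀ k : ℕ} : k ∈ KK ε a N k₀ ↔ k₀ ≤ k ∧ k * a < N + 1 ∧
    0 < Int.fract (k * a) ∧ Int.fract (k * a) + k * ε * a < 1 := by
  rw [KK, mem_filter, and_iff_right_iff_imp, mem_range]
  rintro ⟨-, h, -⟩
  have h1 : (k : ℝ) ≤ (N + 1) / a := by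
    rw [le_div_iff₀ ha]
    exact h.le
  have h2 : k ≤ ⌈((N : ℝ) + 1) / a⌉₊ := by exact_mod_cast h1.trans (Nat.le_ceil _)
  omega

lemma floor_fract {z : ℝ} (hz : 0 ≤ z) : (⌊z⌋₊ : ℝ) + Int.fract z = z := by
  rw [natCast_floor_eq_intCast_floor hz, Int.floor_add_fract]

lemma maps_to {ε a : ℝ} (ha : 0 < a) {N k₀ : ℕ} :
    ∀ k ∈ KK ε a N k₀, ⌊(k : ℝ) * a⌋₊ ∈ range (N + 1) := fun k hk => by
  rw [mem_range, Nat.floor_lt (by positivity)]
  push_cast
  exact ((mem_KK ha).1 hk).2.1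

lemma upper {ε a : ℝ} (hε : 0 < ε) (hε1 : ε ≤ 1) (ha : 0 < a) {N k₀ : ℕ}
    (hk₀ : 1 ≤ k₀ * ε ^ 2) (x : ℝ) :
    ∑ k ∈ KK ε a N k₀, (if Int.fract (k * a) ≤ x ∧ x ≤ Int.fract (k * a) + k * ε * a then
      sn (k * a) ^ 2 / (k * ε) else 0)
      ≤ ∑ j ∈ range (N + 1), (sn (x + j) ^ 2 + 4 * Real.pi * ((N + 1) * ε)) * (1 + 2 * ε) := by
  rw [← sum_fiberwise_of_maps_to (maps_to ha)]
  refine sum_le_sum fun j _ => ?_
  rw [← sum_filter]
  set s := ((KK ε a N k₀).filter fun k : ℕ => ⌊(k : ℝ) * a⌋₊ = j).filter fun k : ℕ =>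
    Int.fract (k * a) ≤ x ∧ x ≤ Int.fract (k * a) + k * ε * a with hs
  have h1 : ∀ k ∈ s, k₀ ≤ k ∧ k * a < N + 1 ∧ k * a ≤ x + j ∧ x + j ≤ k * a + k * ε * a := by
    intro k hk
    obtain ⟨hk1, hk2⟩ := mem_filter.1 hk
    obtain ⟨hk3, hk4⟩ := mem_filter.1 hk1
    have a1 := floor_fract (z := k * a) (by positivity)
    rw [hk4] at a1
    obtain ⟨b1, b2, -⟩ := (mem_KK ha).1 hk3
    exact ⟨b1, b2, by linarith [hk2.1], by linarith [hk2.2]⟩
  have h2 := count_le (y := (x + j) / a) hε hε1 hk₀ s fun k hk => by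
    obtain ⟨b1, -, b3, b4⟩ := h1 k hk
    refine ⟨b1, ?_, ?_⟩
    · rw [div_le_iff₀ (by positivity), div_le_iff₀ ha]
      linarith
    · rw [le_div_iff₀ ha]
      exact b3
  refine le_trans ?_ (mul_le_mul_of_nonneg_left h2 (by positivity))
  rw [mul_sum]
  refine sum_le_sum fun k hk => ?_
  obtain ⟨-, b2, b3, b4⟩ := h1 k hk
  rw [mul_one_div]
  refine div_le_div_of_nonneg_right ?_ (by positivity)
  have a1 := (abs_le.1 (sq_lip (k * a) (x + j))).2
  have a2 : |k * a - (x + j)| ≤ (N + 1) * ε := by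
    rw [abs_le]
    constructor <;> nlinarith
  have a3 := mul_le_mul_of_nonneg_left a2 (show 0 ≤ 4 * Real.pi by positivity)
  linarith

lemma lower {ε a : ℝ} (hε : 0 < ε) (hε1 : 2 * ε ≤ 1) (ha : 0 < a) {N k₀ : ℕ}
    (hk₀ : 1 ≤ k₀ * ε ^ 2) {x : ℝ} (hx0 : k₀ * ((1 + ε) * a) ≤ x) (hx1 : x < 1) :
    ∑ j ∈ range (N + 1), (sn (x + j) ^ 2 - 4 * Real.pi * ((N + 1) * ε)) * (1 - 2 * ε)
      ≤ ∑ k ∈ KK ε a N k₀, (if arc 1 (k * a) (k * ε * a) x then
        sn (k * a) ^ 2 / (k * ε) else 0) := by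
  rw [← sum_fiberwise_of_maps_to (maps_to ha)]
  refine sum_le_sum fun j hj => ?_
  have hj' : (j : ℝ) ≤ N := by exact_mod_cast Nat.lt_succ_iff.1 (mem_range.1 hj)
  have hx : 0 ≤ x := le_trans (by positivity) hx0
  have hj0 : (0 : ℝ) ≤ j := by positivity
  have hnn : ∀ k : ℕ, 0 ≤ (if arc 1 (k * a) (k * ε * a) x then
      sn (k * a) ^ 2 / (k * ε) else 0) := fun k => by split_ifs <;> positivity
  set y := (x + j) / a with hy
  have hya : y * a = x + j := by rw [hy]; field_simp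
  have hy1 : (k₀ : ℝ) ≤ y / (1 + ε) := by
    rw [le_div_iff₀ (by positivity), hy, le_div_iff₀ ha]
    linarith
  have hy0 : 0 ≤ y := by positivity
  have hy2 : 1 ≤ y * ε ^ 2 := hk₀.trans (mul_le_mul_of_nonneg_right
    (hy1.trans (div_le_self hy0 (by linarith))) (by positivity))
  have h1 : ∀ k ∈ Ioc ⌊y / (1 + ε)⌋₊ ⌊y⌋₊,
      k₀ ≤ k ∧ 0 < k ∧ k * a ≤ x + j ∧ x + j < k * a + k * ε * a := by
    intro k hk
    obtain ⟨a1, a2⟩ := mem_Ioc.1 hk
    have a3 : y / (1 + ε) < k := (Nat.floor_lt (by positivity)).1 a1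
    have a4 : (k : ℝ) ≤ y := (Nat.le_floor_iff hy0).1 a2
    refine ⟨by exact_mod_cast (hy1.trans a3.le), by omega, ?_, ?_⟩
    · rw [← hya]
      exact mul_le_mul_of_nonneg_right a4 ha.le
    · rw [div_lt_iff₀ (by positivity)] at a3
      rw [← hya]
      nlinarith
  by_cases hbig : sn (x + j) ^ 2 ≤ 4 * Real.pi * ((N + 1) * ε)
  · exact (mul_nonpos_of_nonpos_of_nonneg (by linarith) (by linarith)).trans
      (sum_nonneg fun k _ => hnn k)
  have hint : ∀ n : ℤ, n ≠ 0 → |x + j - n| ≤ (N + 1) * ε → False := fun n hn hd => by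
    have a1 := (abs_le.1 (sq_lip (x + j) n)).2
    rw [sn_int hn] at a1
    have a3 := mul_le_mul_of_nonneg_left hd (show 0 ≤ 4 * Real.pi by positivity)
    apply hbig
    linarith
  have h2 : ∀ k ∈ Ioc ⌊y / (1 + ε)⌋₊ ⌊y⌋₊, k ∈ (KK ε a N k₀).filter
      (fun k : ℕ => ⌊(k : ℝ) * a⌋₊ = j) ∧ arc 1 (k * a) (k * ε * a) x := by
    intro k hk
    obtain ⟨b1, b2, b3, b4⟩ := h1 k hk
    have hkr : (0 : ℝ) < k := by exact_mod_cast b2
    have hka : 0 < k * a := by positivity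
    have b5 : k * ε * a ≤ (N + 1) * ε := by nlinarith
    have c0 := Int.floor_add_fract (k * a)
    have c00 : 0 ≤ ⌊(k : ℝ) * a⌋ := Int.floor_nonneg.2 hka.le
    have c1 : 0 < Int.fract (k * a) := by
      refine lt_of_le_of_ne (Int.fract_nonneg _) fun hc => hint ⌊(k : ℝ) * a⌋ ?_ ?_
      · intro h0
        rw [← hc, h0] at c0
        simp only [Int.cast_zero, add_zero] at c0
        linarith
      · rw [abs_le]
        constructor <;> linarith
    have c2 : Int.fract (k * a) + k * ε * a < 1 := by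
      by_contra hc
      refine hint (⌊(k : ℝ) * a⌋ + 1) (by omega) ?_
      have := Int.fract_lt_one (k * a)
      push_cast
      rw [abs_le]
      constructor <;> linarith
    refine ⟨mem_filter.2 ⟨(mem_KK ha).2 ⟨b1, by linarith, c1, c2⟩, ?_⟩, ?_⟩
    · have d1 := floor_fract hka.le
      have d2 : ((⌊(k : ℝ) * a⌋₊ : ℕ) : ℝ) < (j + 1 : ℕ) := by push_cast; linarith
      have d3 : (j : ℝ) < (⌊(k : ℝ) * a⌋₊ + 1 : ℕ) := by push_cast; linarith
      have d4 : ⌊(k : ℝ) * a⌋₊ < j + 1 := by exact_mod_cast d2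
      have d5 : j < ⌊(k : ℝ) * a⌋₊ + 1 := by exact_mod_cast d3
      omega
    · unfold arc
      rw [Nat.cast_one, one_mul, one_mul, ← Int.fract_add_natCast _ j,
        Int.fract_eq_self.2 ⟨by linarith, by linarith⟩]
      linarith
  refine le_trans ?_ (sum_le_sum_of_subset_of_nonneg (fun k hk => (h2 k hk).1)
    fun k _ _ => hnn k)
  refine (mul_le_mul_of_nonneg_left (le_count hε hy2) (by linarith [not_le.1 hbig])).trans ?_
  rw [mul_sum]
  refine sum_le_sum fun k hk => ?_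
  obtain ⟨-, b2, b3, b4⟩ := h1 k hk
  rw [if_pos (h2 k hk).2, mul_one_div]
  refine div_le_div_of_nonneg_right ?_ (by positivity)
  have a1 := (abs_le.1 (sq_lip (k * a) (x + j))).1
  have a2 : |k * a - (x + j)| ≤ (N + 1) * ε := by
    rw [abs_le]
    constructor <;> nlinarith
  have a3 := mul_le_mul_of_nonneg_left a2 (show 0 ≤ 4 * Real.pi by positivity)
  linarith

lemma fract_of_arc {β lam t : ℝ} (h1 : Int.fract β + lam < 1) (h : arc 1 β lam t) :
    Int.fract β ≤ Int.fract t ∧ Int.fract t ≤ Int.fract β + lam := by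
  unfold arc at h
  rw [Nat.cast_one, one_mul, one_mul] at h
  have a1 := Int.fract_nonneg (t - β)
  have a2 := Int.fract_nonneg β
  have a3 : Int.fract t = Int.fract β + Int.fract (t - β) := by
    rw [Int.fract_eq_iff]
    refine ⟨by linarith, by linarith, ⌊β⌋ + ⌊t - β⌋, ?_⟩
    push_cast
    linarith [Int.floor_add_fract β, Int.floor_add_fract (t - β)]
  constructor <;> linarith

lemma sum_units (f : ℤˣ → ℝ) : ∑ σ, f σ = f 1 + f (-1) := by
  rw [UnitsInt.univ, sum_pair (by decide)]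

end Loads

open Loads

theorem loads_prop : MacroProp := by
  intro η hη
  obtain ⟨η₁, h0, h1, h2⟩ : ∃ η₁ : ℝ, 0 < η₁ ∧ η₁ ≤ 1 ∧ η₁ ≤ η :=
    ⟨min η 1, by positivity, min_le_right _ _, min_le_left _ _⟩
  obtain ⟨N, hN⟩ := exists_nat_gt (4 / η₁)
  have hNr : (0 : ℝ) < N := lt_trans (by positivity) hN
  have hN0 : 0 < N := by exact_mod_cast hNr
  have hN1 : 1 / (N : ℝ) ≤ η₁ / 4 := by
    rw [div_lt_iff₀ h0] at hN
    rw [div_le_div_iff₀ hNr (by norm_num)]
    linarith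
  obtain ⟨ε, hε, hεN⟩ : ∃ ε : ℝ, 0 < ε ∧ 200 * (N + 1) ^ 2 * ε = η₁ :=
    ⟨η₁ / (200 * (N + 1) ^ 2), by positivity, by field_simp⟩
  have hN2 : (N : ℝ) + 1 ≤ (N + 1) ^ 2 := by nlinarith
  have hεa : 200 * ((N + 1) * ε) ≤ η₁ := by nlinarith
  have hεb : 200 * ε ≤ η₁ := by nlinarith
  set δ := 4 * Real.pi * ((N + 1) * ε) with hδ
  have hδ0 : 0 ≤ δ := by positivity
  have hδ1 : 2 * ((N + 1) * δ) ≤ η₁ / 4 := by
    have a1 : 2 * ((N + 1) * δ) = 8 * Real.pi * ((N + 1) ^ 2 * ε) := by rw [hδ]; ring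
    have a2 : 0 ≤ ((N : ℝ) + 1) ^ 2 * ε := by positivity
    rw [a1]
    nlinarith [Real.pi_le_four]
  obtain ⟨k₀, hk₀⟩ := exists_nat_gt (1 / ε ^ 2)
  have hk₀r : (0 : ℝ) < k₀ := lt_trans (by positivity) hk₀
  have hk₀' : 1 ≤ k₀ * ε ^ 2 := by
    rw [div_lt_iff₀ (by positivity)] at hk₀
    exact hk₀.le
  refine ⟨ε, hε, by linarith, k₀, hk₀r, fun h hh => ?_⟩
  have hhr : (0 : ℝ) < h := by exact_mod_cast hh
  have ha : 0 < aa ε h := by unfold aa; positivity
  have ha2 : (k₀ : ℝ) * ((1 + ε) * aa ε h) = k₀ / h := by unfold aa; field_simp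
  refine ⟨KK ε (aa ε h) N k₀,
    fun k σ => if σ = 1 then Int.fract (k * aa ε h)
      else 1 - (Int.fract (k * aa ε h) + k * ε * aa ε h),
    fun k σ => if σ = 1 then Int.fract (k * aa ε h) + k * ε * aa ε h
      else 1 - Int.fract (k * aa ε h), fun k hk => ?_, fun k _ σ => ?_,
    fun k hk σ ρ θ hw => ?_, fun x => ?_, fun θ hθ0 hθ1 => ?_⟩
  · obtain ⟨b1, b2, -⟩ := (mem_KK ha).1 hk
    have : 0 < k₀ := by exact_mod_cast hk₀r
    exact ⟨by omega, by nlinarith⟩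
  · have : 0 ≤ k * ε * aa ε h := by positivity
    dsimp only
    split_ifs <;> linarith
  · obtain ⟨-, -, b3, b4⟩ := (mem_KK ha).1 hk
    obtain ⟨c1, c2⟩ := fract_of_arc b4 hw
    have c3 : Int.fract (-(((σ : ℤ) : ℝ) * θ)) = 1 - Int.fract (((σ : ℤ) : ℝ) * θ) :=
      Int.fract_neg (by linarith)
    rcases Int.units_eq_one_or σ with rfl | rfl <;> rcases Int.units_eq_one_or ρ with rfl | rfl
    · simpa using And.intro c1 c2
    · simp only [Units.val_one, Int.cast_one, one_mul, Units.val_neg, Int.cast_neg, neg_mul]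
        at c1 c2 c3 ⊢
      rw [if_neg (by decide), if_neg (by decide), c3]
      constructor <;> linarith
    · simp only [Units.val_one, Int.cast_one, one_mul, Units.val_neg, Int.cast_neg, neg_mul,
        neg_neg] at c1 c2 c3 ⊢
      rw [if_neg (by decide), if_neg (by decide), c3]
      constructor <;> linarith
    · simpa using And.intro c1 c2
  · simp only [sum_units, if_true, if_neg (show (-1 : ℤˣ) ≠ 1 by decide), sum_add_distrib, load]
    have a1 := upper hε (by linarith) ha (N := N) hk₀' x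
    have a2 := upper hε (by linarith) ha (N := N) hk₀' (1 - x)
    have a3 : ∀ k : ℕ, (1 - (Int.fract (k * aa ε h) + k * ε * aa ε h) ≤ x ∧
        x ≤ 1 - Int.fract (k * aa ε h)) ↔ (Int.fract (k * aa ε h) ≤ 1 - x ∧
        1 - x ≤ Int.fract (k * aa ε h) + k * ε * aa ε h) := fun k => by
      constructor <;> rintro ⟨u, v⟩ <;> constructor <;> linarith
    simp only [a3]
    refine (add_le_add a1 a2).trans ?_
    have a4 := sum_le x (N + 1)
    rw [sum_add_distrib] at a4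
    simp only [← sum_mul, sum_add_distrib, sum_const, card_range, nsmul_eq_mul, ← hδ]
    push_cast
    nlinarith
  · have hC : 0 < (k₀ : ℝ) / h := by positivity
    have a1 := lower hε (by linarith) ha (N := N) hk₀' (x := θ) (by linarith) (by linarith)
    have a2 := lower hε (by linarith) ha (N := N) hk₀' (x := 1 - θ) (by linarith) (by linarith)
    have a3 : ∀ k : ℕ, win ε h k (-θ) ↔ arc 1 (k * aa ε h) (k * ε * aa ε h) (1 - θ) := fun k => by
      unfold win arc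
      rw [Nat.cast_one, one_mul, one_mul, one_mul, ← Int.fract_add_one (-θ - _),
        show -θ - k * aa ε h + 1 = 1 - θ - k * aa ε h by ring]
    have a5 : ∀ k : ℕ, win ε h k θ ↔ arc 1 (k * aa ε h) (k * ε * aa ε h) θ := fun k => Iff.rfl
    simp only [sum_units, sum_add_distrib, load, Units.val_one, Int.cast_one, one_mul,
      Units.val_neg, Int.cast_neg, neg_mul, a3, a5]
    refine le_trans ?_ (add_le_add a1 a2)
    have a4 := le_sum (x := θ) (by linarith) (by linarith) hN0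
    rw [sum_add_distrib] at a4
    simp only [← sum_mul, sum_sub_distrib, sum_const, card_range, nsmul_eq_mul, ← hδ]
    push_cast
    nlinarith

end Vale.Agent.P130
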