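import Vale.Agent.P130.Defs

/-! The invariant measure of the rank-one system. -/

namespace Vale.Agent.P130

open Finset MeasureTheory Filter Topology

namespace Meas

variable {h : ℕ → ℕ} {Λ : ℕ → Finset ℕ}

/-- marks at depth `d` below the level `n` -/
def Mk (h : ℕ → ℕ) (Λ : ℕ → Finset ℕ) (n : ℕ) : ℕ → ℤ → Prop
  | 0, t => (h n : ℤ) ∣ t
  | d + 1, t => ∃ a ∈ Λ (n - (d + 1)), Mk h Λ n d (t - a)

/-- marks of level `k` in the periodic configuration of level `n` -/
def Mark (h : ℕ → ℕ) (Λ : ℕ → Finset ℕ) (n k : ℕ) (t : ℤ) : Prop := k ≤ n ∧ Mk h Λ n (n - k) t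

theorem mark_top (n : ℕ) (t : ℤ) : Mark h Λ n n t ↔ (h n : ℤ) ∣ t := by
  simp [Mark, Mk]

theorem mark_succ {n k : ℕ} (hk : k < n) (t : ℤ) :
    Mark h Λ n k t ↔ ∃ a ∈ Λ k, Mark h Λ n (k + 1) (t - a) := by
  have e : n - k = n - (k + 1) + 1 := by omega
  have e' : n - (n - (k + 1) + 1) = k := by omega
  simp only [Mark, e, Mk, e', hk.le, true_and, Nat.succ_le_of_lt hk]

theorem mk_per (n d : ℕ) (t : ℤ) : Mk h Λ n d (t + h n) ↔ Mk h Λ n d t := by
  induction d generalizing t with
  | zero => simp [Mk]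
  | succ d ih => simp only [Mk, add_sub_right_comm, ih]

theorem mark_per (n k : ℕ) (t : ℤ) : Mark h Λ n k (t + h n) ↔ Mark h Λ n k t := by
  simp only [Mark, mk_per]

theorem mark_gap (hD : Data h Λ) (n k : ℕ) (s t : ℤ) (hst : s < t) (hs : Mark h Λ n k s)
    (ht : Mark h Λ n k t) : s + h k ≤ t := by
  have hk := hs.1
  induction hk using Nat.decreasingInduction generalizing s t with
  | self =>
    rw [mark_top] at hs ht
    have := Int.le_of_dvd (sub_pos.2 hst) (dvd_sub ht hs)
    omega
  | of_succ k hk ih =>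
    obtain ⟨a, ha, hs'⟩ := (mark_succ hk s).1 hs
    obtain ⟨b, hb, ht'⟩ := (mark_succ hk t).1 ht
    have h1 := hD.top k a ha
    have h2 := hD.top k b hb
    rcases lt_trichotomy (s - a) (t - b) with h3 | h3 | h3
    · have := ih _ _ h3 hs' ht'
      omega
    · have := hD.gap k a ha b hb (by omega)
      omega
    · have := ih _ _ h3 ht' hs'
      omega

theorem sum_shift (f : ℤ → ℕ) (N : ℕ) (hf : ∀ t, f (t + N) = f t) (m : ℤ) :
    ∑ i ∈ range N, f (i + m) = ∑ i ∈ range N, f i := by
  have step : ∀ m : ℤ, ∑ i ∈ range N, f (i + (m + 1)) = ∑ i ∈ range N, f (i + m) := fun m => by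
    have h1 := sum_range_succ (fun i : ℕ => f (i + m)) N
    have h2 := sum_range_succ' (fun i : ℕ => f (i + m)) N
    rw [add_comm (N : ℤ) m, hf] at h1
    simp only [Nat.cast_succ, Nat.cast_zero, zero_add, add_assoc, add_comm (1 : ℤ) m] at h2
    omega
  induction m using Int.induction_on with
  | zero => simp
  | succ m ih => rw [step, ih]
  | pred m ih => rw [← step, sub_add_cancel, ih]

open Classical in
/-- the periodic configuration -/
noncomputable def cf (h : ℕ → ℕ) (Λ : ℕ → Finset ℕ) (n : ℕ) : Sp :=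
  fun p => decide (Mark h Λ n p.2 p.1)

theorem cf_iff (n : ℕ) (i t : ℤ) (k : ℕ) :
    shiftBy i (cf h Λ n) (t, k) = true ↔ Mark h Λ n k (t + i) := by
  simp [shiftBy, cf]

theorem shift_per (n : ℕ) (i : ℤ) : shiftBy (i + h n) (cf h Λ n) = shiftBy i (cf h Λ n) := by
  funext p
  rw [Bool.eq_iff_iff, cf_iff, cf_iff, ← add_assoc, mark_per]

theorem shift_shift (m i : ℤ) (x : Sp) : shiftBy m (shiftBy i x) = shiftBy (i + m) x := by
  funext p
  simp only [shiftBy, add_assoc, add_comm m i]

theorem continuous_shift (m : ℤ) : Continuous (shiftBy m) :=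
  continuous_pi fun _ => continuous_apply _

open Classical in
/-- the number of visits -/
noncomputable def vis (h : ℕ → ℕ) (Λ : ℕ → Finset ℕ) (n : ℕ) (A : Set Sp) : ℕ :=
  ∑ i ∈ range (h n), if shiftBy i (cf h Λ n) ∈ A then 1 else 0

/-- the periodic measure -/
noncomputable def mu (h : ℕ → ℕ) (Λ : ℕ → Finset ℕ) (n : ℕ) : Measure Sp :=
  (h n : ENNReal)⁻¹ • ∑ i ∈ range (h n), Measure.dirac (shiftBy i (cf h Λ n))

theorem mu_apply (n : ℕ) {A : Set Sp} (hA : MeasurableSet A) :
    mu h Λ n A = (h n : ENNReal)⁻¹ * vis h Λ n A := by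
  classical
  simp only [mu, vis, Measure.smul_apply, Measure.finsetSum_apply, Measure.dirac_apply' _ hA,
    smul_eq_mul, Set.indicator_apply, Pi.one_apply, Nat.cast_sum, Nat.cast_ite, Nat.cast_one,
    Nat.cast_zero]

theorem mu_all (hD : Data h Λ) (n : ℕ) {A : Set Sp} (hA : MeasurableSet A)
    (h1 : ∀ i, shiftBy i (cf h Λ n) ∈ A) : mu h Λ n A = 1 := by
  have := hD.two n
  rw [mu_apply n hA, vis]
  simp only [h1, if_true, sum_const, card_range, smul_eq_mul, mul_one]
  exact ENNReal.inv_mul_cancel (by simp; omega) (by simp)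

theorem mu_map (n : ℕ) (m : ℤ) : (mu h Λ n).map (shiftBy m) = mu h Λ n := by
  classical
  ext A hA
  rw [Measure.map_apply (continuous_shift m).measurable hA,
    mu_apply n ((continuous_shift m).measurable hA), mu_apply n hA]
  congr 2
  simp only [vis, Set.mem_preimage, shift_shift]
  exact sum_shift (fun t => if shiftBy t (cf h Λ n) ∈ A then 1 else 0) (h n)
    (fun t => by rw [shift_per]) m

theorem vis_ge (hD : Data h Λ) {n k : ℕ} (hk : k ≤ n) :
    (1 - (1 / 2 : ℝ) ^ k) * h n ≤ h k * vis h Λ n {x | x (0, k) = true} := by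
  classical
  have e : ∀ k, vis h Λ n {x | x (0, k) = true} =
      ∑ i ∈ range (h n), if Mark h Λ n k (i : ℕ) then 1 else 0 := fun k => by
    simp only [vis, Set.mem_ofPred_eq, cf_iff, zero_add]
  rw [e]
  induction hk using Nat.decreasingInduction with
  | self =>
    have h1 : 1 ≤ ∑ i ∈ range (h n), if Mark h Λ n n (i : ℕ) then 1 else 0 := by
      refine le_trans ?_ (single_le_sum (a := 0) (fun _ _ => Nat.zero_le _)
        (mem_range.2 (by have := hD.two n; omega)))
      rw [if_pos ((mark_top n _).2 (by simp))]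
    have h2 : (1 : ℝ) ≤ (∑ i ∈ range (h n), if Mark h Λ n n (i : ℕ) then 1 else 0 : ℕ) := by
      exact_mod_cast h1
    have h3 : (0 : ℝ) ≤ (1 / 2 : ℝ) ^ n := by positivity
    have h4 : (0 : ℝ) ≤ h n := by positivity
    nlinarith
  | of_succ k hk ih =>
    have h1 : (Λ k).card * (∑ i ∈ range (h n), if Mark h Λ n (k + 1) (i : ℕ) then 1 else 0) ≤
        ∑ i ∈ range (h n), if Mark h Λ n k (i : ℕ) then 1 else 0 := by
      rw [← smul_eq_mul, ← sum_const, ← sum_congr rfl fun a _ =>
        sum_shift (fun t => if Mark h Λ n (k + 1) t then 1 else 0) (h n)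
          (fun t => if_congr (mark_per _ _ _) rfl rfl) (-(a : ℕ)), sum_comm]
      refine sum_le_sum fun i _ => ?_
      rw [← card_filter]
      split_ifs with hi
      · refine card_le_one.2 fun a ha b hb => ?_
        rw [mem_filter] at ha hb
        have h1 := hD.top k a ha.1
        have h2 := hD.top k b hb.1
        rcases lt_trichotomy a b with h3 | h3 | h3
        · have := mark_gap hD n _ _ _ (by omega) hb.2 ha.2
          omega
        · exact h3
        · have := mark_gap hD n _ _ _ (by omega) ha.2 hb.2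
          omega
      · refine (card_eq_zero.2 (filter_eq_empty_iff.2 fun a ha h' => hi ?_)).le
        exact (mark_succ hk _).2 ⟨a, ha, h'⟩
    generalize (∑ i ∈ range (h n), if Mark h Λ n (k + 1) (i : ℕ) then 1 else 0) = N at h1 ih
    generalize (∑ i ∈ range (h n), if Mark h Λ n k (i : ℕ) then 1 else 0) = N' at h1
    have h2 : ((Λ k).card : ℝ) * N ≤ N' := by exact_mod_cast h1
    have h3 := hD.fill k
    have h4 : (1 / 2 : ℝ) ^ k = 2 * (1 / 2) ^ (k + 1) := by ring
    have h5 : (1 / 2 : ℝ) ^ (k + 1) ≤ 1 := pow_le_one₀ (by norm_num) (by norm_num)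
    rw [h4]
    generalize (1 / 2 : ℝ) ^ (k + 1) = q at h3 h5 ih
    have h6 : (0 : ℝ) ≤ h n := by positivity
    calc (1 - 2 * q) * h n ≤ (1 - q) * ((1 - q) * h n) := by nlinarith [sq_nonneg q]
      _ ≤ (1 - q) * (h (k + 1) * N) := mul_le_mul_of_nonneg_left ih (by linarith)
      _ = (1 - q) * h (k + 1) * N := by ring
      _ ≤ h k * (Λ k).card * N := mul_le_mul_of_nonneg_right h3 (by positivity)
      _ ≤ h k * N' := by
        rw [mul_assoc]
        exact mul_le_mul_of_nonneg_left h2 (by positivity)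

theorem isClopen_fin {ι : Type} [Finite ι] (p : ι → ℤ × ℕ) (P : (ι → Bool) → Prop) :
    IsClopen {x : Sp | P fun i => x (p i)} :=
  (isClopen_discrete {y | P y}).preimage (f := fun (x : Sp) i => x (p i))
    (continuous_pi fun _ => continuous_apply _)

end Meas

open Meas

theorem measure_prop : MeasureProp := by
  intro h Λ hD
  let P : ℕ → ProbabilityMeasure Sp := fun n =>
    ⟨mu h Λ n, ⟨mu_all hD n MeasurableSet.univ fun _ => trivial⟩⟩
  let U : Ultrafilter ℕ := Ultrafilter.of atTop
  have hU : (U : Filter ℕ) ≤ atTop := Ultrafilter.of_le _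
  obtain ⟨ν, -, hν⟩ := isCompact_univ.ultrafilter_le_nhds (U.map P) (by simp)
  have hν' : Tendsto P U (𝓝 ν) := hν
  have hc : ∀ A : Set Sp, IsClopen A →
      Tendsto (fun n => mu h Λ n A) U (𝓝 ((ν : Measure Sp) A)) := fun A hA =>
    ProbabilityMeasure.tendsto_measure_of_null_frontier_of_tendsto' hν' (by simp [hA.frontier_eq])
  have h1 : ∀ (p : Sp → Prop) (k : ℕ), IsClopen {x | p x} →
      (∀ n, k < n → ∀ i, p (shiftBy i (cf h Λ n))) → ∀ᵐ x ∂(ν : Measure Sp), p x := by
    intro p k hp hn
    refine (prob_compl_eq_zero_iff hp.isOpen.measurableSet).2 ?_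
    refine tendsto_nhds_unique (hc _ hp) (tendsto_const_nhds.congr' (hU ?_))
    filter_upwards [eventually_gt_atTop k] with n hk
    exact (mu_all hD n hp.isOpen.measurableSet (hn n hk)).symm
  refine ⟨ν, ⟨inferInstance, fun m => ⟨(continuous_shift m).measurable, ?_⟩, ?_, fun k => ?_⟩⟩
  · have h2 := ProbabilityMeasure.tendsto_map_of_tendsto_of_continuous P ν hν' (continuous_shift m)
    have h3 : (fun n => (P n).map (continuous_shift m).measurable.aemeasurable) = P :=
      funext fun n => Subtype.ext (mu_map n m)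
    rw [h3] at h2
    exact congrArg ProbabilityMeasure.toMeasure (tendsto_nhds_unique h2 hν')
  · refine Eventually.and (ae_all_iff.2 fun t => ae_all_iff.2 fun k => h1 _ k ?_ fun n hk i => ?_)
      (ae_all_iff.2 fun k => ae_all_iff.2 fun s => ae_all_iff.2 fun t => h1 _ k ?_
        fun n _ i hst h2 h3 => ?_)
    · have := isClopen_fin (ι := Option (Λ k))
        (fun o => o.elim (t, k) fun a => (t - (a : ℕ), k + 1))
        fun y => y none = true ↔ ∃ a, y (some a) = true
      simpa using this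
    · simp only [cf_iff, mark_succ hk, sub_add_eq_add_sub]
    · exact isClopen_fin ![(s, k), (t, k)] fun y => s < t → y 0 = true → y 1 = true → s + h k ≤ t
    · rw [cf_iff] at h2 h3
      have := mark_gap hD n k _ _ (by omega) h2 h3
      omega
  · have hA : IsClopen {x : Sp | x (0, k) = true} :=
      isClopen_fin (fun _ : Unit => (0, k)) fun y => y () = true
    have h2 := ((ENNReal.tendsto_toReal (measure_ne_top _ _)).comp (hc _ hA)).const_mul (h k : ℝ)
    refine ge_of_tendsto h2 (hU ?_)
    filter_upwards [eventually_ge_atTop k] with n hk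
    have h3 : (0 : ℝ) < h n := by
      have := hD.two n
      exact_mod_cast (by omega : 0 < h n)
    rw [Function.comp_apply, mu_apply n hA.isOpen.measurableSet, ENNReal.toReal_mul,
      ENNReal.toReal_inv, ENNReal.toReal_natCast, ENNReal.toReal_natCast, mul_left_comm,
      ← div_eq_inv_mul, le_div_iff₀ h3]
    exact vis_ge hD hk

end Vale.Agent.P130
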