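import Vale.Agent.P130.Defs

/-! Random shifts and the projection on a character. -/

namespace Vale.Agent.P130

open Finset MeasureTheory Filter Topology
open Vale.Agent.P110

namespace Proj

/-- uniform law on the unit interval -/
noncomputable def mu : Measure ℝ := volume.restrict (Set.Ioc 0 1)

instance : IsProbabilityMeasure mu := ⟨by simp [mu]⟩

lemma int_mu {E : Type} [NormedAddCommGroup E] [NormedSpace ℝ E] (f : ℝ → E) :
    ∫ u, f u ∂mu = ∫ u in (0 : ℝ)..1, f u := by
  rw [intervalIntegral.integral_of_le zero_le_one]; rfl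

lemma shift {f : ℝ → ℂ} (hf : Function.Periodic f 1) (c : ℝ) :
    ∫ u, f (c + u) ∂mu = ∫ u, f u ∂mu := by
  rw [int_mu, int_mu, intervalIntegral.integral_comp_add_left f c, add_zero,
    hf.intervalIntegral_add_eq c 0, zero_add]

lemma shift_e {f : ℝ → ℂ} (hf : Function.Periodic f 1) (c : ℝ) (n : ℤ) :
    ∫ u, f (c + u) * e (-(n * u)) ∂mu = e (n * c) * ∫ u, f u * e (-(n * u)) ∂mu := by
  have hp : Function.Periodic (fun u => f u * e (-(n * u))) 1 := fun u => by
    have : -((n : ℝ) * (u + 1)) = -(n * u) - n := by ring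
    simp only [hf u, this, e_sub_int]
  rw [← shift hp c, ← integral_const_mul]
  refine integral_congr_ae (ae_of_all _ fun u => ?_)
  simp only
  rw [mul_left_comm, ← e_add]
  congr 2
  ring

lemma e_sum {ι : Type} (s : Finset ι) (f : ι → ℝ) : e (∑ i ∈ s, f i) = ∏ i ∈ s, e (f i) := by
  classical
  induction s using Finset.induction_on with
  | empty => simp
  | insert i s hi ih => rw [sum_insert hi, prod_insert hi, e_add, ih]

@[fun_prop] lemma measurable_e : Measurable e := continuous_e.measurable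

/-- indicator of an arc -/
noncomputable def ind (a y : ℝ) : ℂ := if Int.fract y < a then 1 else 0

@[fun_prop] lemma measurable_ind (a : ℝ) : Measurable (ind a) :=
  Measurable.ite (measurableSet_lt measurable_fract measurable_const) measurable_const
    measurable_const

@[fun_prop] lemma measurable_stp (γ : ℝ) : Measurable (stp γ) :=
  Measurable.ite (measurableSet_lt measurable_fract measurable_const) measurable_const
    measurable_const

lemma norm_ind (a y : ℝ) : ‖ind a y‖ ≤ 1 := by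
  unfold ind
  split_ifs <;> simp

lemma periodic_ind (a : ℝ) : Function.Periodic (ind a) 1 := fun y => by
  simp only [ind, Int.fract_add_one]

lemma periodic_stp (γ : ℝ) : Function.Periodic (stp γ) 1 := fun y => by
  simp only [stp, Int.fract_add_one]

lemma norm_int_ind {a : ℝ} (h0 : 0 < a) (h1 : a < 1) (k : ℝ) :
    ‖∫ u, ind a u * e (-(k * u)) ∂mu‖ = a * sn (k * a) := by
  have e1 : ∫ u, ind a u * e (-(k * u)) ∂mu = ∫ u in (0 : ℝ)..a, e (-(k * u)) := by
    rw [mu, ← integral_Ico_eq_integral_Ioc, intervalIntegral.integral_of_le h0.le,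
      ← integral_Ico_eq_integral_Ioc,
      setIntegral_congr_fun (g := (Set.Iio a).indicator fun u => e (-(k * u))) measurableSet_Ico,
      setIntegral_indicator measurableSet_Iio, Set.Ico_inter_Iio, min_eq_right h1.le]
    intro u hu
    simp only [ind, Int.fract_eq_self.2 hu, Set.indicator, Set.mem_Iio, ite_mul, one_mul, zero_mul]
  have e2 := intervalIntegral.smul_integral_comp_mul_left (a := 0) (b := 1)
    (fun u => e (-(k * u))) a
  rw [mul_zero, mul_one] at e2
  rw [e1, ← e2, norm_smul, Real.norm_of_nonneg h0.le, sn]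
  simp only [mul_assoc]

/-- the law of the shifts of one segment -/
noncomputable def nu (d : ℕ) : Measure (ℝ × (Fin d → ℝ)) := mu.prod (Measure.pi fun _ => mu)

instance (d : ℕ) : IsProbabilityMeasure (nu d) := by unfold nu; infer_instance

variable {d : ℕ}

/-- the character -/
noncomputable def chi (k : ℤ) (l : Fin d → ℤ) (h : ℝ × (Fin d → ℝ)) : ℂ :=
  e (-(k * h.1)) * ∏ t, e (-(l t * h.2 t))

/-- the shift of a block -/
noncomputable def zz (γ : ℝ) (y : Fin d → ℝ) (h : ℝ × (Fin d → ℝ)) : ℝ :=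
  h.1 + ∑ t, stp γ (y t + h.2 t)

@[fun_prop] lemma measurable_chi (k : ℤ) (l : Fin d → ℤ) : Measurable (chi k l) := by
  unfold chi; fun_prop

@[fun_prop] lemma measurable_zz (γ : ℝ) (y : Fin d → ℝ) : Measurable (zz γ y) := by
  unfold zz; fun_prop

lemma norm_chi (k : ℤ) (l : Fin d → ℤ) (h : ℝ × (Fin d → ℝ)) : ‖chi k l h‖ = 1 := by
  simp [chi, norm_prod]

lemma int_chi {k : ℤ} (hk : k ≠ 0) (l : Fin d → ℤ) : ∫ h, chi k l h ∂nu d = 0 := by
  have e1 := integral_e_int (-k) 0
  rw [if_neg (neg_ne_zero.2 hk), zero_add, ← int_mu] at e1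
  simp only [Int.cast_neg, neg_mul] at e1
  unfold chi nu
  rw [integral_prod_mul (fun u : ℝ => e (-(k * u))) fun v : Fin d → ℝ => ∏ t, e (-(l t * v t)), e1,
    zero_mul]

/-- the coefficient -/
noncomputable def co (a γ : ℝ) (k : ℤ) (l : Fin d → ℤ) : ℂ :=
  (∫ u, ind a u * e (-(k * u)) ∂mu) * ∏ t, ∫ u, e (k * stp γ u) * e (-(l t * u)) ∂mu

lemma norm_co {a : ℝ} (h0 : 0 < a) (h1 : a < 1) (γ : ℝ) (k : ℕ) (l : Fin d → ℤ) :
    ‖co a γ k l‖ = a * sn (k * a) * ∏ t, bb γ k (l t) := by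
  rw [co, norm_mul, norm_int_ind h0 h1]
  simp only [norm_prod, bb, e_sub, int_mu, Int.cast_natCast]

lemma int_loc (a γ c : ℝ) (k : ℤ) (l : Fin d → ℤ) (y : Fin d → ℝ) :
    ∫ h, ind a (c + zz γ y h) * chi k l h ∂nu d = e (k * c + ∑ t, l t * y t) * co a γ k l := by
  have hi : Integrable (fun h => ind a (c + zz γ y h) * chi k l h) (nu d) :=
    Integrable.of_bound (Measurable.aestronglyMeasurable (by fun_prop)) 1 (ae_of_all _ fun h => by
      rw [norm_mul, norm_chi, mul_one]; exact norm_ind _ _)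
  have e1 : ∀ v : Fin d → ℝ, ∫ u, ind a (c + zz γ y (u, v)) * chi k l (u, v) ∂mu =
      e (k * c) * (∫ u, ind a u * e (-(k * u)) ∂mu) *
        ∏ t, e (k * stp γ (y t + v t)) * e (-(l t * v t)) := fun v => by
    have : ∀ u, c + zz γ y (u, v) = c + ∑ t, stp γ (y t + v t) + u := fun u => by
      unfold zz; ring
    simp only [this, chi, ← mul_assoc]
    rw [integral_mul_const, shift_e (periodic_ind a), mul_add, e_add, mul_sum, e_sum,
      prod_mul_distrib]
    ring
  have e2 : ∀ t, ∫ u, e (k * stp γ (y t + u)) * e (-(l t * u)) ∂mu =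
      e (l t * y t) * ∫ u, e (k * stp γ u) * e (-(l t * u)) ∂mu := fun t =>
    shift_e (f := fun u => e (k * stp γ u)) (fun u => by simp only [periodic_stp γ u]) _ _
  rw [nu] at hi ⊢
  rw [integral_prod_symm _ hi]
  simp only [e1]
  rw [integral_const_mul, integral_fintype_prod_eq_prod
    fun t (u : ℝ) => e (k * stp γ (y t + u)) * e (-(l t * u))]
  simp only [e2]
  rw [prod_mul_distrib, e_add, e_sum, co]
  ring

variable {Ω : Type} [Fintype Ω] [DecidableEq Ω]

lemma int_glob (a γ c : ℝ) {k : ℤ} (hk : k ≠ 0) (l : Fin d → ℤ) (y : Fin d → ℝ) (s s₀ : Ω) :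
    ∫ ω : Ω → ℝ × (Fin d → ℝ), ind a (c + zz γ y (ω s)) * chi k l (ω s₀)
      ∂(Measure.pi fun _ => nu d) =
      if s = s₀ then e (k * c + ∑ t, l t * y t) * co a γ k l else 0 := by
  split_ifs with h
  · subst h
    rw [← int_loc]
    exact integral_comp_eval (μ := fun _ : Ω => nu d) (i := s)
      (f := fun h => ind a (c + zz γ y h) * chi k l h)
      (Measurable.aestronglyMeasurable (by fun_prop))
  · let g : Ω → ℝ × (Fin d → ℝ) → ℂ := fun s' h =>
      if s' = s then ind a (c + zz γ y h) else if s' = s₀ then chi k l h else 1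
    have e1 : ∀ ω : Ω → ℝ × (Fin d → ℝ), ind a (c + zz γ y (ω s)) * chi k l (ω s₀) =
        ∏ s', g s' (ω s') := fun ω => by
      rw [prod_eq_mul s s₀ h (fun c _ hc => by simp [g, hc.1, hc.2]) (by simp) (by simp)]
      simp [g, Ne.symm h]
    simp only [e1]
    rw [integral_fintype_prod_eq_prod g]
    refine prod_eq_zero (mem_univ s₀) ?_
    simp [g, Ne.symm h, int_chi hk]

variable {Bl I : Type} [Fintype Bl] [Fintype I]

/-- the random polynomial -/
noncomputable def pp (a γ : ℝ) (seg : Bl → Ω) (pos : Bl → I → ℕ) (x : I → ℝ) (X : Bl → ℝ)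
    (Y : Bl → Fin d → ℝ) (θ : ℝ) (ω : Ω → ℝ × (Fin d → ℝ)) : ℂ :=
  ∑ β, ∑ i, ind a (x i + X β + zz γ (Y β) (ω (seg β))) * e (pos β i * θ)

variable (a γ : ℝ) (seg : Bl → Ω) (pos : Bl → I → ℕ) (x : I → ℝ) (X : Bl → ℝ)
  (Y : Bl → Fin d → ℝ)

omit [Fintype Ω] [DecidableEq Ω] in
lemma measurable_pp : Measurable fun p : ℝ × (Ω → ℝ × (Fin d → ℝ)) =>
    pp a γ seg pos x X Y p.1 p.2 := by
  unfold pp; fun_prop

omit [Fintype Ω] [DecidableEq Ω] in
lemma norm_pp_le (θ : ℝ) (ω : Ω → ℝ × (Fin d → ℝ)) :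
    ‖pp a γ seg pos x X Y θ ω‖ ≤ ∑ _β : Bl, ∑ _i : I, (1 : ℝ) := by
  refine norm_sum_le_of_le _ fun β _ => norm_sum_le_of_le _ fun i _ => ?_
  rw [norm_mul, norm_e, mul_one]
  exact norm_ind _ _

omit [Fintype Ω] [DecidableEq Ω] in
lemma norm_pp_neg (θ : ℝ) (ω : Ω → ℝ × (Fin d → ℝ)) :
    ‖pp a γ seg pos x X Y (-θ) ω‖ = ‖pp a γ seg pos x X Y θ ω‖ := by
  rw [← Complex.norm_conj]
  simp only [pp, map_sum, map_mul, conj_e, mul_neg, neg_neg, ind, apply_ite (starRingEnd ℂ),
    map_one, map_zero]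

lemma int_pp {k : ℤ} (hk : k ≠ 0) (l : Fin d → ℤ) (s : Ω) (θ : ℝ) :
    ∫ ω, pp a γ seg pos x X Y (-θ) ω * chi k l (ω s) ∂(Measure.pi fun _ => nu d) =
      co a γ k l * ∑ β ∈ univ.filter (fun β => seg β = s), ∑ i,
        e (k * (x i + X β) + ∑ t, l t * Y β t - pos β i * θ) := by
  have hi : ∀ β i, Integrable (fun ω : Ω → ℝ × (Fin d → ℝ) => e (pos β i * -θ) *
      (ind a (x i + X β + zz γ (Y β) (ω (seg β))) * chi k l (ω s))) (Measure.pi fun _ => nu d) :=
    fun β i => Integrable.of_bound (Measurable.aestronglyMeasurable (by fun_prop)) 1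
      (ae_of_all _ fun h => by
        rw [norm_mul, norm_mul, norm_chi, norm_e, mul_one, one_mul]; exact norm_ind _ _)
  have e1 : ∀ ω, pp a γ seg pos x X Y (-θ) ω * chi k l (ω s) = ∑ β, ∑ i, e (pos β i * -θ) *
      (ind a (x i + X β + zz γ (Y β) (ω (seg β))) * chi k l (ω s)) := fun ω => by
    simp only [pp, sum_mul]
    refine sum_congr rfl fun β _ => sum_congr rfl fun i _ => ?_
    ring
  simp only [e1]
  rw [integral_finsetSum _ fun β _ => integrable_finsetSum _ fun i _ => hi β i, sum_filter, mul_sum]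
  refine sum_congr rfl fun β _ => ?_
  rw [integral_finsetSum _ fun i _ => hi β i]
  simp only [integral_const_mul, int_glob a γ _ hk]
  split_ifs
  · rw [mul_sum]
    refine sum_congr rfl fun i _ => ?_
    rw [e_sub, mul_neg]
    ring
  · simp

end Proj

open Proj in
theorem proj_prop : ProjProp := by
  intro a γ d h0 h1 Ω Bl I _ _ _ _ seg pos x X Y w F hw hw0 hF hle
  set Λ : Measure (Ω → ℝ × (Fin d → ℝ)) := Measure.pi fun _ => nu d with hΛ
  have hm := measurable_pp a γ seg pos x X Y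
  have key : ∀ θ, F θ ≤ ∫ ω, ‖pp a γ seg pos x X Y θ ω‖ ∂Λ := by
    intro θ
    rcases hle θ with h | ⟨k, l, s, σ, hk, h⟩
    · exact h.trans (integral_nonneg fun _ => norm_nonneg _)
    refine h.trans ?_
    have e1 := int_pp a γ seg pos x X Y (k := k) (by omega) l s ((σ : ℤ) * θ)
    simp only [Int.cast_natCast] at e1
    rw [← norm_co h0 h1, ← norm_mul, ← e1]
    refine (norm_integral_le_integral_norm _).trans_eq ?_
    simp only [norm_mul, norm_chi, mul_one, norm_pp_neg]
    rcases Int.units_eq_one_or σ with rfl | rfl <;> simp [norm_pp_neg, hΛ]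
  have hw1 : Integrable w mu := (hw.intervalIntegrable 0 1).1
  have hi : Integrable (fun p : ℝ × (Ω → ℝ × (Fin d → ℝ)) =>
      w p.1 * ‖pp a γ seg pos x X Y p.1 p.2‖) (mu.prod Λ) :=
    (hw1.comp_fst Λ).mul_bdd hm.norm.aestronglyMeasurable (ae_of_all _ fun p => by
      rw [norm_norm]; exact norm_pp_le a γ seg pos x X Y _ _)
  obtain ⟨ω, hω⟩ := exists_integral_le hi.integral_prod_right
  refine ⟨fun β => X β + zz γ (Y β) (ω (seg β)), ?_⟩
  have e1 : ∫ θ, w θ * F θ ∂mu ≤ ∫ θ, ∫ ω, w θ * ‖pp a γ seg pos x X Y θ ω‖ ∂Λ ∂mu := by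
    refine integral_mono (hF.continuousOn_mul hw.continuousOn).1 hi.integral_prod_left fun θ => ?_
    simp only [integral_const_mul]
    exact mul_le_mul_of_nonneg_left (key θ) (hw0 θ)
  rw [integral_integral_swap hi] at e1
  rw [← int_mu, ← int_mu]
  refine (e1.trans hω).trans_eq ?_
  simp only [pp, ind, ite_mul, one_mul, zero_mul, add_assoc]

end Vale.Agent.P130
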