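import Vale.Agent.P130.Defs

/-! The recursive choice of heights and spacer sets. -/

namespace Vale.Agent.P130

open Finset MeasureTheory Polynomial
open Vale.Agent.P110

namespace Seq

theorem normsq_sum {ι : Type} (s : Finset ι) (c : ι → ℂ) (f : ι → ℤ) (θ : ℝ) :
    ((‖∑ j ∈ s, c j * e (f j * θ)‖ ^ 2 : ℝ) : ℂ) =
      ∑ j ∈ s, ∑ l ∈ s, c j * (starRingEnd ℂ) (c l) * e ((f j - f l : ℤ) * θ) := by
  rw [Complex.ofReal_pow, ← Complex.mul_conj', map_sum, Finset.sum_mul_sum]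
  refine sum_congr rfl fun j _ => sum_congr rfl fun l _ => ?_
  rw [map_mul, conj_e, Int.cast_sub, sub_mul, e_sub]
  ring

theorem int_e (d : ℤ) (hd : d ≠ 0) : ∫ θ in (0 : ℝ)..1, e (d * θ) = 0 := by
  simpa [hd] using integral_e_int d 0

theorem orth (q : ℂ[X]) (h : ℕ) (hq : q.natDegree < h) (d : ℤ) (hd : (h : ℤ) ≤ |d|) :
    ∫ θ in (0 : ℝ)..1, ((‖q.eval (e θ)‖ ^ 2 : ℝ) : ℂ) * e (d * θ) = 0 := by
  have e1 : ∀ θ : ℝ, ((‖q.eval (e θ)‖ ^ 2 : ℝ) : ℂ) * e (d * θ) = ∑ j ∈ range h, ∑ l ∈ range h,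
      q.coeff j * (starRingEnd ℂ) (q.coeff l) * e (((j : ℤ) - l + d : ℤ) * θ) := fun θ => by
    have := normsq_sum (range h) q.coeff (fun j => j) θ
    simp only [Int.cast_natCast, e_nat_mul] at this
    rw [eval_eq_sum_range' hq, this, sum_mul]
    refine sum_congr rfl fun j _ => ?_
    rw [sum_mul]
    refine sum_congr rfl fun l _ => ?_
    rw [mul_assoc, ← e_add]
    push_cast
    ring_nf
  simp only [e1]
  rw [intervalIntegral.integral_finsetSum fun _ _ => Continuous.intervalIntegrable (by fun_prop) _ _]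
  refine sum_eq_zero fun j hj => ?_
  rw [intervalIntegral.integral_finsetSum fun _ _ => Continuous.intervalIntegrable (by fun_prop) _ _]
  refine sum_eq_zero fun l hl => ?_
  rw [intervalIntegral.integral_const_mul, int_e, mul_zero]
  simp only [mem_range] at hj hl
  rcases abs_cases d with h1 | h1 <;> omega

theorem energy (q : ℂ[X]) (h : ℕ) (hq : q.natDegree < h) (Λ : Finset ℕ)
    (hΛ : ∀ x ∈ Λ, ∀ y ∈ Λ, x < y → x + h ≤ y) :
    ∫ θ in (0 : ℝ)..1, ‖q.eval (e θ)‖ ^ 2 * ‖∑ x ∈ Λ, e (x * θ)‖ ^ 2 =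
      Λ.card * ∫ θ in (0 : ℝ)..1, ‖q.eval (e θ)‖ ^ 2 := by
  apply Complex.ofReal_injective
  rw [Complex.ofReal_mul, ← intervalIntegral.integral_ofReal, ← intervalIntegral.integral_ofReal]
  have e1 : ∀ θ : ℝ, ((‖q.eval (e θ)‖ ^ 2 * ‖∑ x ∈ Λ, e (x * θ)‖ ^ 2 : ℝ) : ℂ) =
      ∑ x ∈ Λ, ∑ y ∈ Λ, ((‖q.eval (e θ)‖ ^ 2 : ℝ) : ℂ) * e (((x : ℤ) - y : ℤ) * θ) := fun θ => by
    have := normsq_sum Λ (fun _ => 1) (fun j => j) θ
    simp only [Int.cast_natCast, one_mul, map_one] at this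
    rw [Complex.ofReal_mul, this, mul_sum]
    exact sum_congr rfl fun x _ => mul_sum _ _ _
  simp only [e1]
  rw [intervalIntegral.integral_finsetSum fun _ _ => Continuous.intervalIntegrable (by fun_prop) _ _,
    Complex.ofReal_natCast, ← nsmul_eq_mul, ← sum_const]
  refine sum_congr rfl fun x hx => ?_
  rw [intervalIntegral.integral_finsetSum fun _ _ => Continuous.intervalIntegrable (by fun_prop) _ _,
    sum_eq_single x (fun y hy hxy => orth q h hq _ ?_) (fun h => (h hx).elim)]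
  · simp
  · rcases lt_or_gt_of_ne hxy with h1 | h1
    · have := hΛ y hy x hx h1
      rw [le_abs]
      omega
    · have := hΛ x hx y hy h1
      rw [le_abs]
      omega

theorem card_le (h N : ℕ) (hh : 0 < h) (Λ : Finset ℕ) (h1 : ∀ x ∈ Λ, x + h < N)
    (h2 : ∀ x ∈ Λ, ∀ y ∈ Λ, x < y → x + h ≤ y) : h * Λ.card ≤ N := by
  have key : ∀ x ∈ Λ, ∀ y ∈ Λ, x < y → x / h < y / h := fun x hx y hy hxy => by
    have := Nat.div_le_div_right (c := h) (h2 x hx y hy hxy)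
    rw [Nat.add_div_right _ hh] at this
    omega
  have : Λ.card ≤ (range (N / h)).card := by
    refine card_le_card_of_injOn (fun x => x / h) (fun x hx => ?_) fun x hx y hy hxy => ?_
    · have := Nat.div_le_div_right (c := h) (h1 x hx).le
      rw [Nat.add_div_right _ hh] at this
      simp only [coe_range, Set.mem_Iio]
      omega
    · by_contra hne
      rcases lt_or_gt_of_ne hne with h3 | h3
      · exact (key x hx y hy h3).ne hxy
      · exact (key y hy x hx h3).ne hxy.symm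
  rw [card_range] at this
  exact (Nat.mul_le_mul_left h this).trans (Nat.mul_div_le N h)

/-- the polynomial of a finite set -/
noncomputable def pol (Λ : Finset ℕ) : ℂ[X] := C ((√(Λ.card : ℝ) : ℝ) : ℂ)⁻¹ * ∑ x ∈ Λ, X ^ x

theorem eval_pol (Λ : Finset ℕ) (θ : ℝ) : (pol Λ).eval (e θ) = Pn Λ θ := by
  simp [pol, Pn, eval_finsetSum, e_nat_mul, div_eq_inv_mul]

theorem natDegree_pol (Λ : Finset ℕ) (D : ℕ) (h : ∀ x ∈ Λ, x ≤ D) : (pol Λ).natDegree ≤ D :=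
  (natDegree_C_mul_le _ _).trans (natDegree_sum_le_of_forall_le _ _ fun x hx => by
    simpa using h x hx)

theorem one_sub_le (δ θ : ℝ) (h0 : 0 ≤ θ) (h1 : θ ≤ 1) (h : θ ∉ Set.Icc δ (1 - δ)) :
    ‖1 - e θ‖ ^ 2 ≤ 40 * δ ^ 2 := by
  have hp : Real.pi ≤ 3.15 := Real.pi_lt_d2.le
  have hp0 := Real.pi_pos
  obtain ⟨t, ht0, ht, ht'⟩ : ∃ t, 0 ≤ t ∧ t ≤ δ ∧ ‖1 - e θ‖ ≤ 2 * Real.pi * t := by
    rw [norm_sub_rev]
    by_cases h2 : θ < δ
    · exact ⟨θ, h0, h2.le, by simpa [abs_of_nonneg h0] using norm_e_sub_one_le θ⟩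
    · refine ⟨1 - θ, by linarith, by_contra fun h3 => h ⟨by linarith, by linarith⟩, ?_⟩
      have := norm_e_sub_one_le (θ - (1 : ℤ))
      rwa [e_sub_int, Int.cast_one, abs_sub_comm, abs_of_nonneg (by linarith)] at this
  calc ‖1 - e θ‖ ^ 2 ≤ (2 * 3.15 * δ) ^ 2 := by gcongr; exact ht'.trans (by gcongr)
    _ ≤ 40 * δ ^ 2 := by nlinarith [sq_nonneg δ]

/-- the invariant of the recursion -/
def Inv (n h : ℕ) (q : ℕ → ℂ[X]) : Prop :=
  q n = 1 ∧ ∀ k, (q k).natDegree + 2 ≤ h ∧ ∫ θ in (0 : ℝ)..1, ‖(q k).eval (e θ)‖ ^ 2 = 1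

theorem params (n : ℕ) : ∃ ε : ℝ, 0 < ε ∧ 16 * (n + 1) * ε = (1 / 4) ^ n ∧
    4 * ε ≤ (1 / 2) ^ (n + 1) ∧ ε ≤ 1 / 8 := by
  obtain ⟨ε, hε, hε1, hε2⟩ : ∃ ε : ℝ, 0 < ε ∧ 16 * (n + 1) * ε = (1 / 4) ^ n ∧
      4 * ε ≤ (1 / 2) ^ (n + 1) := by
    refine ⟨(1 / 4) ^ n / (16 * (n + 1)), by positivity, by field_simp, ?_⟩
    have h1 : (1 / 4 : ℝ) ^ n ≤ (1 / 2) ^ n := by gcongr; norm_num
    have h2 : (0 : ℝ) < (1 / 4) ^ n := by positivity
    have h3 : (1 / 4 : ℝ) ^ n / (16 * (n + 1)) ≤ (1 / 4) ^ n / 16 := by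
      gcongr
      have : (0 : ℝ) ≤ n := by positivity
      linarith
    rw [pow_succ]
    linarith
  have : (1 / 2 : ℝ) ^ (n + 1) ≤ (1 / 2) ^ 1 := pow_le_pow_of_le_one (by norm_num) (by norm_num)
    (by omega)
  exact ⟨ε, hε, hε1, hε2, by linarith⟩

theorem small (n h : ℕ) (hh : 0 < h) (ε C : ℝ) (hε : 0 < ε) (hε3 : ε ≤ 1 / 8) (hC : 0 < C)
    (hH : ⌈C * (40 * (n + 1) / ε)⌉₊ ≤ h) : 40 * (C / h) ^ 2 * (n + 1) ≤ ε := by
  have hh' : (0 : ℝ) < h := by exact_mod_cast hh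
  have hn : (1 : ℝ) ≤ n + 1 := by simp
  have h1 : C / h ≤ ε / (40 * (n + 1)) := by
    have := Nat.ceil_le.1 hH
    rw [div_le_div_iff₀ hh' (by positivity)]
    rw [← mul_div_assoc, div_le_iff₀ hε] at this
    linarith
  have h2 : ε / (40 * (n + 1)) ≤ 1 := by
    rw [div_le_one (by positivity)]
    linarith
  have h3 : 0 ≤ C / h := by positivity
  have h4 := (le_div_iff₀ (by positivity)).1 h1
  nlinarith [mul_le_mul_of_nonneg_left (h1.trans h2) h3]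

/-- the weight -/
noncomputable def wt (n : ℕ) (q : ℕ → ℂ[X]) (θ : ℝ) : ℝ :=
  ∑ k ∈ range (n + 1), ‖((1 - X) * q k).eval (e θ)‖ ^ 2

theorem continuous_wt (n : ℕ) (q : ℕ → ℂ[X]) : Continuous (wt n q) := by
  unfold wt
  fun_prop

theorem wt_nonneg (n : ℕ) (q : ℕ → ℂ[X]) (θ : ℝ) : 0 ≤ wt n q θ := by
  unfold wt
  positivity

theorem le_wt (n : ℕ) (q : ℕ → ℂ[X]) (θ : ℝ) (k : ℕ) (hk : k ≤ n) :
    ‖(1 - e θ) * (q k).eval (e θ)‖ ^ 2 ≤ wt n q θ := by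
  have := single_le_sum (f := fun k => ‖((1 - X) * q k).eval (e θ)‖ ^ 2)
    (fun _ _ => by positivity) (mem_range.2 (Nat.lt_succ_of_le hk))
  refine le_trans (le_of_eq ?_) this
  simp only [eval_mul, eval_sub, eval_one, eval_X]

theorem mass {n h : ℕ} {q : ℕ → ℂ[X]} (hq : Inv n h q) (δ : ℝ) (hδ : 0 < δ) :
    2 ≤ ∫ θ in (0 : ℝ)..1, wt n q θ ∧ ∫ θ in (0 : ℝ)..1, wt n q θ ≤ 4 * (n + 1) ∧
      (∫ θ in (0 : ℝ)..1, wt n q θ) - 40 * δ ^ 2 * (n + 1) ≤
        ∫ θ in Set.Icc δ (1 - δ), wt n q θ := by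
  have hw := continuous_wt n q
  have hS : ∫ θ in (0 : ℝ)..1, ∑ k ∈ range (n + 1), ‖(q k).eval (e θ)‖ ^ 2 = n + 1 := by
    rw [intervalIntegral.integral_finsetSum fun _ _ =>
      Continuous.intervalIntegrable (by fun_prop) _ _]
    simp [fun k => (hq.2 k).2]
  have hw1 : ∀ θ, wt n q θ = ‖1 - e θ‖ ^ 2 * ∑ k ∈ range (n + 1), ‖(q k).eval (e θ)‖ ^ 2 :=
    fun θ => by simp only [wt, eval_mul, eval_sub, eval_one, eval_X, norm_mul, mul_pow, mul_sum]
  refine ⟨?_, ?_, ?_⟩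
  · have e1 := energy 1 1 (by simp) {0, 1} (by simp)
    have e2 : ∀ θ : ℝ, ‖1 - e θ‖ ^ 2 = 4 - ‖eval (e θ) 1‖ ^ 2 * ‖∑ x ∈ ({0, 1} : Finset ℕ),
        e (x * θ)‖ ^ 2 := fun θ => by
      have := parallelogram_law_with_norm ℂ 1 (e θ)
      simp at this ⊢
      linarith
    have e3 : ∫ θ in (0 : ℝ)..1, ‖1 - e θ‖ ^ 2 = 2 := by
      simp only [e2]
      rw [intervalIntegral.integral_sub (by simp) (Continuous.intervalIntegrable (by fun_prop) _ _),
        e1]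
      simp
      norm_num
    rw [← e3]
    refine intervalIntegral.integral_mono zero_le_one
      (Continuous.intervalIntegrable (by fun_prop) _ _) (hw.intervalIntegrable _ _) fun θ => ?_
    simpa [hq.1] using le_wt n q θ n le_rfl
  · rw [← hS, ← intervalIntegral.integral_const_mul]
    refine intervalIntegral.integral_mono zero_le_one (hw.intervalIntegrable _ _)
      (Continuous.intervalIntegrable (by fun_prop) _ _) fun θ => ?_
    have : ‖1 - e θ‖ ≤ 2 := (norm_sub_le _ _).trans (by norm_num)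
    simp only [hw1]
    gcongr
    nlinarith [norm_nonneg (1 - e θ)]
  · have e0 : Set.Icc δ (1 - δ) ⊆ Set.Ioc 0 1 := fun θ hθ =>
      ⟨by linarith [hθ.1], by linarith [hθ.2]⟩
    have e1 : ∫ θ in Set.Icc δ (1 - δ), wt n q θ =
        ∫ θ in (0 : ℝ)..1, (Set.Icc δ (1 - δ)).indicator (wt n q) θ := by
      rw [intervalIntegral.integral_of_le zero_le_one, setIntegral_indicator measurableSet_Icc,
        Set.inter_eq_right.2 e0]
    have e2 : IntervalIntegrable ((Set.Icc δ (1 - δ)).indicator (wt n q)) volume 0 1 :=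
      ⟨(hw.intervalIntegrable 0 1).1.indicator measurableSet_Icc,
        (hw.intervalIntegrable 0 1).2.indicator measurableSet_Icc⟩
    have e3 : ∫ θ in (0 : ℝ)..1, wt n q θ ≤ ∫ θ in (0 : ℝ)..1,
        ((Set.Icc δ (1 - δ)).indicator (wt n q) θ +
          40 * δ ^ 2 * ∑ k ∈ range (n + 1), ‖(q k).eval (e θ)‖ ^ 2) := by
      refine intervalIntegral.integral_mono_on zero_le_one (hw.intervalIntegrable _ _)
        (e2.add (Continuous.intervalIntegrable (by fun_prop) _ _)) fun θ hθ => ?_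
      by_cases hm : θ ∈ Set.Icc δ (1 - δ)
      · rw [Set.indicator_of_mem hm]
        exact le_add_of_nonneg_right (by positivity)
      · rw [Set.indicator_of_notMem hm, zero_add, hw1]
        gcongr
        exact one_sub_le _ _ hθ.1 hθ.2 hm
    rw [intervalIntegral.integral_add e2 (Continuous.intervalIntegrable (by fun_prop) _ _),
      intervalIntegral.integral_const_mul, hS, ← e1] at e3
    linarith

theorem energy_wt {n h : ℕ} {q : ℕ → ℂ[X]} (hq : Inv n h q) (Λ : Finset ℕ)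
    (h2 : ∀ x ∈ Λ, ∀ y ∈ Λ, x < y → x + h ≤ y) :
    ∫ θ in (0 : ℝ)..1, wt n q θ * ‖∑ x ∈ Λ, e (x * θ)‖ ^ 2 =
      Λ.card * ∫ θ in (0 : ℝ)..1, wt n q θ := by
  have hrd : ∀ k, ((1 - X) * q k).natDegree < h := fun k => by
    have h1 := (hq.2 k).1
    have h2 : ((1 : ℂ[X]) - X).natDegree ≤ 1 := by compute_degree
    have := natDegree_mul_le (p := (1 : ℂ[X]) - X) (q := q k)
    omega
  simp only [wt, sum_mul]
  rw [intervalIntegral.integral_finsetSum fun _ _ =>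
    Continuous.intervalIntegrable (by fun_prop) _ _, intervalIntegral.integral_finsetSum
    fun _ _ => Continuous.intervalIntegrable (by fun_prop) _ _, mul_sum]
  exact sum_congr rfl fun k _ => energy _ h (hrd k) Λ h2

theorem flat (w P : ℝ → ℝ) (hw : Continuous w) (hP : Continuous P) (hw0 : ∀ θ, 0 ≤ w θ)
    (I c s ε : ℝ) (hI : ∫ θ in (0 : ℝ)..1, w θ = I) (hE : ∫ θ in (0 : ℝ)..1, w θ * P θ ^ 2 = c * I)
    (hI0 : 0 < I) (hs : 0 < s) (hε : ε ≤ 1 / 8) (hc1 : √c ≤ s)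
    (hK : s * (1 - 2 * ε) * I ≤ ∫ θ in (0 : ℝ)..1, w θ * P θ) :
    (s * (1 - 2 * ε)) ^ 2 ≤ c ∧ 0 < c ∧
      ∫ θ in (0 : ℝ)..1, w θ * ((√c)⁻¹ * P θ - 1) ^ 2 ≤ 4 * ε * I := by
  obtain ⟨K, hK'⟩ : ∃ K, K = ∫ θ in (0 : ℝ)..1, w θ * P θ := ⟨_, rfl⟩
  have hQ : ∀ a b : ℝ, ∫ θ in (0 : ℝ)..1, w θ * (a * P θ - b) ^ 2 =
      a ^ 2 * (c * I) - 2 * a * b * K + b ^ 2 * I := fun a b => by
    rw [← hE, hK', ← hI, ← intervalIntegral.integral_const_mul,
      ← intervalIntegral.integral_const_mul, ← intervalIntegral.integral_const_mul,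
      ← intervalIntegral.integral_sub, ← intervalIntegral.integral_add]
    · exact intervalIntegral.integral_congr fun θ _ => by ring
    all_goals exact Continuous.intervalIntegrable (by fun_prop) _ _
  rw [← hK'] at hK
  have hc : (s * (1 - 2 * ε)) ^ 2 ≤ c := by
    have e1 : 0 ≤ ∫ θ in (0 : ℝ)..1, w θ * (1 * P θ - s * (1 - 2 * ε)) ^ 2 :=
      intervalIntegral.integral_nonneg zero_le_one fun θ _ => mul_nonneg (hw0 θ) (sq_nonneg _)
    rw [hQ] at e1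
    have e2 : 0 ≤ s * (1 - 2 * ε) := mul_nonneg hs.le (by linarith)
    generalize s * (1 - 2 * ε) = t at *
    have := mul_le_mul_of_nonneg_left hK e2
    exact le_of_mul_le_mul_right (a := I) (by nlinarith) hI0
  have hc0 : 0 < c := lt_of_lt_of_le (pow_pos (mul_pos hs (by linarith)) 2) hc
  refine ⟨hc, hc0, ?_⟩
  have e2 : (1 - 2 * ε) * I ≤ (√c)⁻¹ * K := by
    rw [inv_mul_eq_div, le_div_iff₀ (by positivity)]
    nlinarith [mul_le_mul_of_nonneg_left hc1 (mul_nonneg (by linarith : 0 ≤ 1 - 2 * ε) hI0.le)]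
  rw [hQ, ← mul_assoc, inv_pow, Real.sq_sqrt hc0.le, inv_mul_cancel₀ hc0.ne']
  linarith

theorem norm_Pn (Λ : Finset ℕ) (θ : ℝ) :
    ‖Pn Λ θ‖ = (√(Λ.card : ℝ))⁻¹ * ‖∑ x ∈ Λ, e (x * θ)‖ := by
  rw [Pn, norm_div, Complex.norm_real, Real.norm_of_nonneg (Real.sqrt_nonneg _), div_eq_inv_mul]

theorem Inv.succ {n h N : ℕ} {q : ℕ → ℂ[X]} (hq : Inv n h q) (Λ : Finset ℕ)
    (h1 : ∀ x ∈ Λ, x + h < N) (h2 : ∀ x ∈ Λ, ∀ y ∈ Λ, x < y → x + h ≤ y)
    (hc0 : (0 : ℝ) < Λ.card) : Inv (n + 1) N fun k => if k ≤ n then q k * pol Λ else 1 := by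
  refine ⟨by simp, fun k => ?_⟩
  obtain ⟨x0, hx0⟩ : Λ.Nonempty := card_pos.1 (by exact_mod_cast hc0)
  have := h1 x0 hx0
  have d1 := (hq.2 k).1
  by_cases hk : k ≤ n
  · simp only [hk, if_true]
    have d2 := natDegree_pol Λ (N - h) fun x hx => by have := h1 x hx; omega
    have d3 := natDegree_mul_le (p := q k) (q := pol Λ)
    refine ⟨by omega, ?_⟩
    have e1 := energy (q k) h (by omega) Λ h2
    simp only [eval_mul, eval_pol, norm_mul, mul_pow, norm_Pn, mul_left_comm (‖(q k).eval _‖ ^ 2)]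
    rw [intervalIntegral.integral_const_mul, e1, (hq.2 k).2, mul_one, inv_pow,
      Real.sq_sqrt hc0.le, inv_mul_cancel₀ hc0.ne']
  · simp only [hk, if_false]
    exact ⟨by simp; omega, by simp⟩

theorem step (hK : KeyProp) (n : ℕ) : ∃ H : ℕ, ∀ (h : ℕ) (q : ℕ → ℂ[X]), H ≤ h → Inv n h q →
    ∀ N₀ : ℕ, ∃ (N : ℕ) (Λ : Finset ℕ), N₀ ≤ N ∧ (∀ x ∈ Λ, x + h < N) ∧
      (∀ x ∈ Λ, ∀ y ∈ Λ, x < y → x + h ≤ y) ∧
      (1 - (1 / 2 : ℝ) ^ (n + 1)) * N ≤ h * Λ.card ∧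
      (∀ k, k ≤ n → ∫ θ in (0 : ℝ)..1,
        ‖(1 - e θ) * (q k).eval (e θ)‖ ^ 2 * (‖Pn Λ θ‖ - 1) ^ 2 ≤ (1 / 4 : ℝ) ^ n) ∧
      Inv (n + 1) N fun k => if k ≤ n then q k * pol Λ else 1 := by
  obtain ⟨ε, hε, hε1, hε2, hε3⟩ := params n
  obtain ⟨C, hC, hK⟩ := hK ε hε
  refine ⟨⌈C * (40 * (n + 1) / ε)⌉₊, fun h q hH hq N₀ => ?_⟩
  have hh : 0 < h := by have := (hq.2 0).1; omega
  have hh' : (0 : ℝ) < h := by exact_mod_cast hh
  have hδ := small n h hh ε C hε hε3 hC hH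
  have hw := continuous_wt n q
  obtain ⟨N, hN, Λ, h1, h2, h3⟩ := hK h hh (wt n q) hw (fun θ => by
    have := e_add_int θ 1
    simp only [Int.cast_one] at this
    simp only [wt, this]) (wt_nonneg n q) (N₀ + 2)
  obtain ⟨hI1, hI2, hI3⟩ := mass hq (C / h) (by positivity)
  have hE := energy_wt hq Λ h2
  obtain ⟨I, hI⟩ : ∃ I, ∫ θ in (0 : ℝ)..1, wt n q θ = I := ⟨_, rfl⟩
  rw [hI] at hI1 hI2 hI3 hE
  obtain ⟨s, hs⟩ : ∃ s, s = √((N : ℝ) / h) := ⟨_, rfl⟩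
  have hN' : (0 : ℝ) < N := by exact_mod_cast (by omega : 0 < N)
  have hs0 : 0 < s := by rw [hs]; positivity
  have hs2 : s ^ 2 * h = N := by rw [hs, Real.sq_sqrt (by positivity)]; field_simp
  have hc1 : √(Λ.card : ℝ) ≤ s := by
    have : (h : ℝ) * Λ.card ≤ N := by exact_mod_cast card_le h N hh Λ h1 h2
    rw [hs]
    gcongr
    rw [le_div_iff₀ hh']
    linarith
  obtain ⟨hc, hc0, hf⟩ := flat (wt n q) (fun θ => ‖∑ x ∈ Λ, e (x * θ)‖) hw (by fun_prop)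
    (wt_nonneg n q) I Λ.card s ε hI hE (by linarith) hs0 hε3 hc1 (by
      rw [← hs] at h3
      refine le_trans ?_ h3
      rw [mul_assoc]
      gcongr
      generalize ∫ θ in Set.Icc (C / h) (1 - C / h), wt n q θ = J at hI3
      have : I - ε ≤ J := by linarith
      nlinarith [mul_le_mul_of_nonneg_left this (by linarith : 0 ≤ 1 - ε)])
  refine ⟨N, Λ, by omega, h1, h2, ?_, fun k hk => ?_, hq.succ Λ h1 h2 hc0⟩
  · rw [← hs2]
    have : (1 - (1 / 2 : ℝ) ^ (n + 1)) ≤ (1 - 2 * ε) ^ 2 := by nlinarith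
    nlinarith [mul_le_mul_of_nonneg_right this (by positivity : 0 ≤ s ^ 2 * h),
      mul_le_mul_of_nonneg_right hc hh'.le]
  · refine le_trans (intervalIntegral.integral_mono zero_le_one
      (Continuous.intervalIntegrable (by simp only [norm_Pn]; fun_prop) _ _)
      (Continuous.intervalIntegrable (by fun_prop) _ _) fun θ => ?_) (hf.trans ?_)
    · simp only [norm_Pn]
      exact mul_le_mul_of_nonneg_right (le_wt n q θ k hk) (sq_nonneg _)
    · rw [← hε1]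
      nlinarith

end Seq

open _root_.Vale.Agent.P130.Seq in
theorem seq_prop (hK : KeyProp) : SeqProp := by
  choose H hH using step hK
  choose! N Λ hN using hH
  let s : ℕ → ℕ × (ℕ → ℂ[X]) := fun n => Nat.rec (H 0 + 2, fun _ => 1) (fun n p =>
    (N n p.1 p.2 (H (n + 1)), fun k => if k ≤ n then p.2 k * pol (Λ n p.1 p.2 (H (n + 1))) else 1)) n
  have hs : ∀ n, H n ≤ (s n).1 ∧ Seq.Inv n (s n).1 (s n).2 := by
    intro n
    induction n with
    | zero => exact ⟨Nat.le_add_right _ _, rfl, fun k => ⟨by simp [s], by simp [s]⟩⟩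
    | succ n ih =>
      have := hN n _ _ ih.1 ih.2 (H (n + 1))
      exact ⟨this.1, this.2.2.2.2.2⟩
  let L : ℕ → Finset ℕ := fun n => Λ n (s n).1 (s n).2 (H (n + 1))
  have hP : ∀ n k θ, k ≤ n → ((s n).2 k).eval (e θ) = PP L k n θ := by
    intro n k θ hk
    induction n, hk using Nat.le_induction with
    | base => simp [(hs k).2.1, PP]
    | succ n hk ih =>
      have : (s (n + 1)).2 k = (s n).2 k * pol (L n) := if_pos hk
      rw [this, eval_mul, ih, eval_pol, PP, PP, prod_Ico_succ_top hk]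
  have h := fun n => hN n _ _ (hs n).1 (hs n).2 (H (n + 1))
  refine ⟨fun n => (s n).1, L, fun n => ?_, fun n => (h n).2.1, fun n => (h n).2.2.1,
    fun n => (h n).2.2.2.1, fun k n hk => ?_⟩
  · have := ((hs n).2.2 0).1
    omega
  · simpa only [hP n k _ hk] using (h n).2.2.2.2.1 k hk

end Vale.Agent.P130
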