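import Vale.Agent.P130.Defs

/-! The Fejer lemma and the limit of one term. -/

namespace Vale.Agent.P130

open MeasureTheory Filter Topology Set
open Vale.Agent.P110 (e)

namespace Term

/-- bounded measurable functions -/
def BM (f : ℝ → ℝ) : Prop := Measurable f ∧ ∃ C, ∀ θ, |f θ| ≤ C

theorem BM.intInt {f : ℝ → ℝ} (h : BM f) (a b : ℝ) : IntervalIntegrable f volume a b := by
  obtain ⟨hm, C, hC⟩ := h
  refine (intervalIntegrable_const (c := C)).mono_fun' hm.aestronglyMeasurable ?_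
  exact ae_of_all _ hC

theorem BM.const (c : ℝ) : BM fun _ => c := ⟨measurable_const, |c|, fun _ => le_rfl⟩

theorem BM.add {f g : ℝ → ℝ} (hf : BM f) (hg : BM g) : BM fun θ => f θ + g θ := by
  obtain ⟨hf, C, hC⟩ := hf
  obtain ⟨hg, D, hD⟩ := hg
  exact ⟨hf.add hg, C + D, fun θ => (abs_add_le _ _).trans (add_le_add (hC θ) (hD θ))⟩

theorem BM.sub {f g : ℝ → ℝ} (hf : BM f) (hg : BM g) : BM fun θ => f θ - g θ := by
  obtain ⟨hf, C, hC⟩ := hf
  obtain ⟨hg, D, hD⟩ := hg
  exact ⟨hf.sub hg, C + D, fun θ => (abs_sub _ _).trans (add_le_add (hC θ) (hD θ))⟩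

theorem BM.mul {f g : ℝ → ℝ} (hf : BM f) (hg : BM g) : BM fun θ => f θ * g θ := by
  obtain ⟨hf, C, hC⟩ := hf
  obtain ⟨hg, D, hD⟩ := hg
  refine ⟨hf.mul hg, C * D, fun θ => ?_⟩
  rw [abs_mul]
  exact mul_le_mul (hC θ) (hD θ) (abs_nonneg _) ((abs_nonneg _).trans (hC θ))

theorem BM.sq {f : ℝ → ℝ} (hf : BM f) : BM fun θ => f θ ^ 2 := by
  simpa only [_root_.sq] using hf.mul hf

theorem BM.abs {f : ℝ → ℝ} (hf : BM f) : BM fun θ => |f θ| := by
  obtain ⟨hf, C, hC⟩ := hf
  exact ⟨hf.abs, C, fun θ => by rw [abs_abs]; exact hC θ⟩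

theorem BM.comp {f g : ℝ → ℝ} (hf : BM f) (hg : Measurable g) : BM fun θ => f (g θ) := by
  obtain ⟨hf, C, hC⟩ := hf
  exact ⟨hf.comp hg, C, fun θ => hC _⟩

theorem BM.ite {f : ℝ → ℝ} (hf : BM f) {p : ℝ → Prop} [DecidablePred p]
    (hp : MeasurableSet {θ | p θ}) : BM fun θ => if p θ then f θ else 0 := by
  obtain ⟨hf, C, hC⟩ := hf
  refine ⟨Measurable.ite hp hf measurable_const, C, fun θ => ?_⟩
  beta_reduce
  split_ifs
  · exact hC θ
  · rw [abs_zero]; exact (abs_nonneg _).trans (hC θ)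

theorem integral_comp_int {F : ℝ → ℝ} (hF : BM F) (hp : Function.Periodic F 1) {n : ℤ}
    (hn : n ≠ 0) (a : ℝ) : ∫ θ in (0 : ℝ)..1, F (n * θ + a) = ∫ θ in (0 : ℝ)..1, F θ := by
  have hn' : (n : ℝ) ≠ 0 := by exact_mod_cast hn
  have h1 := hp.intervalIntegral_add_zsmul_eq n a hF.intInt
  rw [hp.intervalIntegral_add_eq a 0, zero_add, zsmul_eq_mul, zsmul_eq_mul, mul_one] at h1
  rw [intervalIntegral.integral_comp_mul_add F hn', mul_zero, zero_add, mul_one, add_comm, h1,
    smul_eq_mul, inv_mul_cancel_left₀ hn']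

theorem tendsto_Ioc {g : ℝ → ℝ} (hg : BM g) (hp : Function.Periodic g 1)
    (h0 : ∫ θ in (0 : ℝ)..1, g θ = 0) (a b : ℝ) :
    Tendsto (fun B : ℕ => ∫ θ in Ioc a b, g (B * θ)) atTop (𝓝 0) := by
  rcases lt_or_ge b a with hab | hab
  · simp [Ioc_eq_empty_of_le hab.le]
  obtain ⟨C, hC⟩ := hg.2
  have hG : ∀ t, |∫ θ in (0 : ℝ)..t, g θ| ≤ C := by
    intro t
    have h1 := hp.intervalIntegral_add_zsmul_eq ⌊t⌋ (Int.fract t) hg.intInt
    rw [hp.intervalIntegral_add_eq (Int.fract t) 0, zero_add, h0, smul_zero, zsmul_eq_mul,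
      mul_one, Int.fract_add_floor] at h1
    rw [← intervalIntegral.integral_add_adjacent_intervals (hg.intInt 0 (Int.fract t))
      (hg.intInt _ t), h1, add_zero]
    have h2 := intervalIntegral.norm_integral_le_of_norm_le_const (a := 0) (b := Int.fract t)
      (f := g) (C := C) fun x _ => hC x
    rw [sub_zero, abs_of_nonneg (Int.fract_nonneg t)] at h2
    exact h2.trans (mul_le_of_le_one_right ((abs_nonneg _).trans (hC 0)) (Int.fract_lt_one t).le)
  refine squeeze_zero_norm' ?_ (tendsto_const_div_atTop_nhds_zero_nat (2 * C))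
  filter_upwards [eventually_gt_atTop 0] with B hB
  have hB' : (0 : ℝ) < B := by exact_mod_cast hB
  rw [← intervalIntegral.integral_of_le hab, intervalIntegral.integral_comp_mul_left g hB'.ne',
    ← intervalIntegral.integral_interval_sub_left (hg.intInt 0 _) (hg.intInt 0 _), norm_smul,
    norm_inv, Real.norm_of_nonneg hB'.le, mul_comm, ← div_eq_mul_inv]
  refine div_le_div_of_nonneg_right ((abs_sub _ _).trans ?_) hB'.le
  linarith [hG (B * a), hG (B * b)]

theorem tendsto_set {g : ℝ → ℝ} (hg : BM g) (hp : Function.Periodic g 1)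
    (h0 : ∫ θ in (0 : ℝ)..1, g θ = 0) {s : Set ℝ} (hs : MeasurableSet s) :
    Tendsto (fun B : ℕ => ∫ θ in s, g (B * θ) ∂(volume.restrict (Ioc 0 1))) atTop (𝓝 0) := by
  have hi : ∀ B : ℕ, Integrable (fun θ => g (B * θ)) (volume.restrict (Ioc (0 : ℝ) 1)) :=
    fun B => ((hg.comp (g := fun θ => B * θ) (by fun_prop)).intInt 0 1).1
  obtain ⟨C, hC⟩ := hg.2
  induction s, hs using MeasurableSpace.induction_on_inter
    (BorelSpace.measurable_eq.trans (borel_eq_generateFrom_Ioc ℝ)) (isPiSystem_Ioc id id) with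
  | empty => simp
  | basic t ht =>
    obtain ⟨a, b, -, rfl⟩ := ht
    simp_rw [Measure.restrict_restrict measurableSet_Ioc, Ioc_inter_Ioc]
    exact tendsto_Ioc hg hp h0 _ _
  | compl t ht ih =>
    have h1 := (tendsto_Ioc hg hp h0 0 1).sub ih
    rw [sub_zero] at h1
    refine h1.congr fun B => ?_
    rw [← integral_add_compl ht (hi B), add_sub_cancel_left]
  | iUnion f hd hf ih =>
    have h1 := tendsto_tsum_of_dominated_convergence
      (bound := fun i => C * (volume.restrict (Ioc (0 : ℝ) 1)).real (f i))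
      ((summable_measure_toReal hf hd).mul_left C) ih
      (Eventually.of_forall fun B i => norm_setIntegral_le_of_norm_le_const (measure_lt_top _ _)
        fun x _ => hC _)
    rw [tsum_zero] at h1
    exact h1.congr fun B => (integral_iUnion hf hd (hi B).integrableOn).symm

theorem tendsto_zero {g : ℝ → ℝ} (hg : BM g) (hp : Function.Periodic g 1)
    (h0 : ∫ θ in (0 : ℝ)..1, g θ = 0) {φ : ℝ → ℝ}
    (hφ : Integrable φ (volume.restrict (Ioc 0 1))) :
    Tendsto (fun B : ℕ => ∫ θ in Ioc (0 : ℝ) 1, g (B * θ) * φ θ) atTop (𝓝 0) := by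
  obtain ⟨C, hC⟩ := hg.2
  have hi : ∀ (B : ℕ) {f : ℝ → ℝ}, Integrable f (volume.restrict (Ioc (0 : ℝ) 1)) →
      Integrable (fun θ => g (B * θ) * f θ) (volume.restrict (Ioc (0 : ℝ) 1)) := fun B f hf =>
    hf.bdd_mul (c := C) (hg.comp (g := fun θ => B * θ) (by fun_prop)).1.aestronglyMeasurable
      (ae_of_all _ fun θ => hC _)
  refine Integrable.induction (μ := volume.restrict (Ioc (0 : ℝ) 1))
    (fun φ => Tendsto (fun B : ℕ => ∫ θ in Ioc (0 : ℝ) 1, g (B * θ) * φ θ) atTop (𝓝 0))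
    ?_ ?_ ?_ ?_ hφ
  · intro c s hs _
    have h1 := (tendsto_set hg hp h0 hs).mul_const c
    rw [zero_mul] at h1
    refine h1.congr fun B => ?_
    rw [← integral_mul_const, ← integral_indicator hs]
    refine integral_congr_ae (ae_of_all _ fun θ => ?_)
    by_cases hθ : θ ∈ s <;> simp [hθ]
  · intro f f' _ hf hf' h1 h2
    have h3 := h1.add h2
    rw [add_zero] at h3
    refine h3.congr fun B => ?_
    rw [← integral_add (hi B hf) (hi B hf')]
    simp only [Pi.add_apply, mul_add]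
  · have hC0 : 0 ≤ C := (abs_nonneg _).trans (hC 0)
    refine (LipschitzWith.uniformEquicontinuous
      (fun (B : ℕ) (f : ℝ →₁[volume.restrict (Ioc (0 : ℝ) 1)] ℝ) =>
        ∫ θ in Ioc (0 : ℝ) 1, g (B * θ) * f θ) ⟨C, hC0⟩ fun B => ?_).equicontinuous.isClosed_setOfPred_tendsto
      continuous_const
    refine LipschitzWith.of_dist_le_mul fun f f' => ?_
    rw [dist_eq_norm, ← integral_sub (hi B (L1.integrable_coeFn f)) (hi B (L1.integrable_coeFn f')),
      L1.dist_eq_integral_dist, ← integral_const_mul]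
    refine norm_integral_le_of_norm_le
      (((L1.integrable_coeFn f).sub (L1.integrable_coeFn f')).norm.const_mul C |>.congr
        (ae_of_all _ fun θ => by simp only [dist_eq_norm]; rfl)) (ae_of_all _ fun θ => ?_)
    rw [← mul_sub, norm_mul, dist_eq_norm]
    exact mul_le_mul_of_nonneg_right (hC _) (norm_nonneg _)
  · intro f f' hff _ h1
    refine h1.congr fun B => integral_congr_ae ?_
    filter_upwards [hff] with θ hθ
    rw [hθ]

theorem fejer {ψ : ℝ → ℝ} (hψ : BM ψ) (hp : Function.Periodic ψ 1) {φ : ℝ → ℝ}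
    (hφ : IntervalIntegrable φ volume 0 1) :
    Tendsto (fun B : ℕ => ∫ θ in (0 : ℝ)..1, ψ (B * θ) * φ θ) atTop
      (𝓝 ((∫ θ in (0 : ℝ)..1, ψ θ) * ∫ θ in (0 : ℝ)..1, φ θ)) := by
  set c := ∫ θ in (0 : ℝ)..1, ψ θ
  have hg := hψ.sub (BM.const c)
  have h1 := (tendsto_zero hg (fun θ => by simp only [hp θ])
    (by rw [intervalIntegral.integral_sub (hψ.intInt 0 1) intervalIntegrable_const]; simp [c])
    hφ.1).add_const (c * ∫ θ in (0 : ℝ)..1, φ θ)
  rw [zero_add] at h1
  refine h1.congr fun B => ?_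
  obtain ⟨C, hC⟩ := hg.2
  rw [intervalIntegral.integral_of_le zero_le_one, intervalIntegral.integral_of_le zero_le_one,
    ← integral_const_mul, ← integral_add (hφ.1.bdd_mul (c := C)
      (hg.comp (g := fun θ => B * θ) (by fun_prop)).1.aestronglyMeasurable
      (ae_of_all _ fun θ => hC _)) (hφ.1.const_mul c)]
  congr 1
  funext θ
  ring

theorem measurableSet_arc (L : ℕ) (β lam : ℝ) {g : ℝ → ℝ} (hg : Measurable g) :
    MeasurableSet {θ | arc L β lam (g θ)} :=
  measurableSet_lt (measurable_fract.comp (by fun_prop)) measurable_const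

theorem arc_add_int (L : ℕ) (β lam τ : ℝ) (n : ℤ) : arc L β lam (τ + n) ↔ arc L β lam τ := by
  unfold arc
  rw [show (L : ℝ) * (τ + n - β) = L * (τ - β) + ((L * n : ℤ) : ℝ) by push_cast; ring,
    Int.fract_add_intCast]

theorem chirp_add_int (L : ℕ) (A : ℤ) (β lam : ℝ) (J : ℕ) (τ : ℝ) (n : ℤ) :
    chirp L A β lam J (τ + n) = chirp L A β lam J τ := by
  unfold chirp
  refine Finset.sum_congr rfl fun j _ => ?_
  rw [← P110.e_sub_int (_ - j * τ) (j * n)]
  congr 1
  push_cast
  ring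

theorem bm_chirp (L : ℕ) (A : ℤ) (β lam : ℝ) (J : ℕ) :
    BM fun τ => ‖chirp L A β lam J τ‖ / √J := by
  refine ⟨Continuous.measurable ?_, J / √J, fun τ => ?_⟩
  · unfold chirp e
    fun_prop
  · rw [abs_of_nonneg (by positivity)]
    refine div_le_div_of_nonneg_right ((norm_sum_le _ _).trans (le_of_eq ?_)) (Real.sqrt_nonneg _)
    simp [P110.norm_e]

theorem integral_arc {L : ℕ} (hL : 0 < L) (β : ℝ) {lam : ℝ} (h0 : 0 ≤ lam) (h1 : L * lam ≤ 1) :
    ∫ θ in (0 : ℝ)..1, (if arc L β lam θ then (1 : ℝ) else 0) = L * lam := by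
  have hc : 0 ≤ (L : ℝ) * lam := by positivity
  have hm : MeasurableSet {t : ℝ | Int.fract t < L * lam} :=
    measurableSet_lt measurable_fract measurable_const
  have h2 := integral_comp_int (F := fun t => if Int.fract t < L * lam then (1 : ℝ) else 0)
    ((BM.const 1).ite hm) (fun t => by simp only [Int.fract_add_one]) (n := L)
    (by exact_mod_cast hL.ne') (-(L * β))
  have h3 : ∫ θ in (0 : ℝ)..1, (if Int.fract θ < L * lam then (1 : ℝ) else 0) = L * lam := by
    rw [intervalIntegral.integral_of_le zero_le_one, integral_Ioc_eq_integral_Ioo,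
      setIntegral_congr_fun measurableSet_Ioo (g := (Iio (L * lam)).indicator fun _ => (1 : ℝ))
        (fun t ht => by
          simp only [Int.fract_eq_self.2 ⟨ht.1.le, ht.2⟩, indicator, mem_Iio]),
      setIntegral_indicator measurableSet_Iio, Ioo_inter_Iio, min_eq_right h1]
    simp [hc]
  rw [← h3, ← h2]
  congr 1
  funext θ
  refine if_congr ?_ rfl rfl
  unfold arc
  rw [show (L : ℝ) * (θ - β) = ((L : ℤ) : ℝ) * θ + -(L * β) by push_cast; ring]

theorem tendsto_abs {f : ℕ → ℝ → ℝ} (hf : ∀ B, BM (f B))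
    (h : Tendsto (fun B => ∫ θ in (0 : ℝ)..1, f B θ ^ 2) atTop (𝓝 0)) :
    Tendsto (fun B => ∫ θ in (0 : ℝ)..1, |f B θ|) atTop (𝓝 0) := by
  rw [Metric.tendsto_nhds]
  intro t ht
  filter_upwards [h.eventually (gt_mem_nhds (show 0 < t ^ 2 / 4 by positivity))] with B hB
  have h1 : ∫ θ in (0 : ℝ)..1, |f B θ| ≤ ∫ θ in (0 : ℝ)..1, (t / 4 + t⁻¹ * f B θ ^ 2) := by
    refine intervalIntegral.integral_mono_on zero_le_one ((hf B).abs.intInt 0 1)
      (((BM.const _).add ((BM.const _).mul (hf B).sq)).intInt 0 1) fun θ _ => ?_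
    rw [← sq_abs, ← mul_le_mul_iff_right₀ ht, mul_add, mul_inv_cancel_left₀ ht.ne']
    nlinarith [sq_nonneg (|f B θ| - t / 2)]
  rw [intervalIntegral.integral_add intervalIntegrable_const
    (((BM.const _).mul (hf B).sq).intInt 0 1), intervalIntegral.integral_const_mul] at h1
  rw [dist_zero_right, Real.norm_of_nonneg
    (intervalIntegral.integral_nonneg zero_le_one fun θ _ => abs_nonneg _)]
  have h2 : t⁻¹ * ∫ θ in (0 : ℝ)..1, f B θ ^ 2 ≤ t / 4 := by
    rw [inv_mul_le_iff₀ ht]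
    linarith
  simp only [intervalIntegral.integral_const, sub_zero, smul_eq_mul, one_mul] at h1
  linarith

theorem tendsto_chirp (h1 : ChirpProp) {L : ℕ} {A : ℤ} (β : ℝ) {lam : ℝ} (hL : 0 < L)
    (hA : IsCoprime (2 * A) (L : ℤ)) (hl : 0 < lam) (hl2 : 2 * (L * lam) ≤ 1) {n : ℕ → ℤ}
    (hn : ∀ᶠ B in atTop, n B ≠ 0) :
    Tendsto (fun B : ℕ => ∫ θ in (0 : ℝ)..1, (‖chirp L A β lam B (n B * θ)‖ / √B -
      if arc L β lam (n B * θ) then 1 / √(L * lam) else 0) ^ 2) atTop (𝓝 0) := by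
  refine (h1 L A β lam hL hA hl hl2).congr' ?_
  filter_upwards [hn] with B hB
  have h2 := integral_comp_int (F := fun τ => (‖chirp L A β lam B τ‖ / √B -
      if arc L β lam τ then 1 / √(L * lam) else 0) ^ 2)
    ((bm_chirp L A β lam B).sub ((BM.const _).ite (measurableSet_arc L β lam measurable_id))).sq
    (fun τ => by
      have a1 := chirp_add_int L A β lam B τ 1
      have a2 := arc_add_int L β lam τ 1
      rw [Int.cast_one] at a1 a2
      simp only [a1, a2]) hB 0
  simpa only [add_zero] using h2.symm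

theorem key_ineq {u v a b w W : ℝ} (ha : 0 ≤ a) (hb : 0 ≤ b) (hw : |w| ≤ W) :
    |w * (u * v) - w * (a * b)| ≤
      W * (((u - a) ^ 2 + (v - b) ^ 2) + (a * |v - b| + b * |u - a|)) := by
  rw [← mul_sub, abs_mul]
  refine mul_le_mul hw ?_ (abs_nonneg _) ((abs_nonneg _).trans hw)
  rw [show u * v - a * b = (u - a) * (v - b) + (a * (v - b) + b * (u - a)) by ring]
  refine (abs_add_le _ _).trans (add_le_add ?_ ((abs_add_le _ _).trans (le_of_eq ?_)))
  · rw [abs_le]
    constructor <;> nlinarith [sq_nonneg (u - a + (v - b)), sq_nonneg (u - a - (v - b))]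
  · rw [abs_mul, abs_mul, abs_of_nonneg ha, abs_of_nonneg hb]

end Term

open Term

theorem fejer_prop : FejerProp := by
  intro φ L β lam hφ hL h0 h1
  have h2 := fejer (ψ := fun θ => if arc L β lam θ then (1 : ℝ) else 0)
    ((BM.const 1).ite (measurableSet_arc L β lam measurable_id))
    (fun τ => by
      have a2 := arc_add_int L β lam τ 1
      rw [Int.cast_one] at a2
      simp only [a2]) hφ
  rw [integral_arc hL β h0 h1] at h2
  simpa only [ite_mul, one_mul, zero_mul] using h2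

theorem term_prop (h1 : ChirpProp) : TermProp := by
  intro w σ h β₁ lam₁ L A β lam hw hwp hl1 hl1' hL hA hl hl'
  have hσ : (σ : ℤ) ≠ 0 := σ.ne_zero
  have hL' : (0 : ℝ) < L := by exact_mod_cast hL
  obtain ⟨W, hW⟩ : ∃ W, ∀ θ, |w θ| ≤ W := by
    obtain ⟨W, hW⟩ := (hwp.isBounded_of_continuous one_ne_zero hw).exists_norm_le
    exact ⟨W, fun θ => hW _ ⟨θ, rfl⟩⟩
  have hwB : BM w := ⟨hw.measurable, W, hW⟩
  set a : ℝ := 1 / √(((1 : ℕ) : ℝ) * lam₁) with ha
  set b : ℝ := 1 / √(L * lam) with hb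
  have ha0 : 0 ≤ a := by positivity
  have hb0 : 0 ≤ b := by positivity
  let u : ℕ → ℝ → ℝ := fun B θ => ‖chirp 1 0 β₁ lam₁ B ((σ : ℤ) * θ)‖ / √B
  let v : ℕ → ℝ → ℝ := fun B θ =>
    ‖chirp L A β lam B ((σ : ℤ) * (((B + h : ℕ) : ℝ) * θ))‖ / √B
  let p : ℝ → Prop := fun θ => arc 1 β₁ lam₁ ((σ : ℤ) * θ)
  let q : ℕ → ℝ → Prop := fun B θ => arc L β lam ((σ : ℤ) * (((B + h : ℕ) : ℝ) * θ))
  let f : ℕ → ℝ → ℝ := fun B θ => u B θ - if p θ then a else 0
  let g : ℕ → ℝ → ℝ := fun B θ => v B θ - if q B θ then b else 0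
  have hp : MeasurableSet {θ | p θ} := measurableSet_arc _ _ _ (by fun_prop)
  have hq : ∀ B, MeasurableSet {θ | q B θ} := fun B => measurableSet_arc _ _ _ (by fun_prop)
  have hu : ∀ B, BM (u B) := fun B => (bm_chirp 1 0 β₁ lam₁ B).comp (by fun_prop)
  have hv : ∀ B, BM (v B) := fun B => (bm_chirp L A β lam B).comp (by fun_prop)
  have hf : ∀ B, BM (f B) := fun B => (hu B).sub ((BM.const a).ite hp)
  have hg : ∀ B, BM (g B) := fun B => (hv B).sub ((BM.const b).ite (hq B))
  have tf : Tendsto (fun B => ∫ θ in (0 : ℝ)..1, f B θ ^ 2) atTop (𝓝 0) :=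
    tendsto_chirp h1 β₁ one_pos (by simpa using isCoprime_one_right) hl1 (by simpa using hl1')
      (n := fun _ => σ) (Eventually.of_forall fun _ => hσ)
  have tg : Tendsto (fun B => ∫ θ in (0 : ℝ)..1, g B θ ^ 2) atTop (𝓝 0) := by
    have := tendsto_chirp h1 β hL hA hl hl' (n := fun B => σ * (B + h : ℕ))
      ((eventually_gt_atTop 0).mono fun B hB => mul_ne_zero hσ (by exact_mod_cast (by omega)))
    simpa only [Int.cast_mul, Int.cast_natCast, mul_assoc] using this
  have hψ : BM fun θ : ℝ => if arc L β lam ((σ : ℤ) * θ) then (1 : ℝ) else 0 :=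
    (BM.const 1).ite (measurableSet_arc _ _ _ (by fun_prop))
  have hint : ∫ θ in (0 : ℝ)..1, (if arc L β lam ((σ : ℤ) * θ) then (1 : ℝ) else 0) = L * lam := by
    have h2 := integral_comp_int (F := fun θ => if arc L β lam θ then (1 : ℝ) else 0)
      ((BM.const 1).ite (measurableSet_arc L β lam measurable_id))
      (fun τ => by
        have a2 := arc_add_int L β lam τ 1
        rw [Int.cast_one] at a2
        simp only [a2]) hσ 0
    rw [integral_arc hL β hl.le (by nlinarith [mul_pos hL' hl])] at h2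
    simpa only [add_zero] using h2
  have tm := ((fejer hψ (fun τ => by simp only [mul_add, mul_one, arc_add_int])
    ((hwB.ite hp).intInt 0 1)).comp (tendsto_add_atTop_nat h)).const_mul (a * b)
  have td := (((tf.add tg).add (((tendsto_abs hg tg).const_mul a).add
    ((tendsto_abs hf tf).const_mul b))).const_mul W)
  simp only [add_zero, mul_zero] at td
  have hc : a * b * (L * lam) = √(L * lam / lam₁) := by
    have a1 : 0 < √(L * lam) := Real.sqrt_pos.2 (mul_pos hL' hl)
    have a2 : √(L * lam) * √(L * lam) = L * lam := Real.mul_self_sqrt (mul_pos hL' hl).le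
    rw [ha, hb, Real.sqrt_div (mul_pos hL' hl).le, Nat.cast_one, one_mul, eq_div_iff
      (Real.sqrt_pos.2 hl1).ne']
    have a3 := (Real.sqrt_pos.2 hl1).ne'
    field_simp
    nlinarith
  rw [hint, ← mul_assoc, hc] at tm
  have hpq : ∀ B, MeasurableSet {θ | p θ ∧ q B θ} := fun B => hp.inter (hq B)
  have hI1 : ∀ B, BM fun θ => if p θ ∧ q B θ then w θ * (u B θ * v B θ) else 0 := fun B =>
    (hwB.mul ((hu B).mul (hv B))).ite (hpq B)
  have hI2 : ∀ B, BM fun θ => if p θ ∧ q B θ then w θ * (a * b) else 0 := fun B =>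
    (hwB.mul (BM.const _)).ite (hpq B)
  have tdiff : Tendsto (fun B : ℕ =>
      (∫ θ in (0 : ℝ)..1, if p θ ∧ q B θ then w θ * (u B θ * v B θ) else 0) -
        ∫ θ in (0 : ℝ)..1, if p θ ∧ q B θ then w θ * (a * b) else 0) atTop (𝓝 0) := by
    refine squeeze_zero_norm (fun B => ?_) td
    have i1 := (hf B).sq.intInt 0 1
    have i2 := (hg B).sq.intInt 0 1
    have i3 := ((BM.const a).mul (hg B).abs).intInt 0 1
    have i4 := ((BM.const b).mul (hf B).abs).intInt 0 1
    rw [← intervalIntegral.integral_sub ((hI1 B).intInt 0 1) ((hI2 B).intInt 0 1),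
      ← intervalIntegral.integral_const_mul, ← intervalIntegral.integral_const_mul,
      ← intervalIntegral.integral_add i1 i2, ← intervalIntegral.integral_add i3 i4,
      ← intervalIntegral.integral_add (i1.add i2) (i3.add i4),
      ← intervalIntegral.integral_const_mul]
    refine intervalIntegral.norm_integral_le_of_norm_le zero_le_one (ae_of_all _ fun θ _ => ?_)
      (((i1.add i2).add (i3.add i4)).const_mul W)
    by_cases hθ : p θ ∧ q B θ
    · simp only [f, g, hθ, if_true, and_self]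
      exact key_ineq ha0 hb0 (hW θ)
    · rw [if_neg hθ, if_neg hθ, sub_zero, norm_zero]
      have := (abs_nonneg _).trans (hW θ)
      positivity
  have tsum := tdiff.add tm
  rw [zero_add] at tsum
  refine tsum.congr' ?_
  filter_upwards [eventually_gt_atTop 0] with B hB
  have hB' : (0 : ℝ) < B := by exact_mod_cast hB
  have e1 : (∫ θ in (0 : ℝ)..1, if p θ ∧ q B θ then w θ * (a * b) else 0) =
      a * b * ∫ θ in (0 : ℝ)..1, (if q B θ then (1 : ℝ) else 0) * if p θ then w θ else 0 := by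
    rw [← intervalIntegral.integral_const_mul]
    congr 1
    funext θ
    by_cases h2 : p θ <;> by_cases h3 : q B θ <;> simp [h2, h3, mul_comm]
  rw [e1, Function.comp_apply, sub_add_cancel, ← intervalIntegral.integral_div]
  congr 1
  funext θ
  split_ifs
  · simp only [u, v]
    rw [div_mul_div_comm, Real.mul_self_sqrt hB'.le, ← mul_div_assoc]
  · rw [zero_div]

end Vale.Agent.P130
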