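import Vale.Agent.P130.Defs

/-! Combining loads, allocation and arcs. -/

namespace Vale.Agent.P130

open Finset

namespace Tile

lemma fiber {S : Type} [Fintype S] [DecidableEq S] (k : S → ℕ) (b : S → ℝ) (KK : Finset ℕ)
    (g : ℕ → ℝ) : ∑ m ∈ univ.filter (fun m => k m ∈ KK), b m ^ 2 * g (k m)
      = ∑ κ ∈ KK, (∑ m ∈ univ.filter (fun m => k m = κ), b m ^ 2) * g κ := by
  rw [← sum_fiberwise_of_maps_to (s := univ.filter (fun m => k m ∈ KK)) (t := KK) (g := k)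
    (fun m hm => (mem_filter.1 hm).2)]
  apply sum_congr rfl
  intro κ hκ
  rw [sum_mul]
  apply sum_congr
  · ext m
    simp only [mem_filter, mem_univ, true_and]
    exact ⟨fun h => h.2, fun h => ⟨h ▸ hκ, h⟩⟩
  · intro m hm
    rw [(mem_filter.1 hm).2]

lemma term_le {X ld b p η : ℝ} (hη0 : 0 ≤ η) (hη1 : η ≤ 1) (hp : 0 ≤ p) (hld : 0 ≤ ld)
    (hb : 0 ≤ b) (h1 : (1 - η) * p ≤ X) (h2 : p ≤ ld * b ^ 2) :
    (1 - η) * p ≤ √X * √ld * b := by
  have h3 : 0 ≤ (1 - η) * p := mul_nonneg (by linarith) hp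
  have hX : 0 ≤ X := h3.trans h1
  have e1 : √X * √ld * b = √(X * (ld * b ^ 2)) := by
    rw [Real.sqrt_mul hX, Real.sqrt_mul hld, Real.sqrt_sq hb, mul_assoc]
  rw [e1]
  apply Real.le_sqrt_of_sq_le
  have h4 : (1 - η) * p ≤ ld * b ^ 2 := by nlinarith
  rw [sq]
  exact mul_le_mul h1 h4 h3 hX

lemma final_ineq {η : ℝ} (h0 : 0 < η) (h1 : η ≤ 1 / 10) :
    1 - 10 * η ≤ (1 - η) * ((1 - η) * (1 - η) / (1 + η) - η) := by
  have h2 : 1 - 3 * η ≤ (1 - η) * (1 - η) / (1 + η) := by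
    rw [le_div_iff₀ (by linarith)]; nlinarith
  nlinarith

end Tile

theorem tile_prop (h1 : MacroProp) (h2 : AllocProp) (h3 : ArcProp) : TileProp := by
  intro η hη
  set η₁ : ℝ := min η 1 / 10 with hη₁
  have a0 : 0 < η₁ := by
    have : 0 < min η 1 := lt_min hη one_pos
    linarith
  have a1 : η₁ ≤ 1 / 10 := by
    have := min_le_right η 1
    linarith
  have a2 : 10 * η₁ ≤ η := by
    have := min_le_left η 1
    linarith
  obtain ⟨ε, hε, hεη, C, hC, H⟩ := h1 η₁ a0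
  refine ⟨ε, hε, by linarith, C, hC, η₁, a0, fun h hh => ?_⟩
  obtain ⟨KK, lo, hi, hK1, hK2, hK3, hK4, hK5⟩ := H h hh
  refine ⟨KK.sup id, fun S _ _ k μ b hk hμ hb hE => ?_⟩
  have hE' : ∀ κ ∈ KK, 1 - η₁ ≤ ∑ m ∈ univ.filter (fun m => k m = κ), b m ^ 2 ∧
      ∑ m ∈ univ.filter (fun m => k m = κ), b m ^ 2 ≤ 1 :=
    fun κ hκ => hE κ (hK1 κ hκ).1 (le_sup (f := id) hκ)
  have hld : ∀ κ : ℕ, 0 ≤ load ε h κ := fun κ => by unfold load; positivity
  obtain ⟨Q, hQ⟩ := exists_nat_gt (2 * (Fintype.card S : ℝ) / η₁)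
  have hQ0 : (0 : ℝ) < Q := lt_of_le_of_lt (by positivity) hQ
  have hQ1 : 2 * (Fintype.card S : ℝ) / Q ≤ η₁ := by
    rw [div_lt_iff₀ a0] at hQ
    rw [div_le_iff₀ hQ0]; linarith
  let n : S → ℕ := fun m => ⌊Q * (load ε h (k m) * b m ^ 2 / (1 + η₁))⌋₊
  have hn1 : ∀ m, (n m : ℝ) ≤ Q * (load ε h (k m) * b m ^ 2 / (1 + η₁)) := fun m =>
    Nat.floor_le (by have := hld (k m); positivity)
  have hn2 : ∀ m, load ε h (k m) * b m ^ 2 / (1 + η₁) - 1 / Q ≤ (n m : ℝ) / Q := by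
    intro m
    have := Nat.lt_floor_add_one (Q * (load ε h (k m) * b m ^ 2 / (1 + η₁)))
    rw [sub_le_iff_le_add, ← add_div, le_div_iff₀ hQ0]
    linarith
  set T0 : Finset S := univ.filter (fun m => k m ∈ KK) with hT0
  set T : Finset S := T0.filter (fun m => 0 < n m) with hT
  have hTK : ∀ m ∈ T, k m ∈ KK := fun m hm => (mem_filter.1 (mem_filter.1 hm).1).2
  obtain ⟨U, hU1, hU2⟩ := h2 (T × ℤˣ) (fun i => lo (k i.1) i.2) (fun i => hi (k i.1) i.2)
    (fun i => n i.1) Q (fun i => hK2 _ (hTK _ i.1.2) _) (by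
      intro x
      have b1 : ((∑ i : T × ℤˣ, (if lo (k i.1) i.2 ≤ x ∧ x ≤ hi (k i.1) i.2 then n i.1 else 0)
          : ℕ) : ℝ) = ∑ m ∈ T, ∑ σ : ℤˣ,
            (if lo (k m) σ ≤ x ∧ x ≤ hi (k m) σ then (n m : ℝ) else 0) := by
        rw [Fintype.sum_prod_type, ← sum_coe_sort T]
        push_cast
        rfl
      have b2 : ∑ m ∈ T, ∑ σ : ℤˣ, (if lo (k m) σ ≤ x ∧ x ≤ hi (k m) σ then (n m : ℝ) else 0)
          ≤ ∑ m ∈ T0, ∑ σ : ℤˣ, (if lo (k m) σ ≤ x ∧ x ≤ hi (k m) σ then (n m : ℝ) else 0) :=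
        sum_le_sum_of_subset_of_nonneg (filter_subset _ _) fun m _ _ =>
          sum_nonneg fun σ _ => by split_ifs <;> positivity
      have b3 : ∑ m ∈ T0, ∑ σ : ℤˣ, (if lo (k m) σ ≤ x ∧ x ≤ hi (k m) σ then (n m : ℝ) else 0)
          ≤ ∑ m ∈ T0, b m ^ 2 * (Q / (1 + η₁) * ∑ σ : ℤˣ,
            (if lo (k m) σ ≤ x ∧ x ≤ hi (k m) σ then load ε h (k m) else 0)) := by
        apply sum_le_sum
        intro m _
        rw [mul_sum, mul_sum]
        apply sum_le_sum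
        intro σ _
        split_ifs
        · refine (hn1 m).trans (le_of_eq ?_)
          ring
        · simp
      rw [hT0, Tile.fiber k b KK (fun κ => Q / (1 + η₁) * ∑ σ : ℤˣ,
            (if lo κ σ ≤ x ∧ x ≤ hi κ σ then load ε h κ else 0))] at b3
      have b4 : ∑ κ ∈ KK, (∑ m ∈ univ.filter (fun m => k m = κ), b m ^ 2) *
          (Q / (1 + η₁) * ∑ σ : ℤˣ, (if lo κ σ ≤ x ∧ x ≤ hi κ σ then load ε h κ else 0))
          ≤ Q / (1 + η₁) * ∑ κ ∈ KK, ∑ σ : ℤˣ,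
            (if lo κ σ ≤ x ∧ x ≤ hi κ σ then load ε h κ else 0) := by
        rw [mul_sum]
        apply sum_le_sum
        intro κ hκ
        apply mul_le_of_le_one_left _ (hE' κ hκ).2
        apply mul_nonneg (by positivity)
        exact sum_nonneg fun σ _ => by
          split_ifs
          · exact hld κ
          · exact le_rfl
      have b5 : Q / (1 + η₁) * ∑ κ ∈ KK, ∑ σ : ℤˣ,
          (if lo κ σ ≤ x ∧ x ≤ hi κ σ then load ε h κ else 0) ≤ Q := by
        refine (mul_le_mul_of_nonneg_left (hK4 x) (by positivity)).trans (le_of_eq ?_)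
        field_simp
      have b6 := b1.le.trans (b2.trans (b3.trans (b4.trans b5)))
      exact_mod_cast b6)
  obtain ⟨M, u, v, lam, L', A', hM, hlam, hL, harc⟩ := h3 T (fun m => k m) (fun m => μ m) Q
    (fun m σ => U (m, σ)) (fun m => n m) (fun m => hk m)
    (fun m m' hne => hμ m m' fun h => hne (Subtype.ext h)) (by exact_mod_cast hQ0)
    (fun m σ => hU1 (m, σ)) (fun m => (mem_filter.1 m.2).2) η₁ a0
  refine ⟨T, M, u, v, lam, fun m => if hm : m ∈ T then L' ⟨m, hm⟩ else 1,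
    fun m => if hm : m ∈ T then A' ⟨m, hm⟩ else 0, hM, hlam, fun m hm => ?_, ?_, ?_⟩
  · simp only [dif_pos hm]
    obtain ⟨c1, c2, c3, c4, _⟩ := hL ⟨m, hm⟩
    exact ⟨c1, c2, c3, c4, (hK1 _ (hTK m hm)).2⟩
  · intro θ τ m hm m' hm' σ σ' s s' w1 r1 w2 r2
    simp only [dif_pos hm] at r1
    simp only [dif_pos hm'] at r2
    obtain ⟨c1, c2⟩ := harc τ ⟨m, hm⟩ ⟨m', hm'⟩ σ σ' s s' r1 r2
    have c3 : (⟨m, hm⟩ : T) = ⟨m', hm'⟩ ∧ σ = σ' := by
      by_contra hne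
      apply c2
      intro ρ
      have d1 := hK3 _ (hTK m hm) σ ρ θ w1
      have d2 := hK3 _ (hTK m' hm') σ' ρ θ w2
      refine hU2 (⟨m, hm⟩, σ * ρ) (⟨m', hm'⟩, σ' * ρ) (fun heq => hne ?_) _ d1.1 d1.2 d2.1 d2.2
      exact ⟨congrArg Prod.fst heq, mul_right_cancel (congrArg Prod.snd heq)⟩
    exact ⟨congrArg Subtype.val c3.1, c3.2, c1 c3.1 c3.2⟩
  · intro θ hθ1 hθ2
    have b1 : ∑ m ∈ T, ∑ σ : ℤˣ, (if win ε h (k m) ((σ : ℤ) * θ) then
        (1 - η₁) * ((n m : ℝ) / Q) else 0) ≤ ∑ m ∈ T, ∑ σ : ℤˣ,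
        if win ε h (k m) ((σ : ℤ) * θ) then
          √(M * (((if hm : m ∈ T then L' ⟨m, hm⟩ else 1 : ℕ) : ℝ) * (k m * lam))) *
            √(load ε h (k m)) * b m else 0 := by
      apply sum_le_sum
      intro m hm
      apply sum_le_sum
      intro σ _
      rw [dif_pos hm]
      split_ifs
      · apply Tile.term_le a0.le (by linarith) (by positivity) (hld _) (hb m)
          (hL ⟨m, hm⟩).2.2.2.2
        rw [div_le_iff₀ hQ0]
        refine (hn1 m).trans ?_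
        rw [mul_comm]
        apply mul_le_mul_of_nonneg_right _ hQ0.le
        apply div_le_self (by have := hld (k m); positivity) (by linarith)
      · exact le_rfl
    refine le_trans ?_ b1
    have b2 : ∑ m ∈ T, ∑ σ : ℤˣ, (if win ε h (k m) ((σ : ℤ) * θ) then
        (1 - η₁) * ((n m : ℝ) / Q) else 0) = ∑ m ∈ T0, ∑ σ : ℤˣ,
        (if win ε h (k m) ((σ : ℤ) * θ) then (1 - η₁) * ((n m : ℝ) / Q) else 0) := by
      apply sum_subset (filter_subset _ _)
      intro m hm hm'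
      have : n m = 0 := by
        by_contra hc
        exact hm' (mem_filter.2 ⟨hm, Nat.pos_of_ne_zero hc⟩)
      simp [this]
    have b3 : ∑ m ∈ T0, ((1 - η₁) * (b m ^ 2 * (1 / (1 + η₁) * ∑ σ : ℤˣ,
        (if win ε h (k m) ((σ : ℤ) * θ) then load ε h (k m) else 0)) - 2 / Q)) ≤
        ∑ m ∈ T0, ∑ σ : ℤˣ,
        (if win ε h (k m) ((σ : ℤ) * θ) then (1 - η₁) * ((n m : ℝ) / Q) else 0) := by
      apply sum_le_sum
      intro m _
      have e1 : (2 : ℝ) / Q = ∑ _σ : ℤˣ, (1 : ℝ) / Q := by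
        rw [sum_const, card_univ, Fintype.card_units_int]; simp; ring
      rw [e1, mul_sum, mul_sum, ← sum_sub_distrib, mul_sum]
      apply sum_le_sum
      intro σ _
      split_ifs
      · apply mul_le_mul_of_nonneg_left _ (by linarith)
        refine le_trans (le_of_eq ?_) (hn2 m)
        ring
      · have : (0 : ℝ) ≤ (1 - η₁) * (1 / Q) := mul_nonneg (by linarith) (by positivity)
        simp only [mul_zero, zero_sub, mul_neg]
        linarith
    rw [b2]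
    refine le_trans ?_ b3
    rw [← mul_sum, sum_sub_distrib, hT0, Tile.fiber k b KK (fun κ => 1 / (1 + η₁) * ∑ σ : ℤˣ,
        (if win ε h κ ((σ : ℤ) * θ) then load ε h κ else 0))]
    have b4 : (1 - η₁) * (1 - η₁) / (1 + η₁) ≤
        ∑ κ ∈ KK, (∑ m ∈ univ.filter (fun m => k m = κ), b m ^ 2) * (1 / (1 + η₁) * ∑ σ : ℤˣ,
        (if win ε h κ ((σ : ℤ) * θ) then load ε h κ else 0)) := by
      have c1 : (1 - η₁) * (1 - η₁) / (1 + η₁) ≤ (1 - η₁) * (1 / (1 + η₁) * ∑ κ ∈ KK, ∑ σ : ℤˣ,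
          (if win ε h κ ((σ : ℤ) * θ) then load ε h κ else 0)) := by
        rw [mul_div_assoc, div_eq_mul_one_div (1 - η₁), mul_comm (1 - η₁) (1 / (1 + η₁))]
        exact mul_le_mul_of_nonneg_left
          (mul_le_mul_of_nonneg_left (hK5 θ hθ1 hθ2) (by positivity)) (by linarith)
      refine c1.trans ?_
      rw [mul_sum, mul_sum]
      apply sum_le_sum
      intro κ hκ
      apply mul_le_mul_of_nonneg_right (hE' κ hκ).1
      apply mul_nonneg (by positivity)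
      exact sum_nonneg fun σ _ => by
        split_ifs
        · exact hld κ
        · exact le_rfl
    have b5 : ∑ _m ∈ univ.filter (fun m => k m ∈ KK), (2 : ℝ) / Q ≤ η₁ := by
      rw [sum_const, nsmul_eq_mul]
      refine le_trans ?_ hQ1
      have : ((univ.filter (fun m => k m ∈ KK)).card : ℝ) ≤ Fintype.card S := by
        exact_mod_cast card_le_univ _
      rw [mul_div_assoc', mul_comm]
      gcongr
    have b6 := Tile.final_ineq a0 a1
    have b7 := mul_le_mul_of_nonneg_left (sub_le_sub b4 b5) (show 0 ≤ 1 - η₁ by linarith)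
    linarith

end Vale.Agent.P130
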