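import Vale.Agent.P110.TypesProb

/-! A second moment argument for a random colouring with prescribed colour sets. -/

namespace Vale.Agent.P130.Types
open Finset
open Vale.Agent.P110.Types

lemma sum_wt_mem {ι C : Type} [Fintype ι] [DecidableEq ι] [Fintype C] [DecidableEq C]
    (q : C → ℝ) (hsum : ∑ c, q c = 1) {A : Type} [Fintype A] (r : A → ι)
    (hr : Function.Injective r) (t : A → Finset C) :
    ∑ τ : ι → C, wt q τ * (if ∀ a, τ (r a) ∈ t a then 1 else 0) = ∏ a, ∑ c ∈ t a, q c := by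
  classical
  let f : ι → C → ℝ := fun i m => q m * (if ∀ a, r a = i → m ∈ t a then 1 else 0)
  have h1 : ∀ τ : ι → C, wt q τ * (if ∀ a, τ (r a) ∈ t a then 1 else 0) = ∏ i, f i (τ i) := by
    intro τ
    simp only [f, prod_mul_distrib, wt]
    congr 1
    rw [prod_ite_zero]
    simp only [mem_univ, true_imp_iff, prod_const_one]
    congr 1
    apply propext
    constructor
    · intro h i a ha; rw [← ha]; exact h a
    · intro h a; exact h (r a) a rfl
  simp_rw [h1]
  rw [← Fintype.piFinset_univ, ← prod_univ_sum]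
  have h2 : ∀ i, i ∉ univ.image r → ∑ m, f i m = 1 := by
    intro i hi
    rw [← hsum]
    refine sum_congr rfl fun m _ => ?_
    simp only [f]
    rw [if_pos, mul_one]
    intro a ha
    exact absurd (mem_image.mpr ⟨a, mem_univ _, ha⟩) hi
  rw [← prod_subset (subset_univ (univ.image r)) (fun i _ hi => h2 i hi),
    prod_image (fun a _ b _ h => hr h)]
  refine prod_congr rfl fun a _ => ?_
  rw [← sum_subset (subset_univ (t a))]
  · refine sum_congr rfl fun m hm => ?_
    simp only [f]
    rw [if_pos, mul_one]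
    intro a' ha'
    rwa [hr ha']
  · intro m _ hm
    simp only [f]
    rw [if_neg, mul_zero]
    intro h
    exact hm (h a rfl)

theorem random_sets {W V ι S C : Type} [DecidableEq W] [Fintype V] [DecidableEq V]
    [Fintype ι] [DecidableEq ι] [Fintype S] [DecidableEq S] [Fintype C] [DecidableEq C]
    (q : C → ℝ) (hq : ∀ c, 0 ≤ q c) (hsum : ∑ c, q c = 1) (p : S → ℝ) (hp : ∀ m, 0 ≤ p m)
    (As : W → S → Finset C) (hAs : ∀ w m, ∑ c ∈ As w m, q c = p m)
    (idx : W → S → ι) (L : W → S → V)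
    (G : Finset W) (hG : ∀ w ∈ G, Function.Injective (idx w)) (R : ℝ)
    (hfib : ∀ m y, ((G.filter (fun w => L w m = y)).card : ℝ) ≤ R) (X : ℝ)
    (hX : ∀ m, (((G ×ˢ G).filter (fun q => L q.1 m = L q.2 m ∧
      ∃ n n', n ≠ m ∧ n' ≠ m ∧ idx q.1 n = idx q.2 n')).card : ℝ) ≤ X)
    (ν : S → ℕ) (g : ℝ) (hg : 0 < g) (hν : ∀ m, R * (∏ n ∈ univ.erase m, p n) + g ≤ ν m) :
    ∃ (τ : ι → C) (Ω : Finset W), Ω ⊆ G ∧ (∀ w ∈ Ω, ∀ m, τ (idx w m) ∈ As w m) ∧
      (∀ m y, (Ω.filter (fun w => L w m = y)).card ≤ ν m) ∧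
      G.card * (∏ n, p n) - Fintype.card S * X / g ≤ Ω.card := by
  classical
  set π : S → ℝ := fun m => ∏ n ∈ univ.erase m, p n with hπ
  have hπ0 : ∀ m, 0 ≤ π m := fun m => prod_nonneg fun n _ => hp n
  have hπsub : ∀ m, ∏ a : {n // n ≠ m}, p a.1 = π m := by
    intro m
    simp only [hπ]
    exact (prod_subtype (univ.erase m) (by simp) p).symm
  set Z : (ι → C) → S → W → ℝ := fun τ m w =>
    if ∀ a : {n // n ≠ m}, τ (idx w a.1) ∈ As w a.1 then 1 else 0 with hZ
  have hZ01 : ∀ τ m w, 0 ≤ Z τ m w ∧ Z τ m w ≤ 1 := by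
    intro τ m w; simp only [hZ]; split_ifs <;> norm_num
  have EZ : ∀ m, ∀ w ∈ G, ∑ τ, wt q τ * Z τ m w = π m := by
    intro m w hw
    rw [← hπsub]
    simpa only [hAs] using sum_wt_mem q hsum (fun a : {n // n ≠ m} => idx w a.1)
      (fun a b h => Subtype.ext (hG w hw h)) (fun a => As w a.1)
  have EZZ : ∀ m, ∀ w ∈ G, ∀ w' ∈ G, ∑ τ, wt q τ * ((Z τ m w - π m) * (Z τ m w' - π m)) ≤
      if ∃ n n', n ≠ m ∧ n' ≠ m ∧ idx w n = idx w' n' then 1 else 0 := by
    intro m w hw w' hw'
    have e1 : ∑ τ, wt q τ * ((Z τ m w - π m) * (Z τ m w' - π m))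
        = ∑ τ, wt q τ * (Z τ m w * Z τ m w') - π m * π m := by
      have : ∀ τ, wt q τ * ((Z τ m w - π m) * (Z τ m w' - π m))
          = wt q τ * (Z τ m w * Z τ m w') - π m * (wt q τ * Z τ m w)
            - π m * (wt q τ * Z τ m w') + π m * π m * wt q τ := by intro τ; ring
      simp_rw [this]
      rw [sum_add_distrib, sum_sub_distrib, sum_sub_distrib, ← mul_sum, ← mul_sum, ← mul_sum,
        EZ m w hw, EZ m w' hw', sum_wt q hsum]
      ring
    rw [e1]
    split_ifs with h
    · have : ∑ τ, wt q τ * (Z τ m w * Z τ m w') ≤ ∑ τ : ι → C, wt q τ := by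
        refine sum_le_sum fun τ _ => mul_le_of_le_one_right (wt_nonneg q hq τ) ?_
        exact mul_le_one₀ (hZ01 _ _ _).2 (hZ01 _ _ _).1 (hZ01 _ _ _).2
      rw [sum_wt q hsum] at this
      nlinarith [hπ0 m]
    · push Not at h
      have hinj : Function.Injective (Sum.elim (fun a : {n // n ≠ m} => idx w a.1)
          (fun a : {n // n ≠ m} => idx w' a.1)) := by
        rintro (a | a) (b | b) hab
        · exact congrArg Sum.inl (Subtype.ext (hG w hw hab))
        · exact absurd hab (h _ _ a.2 b.2)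
        · exact absurd hab.symm (h _ _ b.2 a.2)
        · exact congrArg Sum.inr (Subtype.ext (hG w' hw' hab))
      have := sum_wt_mem q hsum _ hinj (Sum.elim (fun a => As w a.1) (fun a => As w' a.1))
      rw [Fintype.prod_sum_type] at this
      simp only [Sum.elim_inl, Sum.elim_inr, hAs, hπsub, Sum.forall] at this
      rw [← this]
      refine le_of_eq (sub_eq_zero.mpr (sum_congr rfl fun τ _ => ?_))
      simp only [hZ]
      congr 1
      exact ite_mul_ite_one _ _
  set dev : (ι → C) → S → V → ℝ := fun τ m y =>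
    ∑ w ∈ G.filter (fun w => L w m = y), (Z τ m w - π m) with hdev
  have Edev : ∀ m, ∑ τ, wt q τ * ∑ y, dev τ m y ^ 2 ≤ X := by
    intro m
    refine le_trans ?_ (hX m)
    have e1 : ∀ τ, ∑ y, dev τ m y ^ 2 = ∑ q ∈ (G ×ˢ G).filter (fun q => L q.1 m = L q.2 m),
        (Z τ m q.1 - π m) * (Z τ m q.2 - π m) := by
      intro τ
      rw [← sum_fiberwise _ (fun q : W × W => L q.1 m)]
      refine sum_congr rfl fun y _ => ?_
      simp only [hdev]
      rw [sq, sum_mul_sum, ← sum_product']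
      refine sum_congr ?_ fun _ _ => rfl
      ext q
      simp only [mem_product, mem_filter]
      constructor
      · rintro ⟨⟨a, b⟩, c, d⟩; exact ⟨⟨⟨a, c⟩, b.trans d.symm⟩, b⟩
      · rintro ⟨⟨⟨a, c⟩, b⟩, d⟩; exact ⟨⟨a, d⟩, c, b.symm.trans d⟩
    simp_rw [e1, mul_sum]
    rw [sum_comm, ← filter_filter, card_filter]
    push_cast
    refine sum_le_sum fun q hq => ?_
    have hq' := mem_product.mp (mem_filter.mp hq).1
    exact EZZ m q.1 hq'.1 q.2 hq'.2
  set Ω₁ : (ι → C) → Finset W := fun τ => G.filter (fun w => ∀ m, τ (idx w m) ∈ As w m) with hΩ₁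
  have EΩ : ∑ τ, wt q τ * (Ω₁ τ).card = G.card * ∏ n, p n := by
    simp only [hΩ₁, card_filter]
    push_cast
    simp_rw [mul_sum]
    rw [sum_comm, ← nsmul_eq_mul, ← sum_const]
    refine sum_congr rfl fun w hw => ?_
    simpa only [hAs] using sum_wt_mem q hsum (idx w) (hG w hw) (As w)
  obtain ⟨τ, hτ⟩ := exists_ge_mean (ι := ι) q hq hsum
    (fun τ => (Ω₁ τ).card - ∑ m, ∑ y, dev τ m y ^ 2 / g)
    (G.card * (∏ n, p n) - Fintype.card S * X / g) (by
      simp_rw [mul_sub]
      rw [sum_sub_distrib, EΩ]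
      refine sub_le_sub_left ?_ _
      have e1 : ∑ τ, wt q τ * ∑ m, ∑ y, dev τ m y ^ 2 / g
          = (∑ m, ∑ τ, wt q τ * ∑ y, dev τ m y ^ 2) / g := by
        rw [sum_comm, sum_div]
        refine sum_congr rfl fun τ _ => ?_
        rw [← mul_sum, mul_div_assoc, sum_div]
        congr 1
        exact sum_congr rfl fun m _ => by rw [sum_div]
      rw [e1]
      refine div_le_div_of_nonneg_right ?_ hg.le
      refine (sum_le_sum fun m _ => Edev m).trans ?_
      rw [sum_const, card_univ, nsmul_eq_mul])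
  obtain ⟨Ω, hΩs, hΩf, hΩc⟩ := trim (Ω₁ τ) L ν (fun m y => dev τ m y ^ 2 / g)
    (fun m y => by positivity) (by
      intro m y
      have h1 : (((Ω₁ τ).filter (fun w => L w m = y)).card : ℝ)
          ≤ ∑ w ∈ G.filter (fun w => L w m = y), Z τ m w := by
        rw [card_eq_sum_ones]
        push_cast
        have hs : (Ω₁ τ).filter (fun w => L w m = y) ⊆ G.filter (fun w => L w m = y) :=
          filter_subset_filter _ (filter_subset _ _)
        refine le_trans (le_of_eq ?_)
          (sum_le_sum_of_subset_of_nonneg hs fun w _ _ => (hZ01 τ m w).1)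
        refine sum_congr rfl fun w hw => ?_
        have := (mem_filter.mp (mem_filter.mp hw).1).2
        simp only [hZ]
        exact (if_pos fun a : {n // n ≠ m} => this a.1).symm
      have h2 : ∑ w ∈ G.filter (fun w => L w m = y), Z τ m w
          = dev τ m y + (G.filter (fun w => L w m = y)).card * π m := by
        simp only [hdev]
        rw [sum_sub_distrib, sum_const, nsmul_eq_mul]; ring
      have h3 : (G.filter (fun w => L w m = y)).card * π m ≤ R * π m :=
        mul_le_mul_of_nonneg_right (hfib m y) (hπ0 m)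
      have h4 := hν m
      have h5 : (((Ω₁ τ).filter (fun w => L w m = y)).card : ℝ) - ν m ≤ dev τ m y - g := by
        simp only [hπ] at h3 h2
        linarith
      refine h5.trans ?_
      rw [le_div_iff₀ hg]
      nlinarith [sq_nonneg (dev τ m y - g)])
  refine ⟨τ, Ω, hΩs.trans (filter_subset _ _), fun w hw => (mem_filter.mp (hΩs hw)).2, hΩf, ?_⟩
  exact hτ.trans hΩc

end Vale.Agent.P130.Types
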