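import Vale.Agent.P130.Defs
import Vale.Agent.P130.Types1
import Vale.Agent.P110.TypesCount

/-! Greedy allocation of colours to intervals, and random types with prescribed colour sets. -/

namespace Vale.Agent.P130
open Finset

namespace Types
open Vale.Agent.P110.Types

/-- the sign of an integer as a unit -/
def sg (x : ℤ) : ℤˣ := if 0 ≤ x then 1 else -1

lemma zmod_sets {S C : Type} [Fintype S] [DecidableEq S] [Fintype C] [DecidableEq C]
    (j μ : S → ℤ) (q : C → ℝ) (hq : ∀ c, 0 ≤ q c) (hsum : ∑ c, q c = 1) (p : S → ℝ)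
    (hp : ∀ m, 0 < p m) (U : S → ℤˣ → Finset C) (hU : ∀ m σ, ∑ c ∈ U m σ, q c = p m)
    (J : ℕ) (η : ℝ) (hη : 0 < η) :
    ∃ R₀ : ℕ, ∀ (R : ℕ) [NeZero R], R₀ ≤ R → (∀ m, IsCoprime (j m) (R : ℤ)) →
      (∀ m n, m ≠ n → IsCoprime (j m * μ n - j n * μ m) (R : ℤ)) →
      ∃ (typ : ZMod R → C) (Ω : Finset (ZMod R × ZMod R)), (∀ y, typ (-y) = typ y) ∧
        (∀ w ∈ Ω, ∀ m, ∀ a : ℤ, |a| ≤ J →
          typ (form j μ w m + (a : ZMod R)) ∈ U m (sg (form j μ w m).valMinAbs)) ∧
        (∀ w ∈ Ω, ∀ m, 2 * ((form j μ w m).valMinAbs.natAbs + J) < R ∧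
          J ≤ (form j μ w m).valMinAbs.natAbs) ∧
        (∀ m y, ((Ω.filter (fun w => form j μ w m = y)).card : ℝ)
          ≤ (1 + η) * R * (∏ n, p n) / p m) ∧
        (1 - η) * (R : ℝ) ^ 2 * ∏ n, p n ≤ Ω.card := by
  set s : ℝ := (Fintype.card S : ℝ) with hs
  have hs0 : 0 ≤ s := Nat.cast_nonneg _
  set π : ℝ := ∏ n, p n with hπ
  have hπ0 : 0 < π := prod_pos fun n _ => hp n
  have hp1 : ∀ m, p m ≤ 1 := fun m => by
    rw [← hsum, ← hU m 1]
    exact sum_le_sum_of_subset_of_nonneg (subset_univ _) fun c _ _ => hq c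
  have hπm : ∀ m, ∏ n ∈ univ.erase m, p n = π / p m := by
    intro m
    rw [eq_div_iff (hp m).ne', hπ, prod_erase_mul _ _ (mem_univ m)]
  have hπle : ∀ m, π ≤ π / p m := fun m => by
    rw [le_div_iff₀ (hp m)]; exact mul_le_of_le_one_right hπ0.le (hp1 m)
  set W : ℕ := ⌈12 * s * J / η⌉₊ + 1 with hW
  have hW0 : 0 < W := by omega
  have hWr : (0 : ℝ) < W := by exact_mod_cast hW0
  have hW1 : 12 * s * J ≤ η * W := by
    have h1 := Nat.le_ceil (12 * s * J / η)
    have h2 : (W : ℝ) = ⌈12 * s * J / η⌉₊ + 1 := by rw [hW]; push_cast; ring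
    rw [div_le_iff₀ hη] at h1
    rw [h2]; nlinarith
  set C₁ : ℝ := s * (2 * (J + 1) + 4 * J) + 2 * s ^ 2 * W with hC₁
  set C₂ : ℝ := 4 * s ^ 3 * W / (η * π) with hC₂
  refine ⟨⌈max (3 * (C₁ * π + C₂) / (2 * η * π)) (2 / (η * π))⌉₊, fun R _ hR h1 h2 => ?_⟩
  have hR' : max (3 * (C₁ * π + C₂) / (2 * η * π)) (2 / (η * π)) ≤ R :=
    (Nat.le_ceil _).trans (by exact_mod_cast hR)
  have hR1 : 3 * (C₁ * π + C₂) ≤ R * (2 * η * π) :=
    (div_le_iff₀ (by positivity)).mp ((le_max_left _ _).trans hR')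
  have hR2 : 2 ≤ R * (η * π) :=
    (div_le_iff₀ (by positivity)).mp ((le_max_right _ _).trans hR')
  have hRpos : (1 : ℝ) ≤ R := by exact_mod_cast Nat.pos_of_ne_zero (NeZero.ne R)
  set ν : S → ℕ := fun m => ⌊(1 + η) * R * π / p m⌋₊ with hν
  obtain ⟨τ, Ω, hΩG, hΩτ, hΩf, hΩc⟩ := random_sets q hq hsum p (fun m => (hp m).le)
    (fun w m => U m (sg (form (R := R) j μ w m).valMinAbs)) (fun w m => hU m _)
    (fun w m => lab W (form j μ w m)) (form (R := R) j μ) (gen W J j μ)
    (fun w hw m n h => (mem_filter.mp hw).2.2 m n h) R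
    (fun m y => by
      exact_mod_cast (card_le_card (filter_subset_filter _ (subset_univ _))).trans
        (card_fiber j μ m (h1 m) y))
    (s * (s * (2 * W)) * (R * R))
    (fun m => by rw [hs]; exact_mod_cast card_cross W hW0 j μ h2 (gen W J j μ) m)
    ν (η * R * π / 2) (by positivity)
    (fun m => by
      rw [hπm]
      have a1 := Nat.lt_floor_add_one ((1 + η) * R * π / p m)
      have a2 : (1 + η) * R * π / p m = R * (π / p m) + η * R * (π / p m) := by ring
      have a3 : η * R * π ≤ η * R * (π / p m) :=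
        mul_le_mul_of_nonneg_left (hπle m) (by positivity)
      simp only [hν]
      nlinarith)
  have hG : (R : ℝ) ^ 2 * (1 - η / 3) - R * C₁ ≤ (gen (R := R) W J j μ).card := by
    have a1 := card_gen (R := R) W J hW0 j μ h1 h2
    have a2 : ((R * R : ℕ) : ℝ) ≤ ((gen (R := R) W J j μ).card
      + Fintype.card S * (R * (2 * ((J + 1) + (R / W + 1) * (2 * J))))
      + Fintype.card S * (Fintype.card S * (2 * W * R)) : ℕ) := by exact_mod_cast a1
    push_cast at a2
    rw [← hs] at a2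
    have a3 : ((R / W : ℕ) : ℝ) ≤ R / W := Nat.cast_div_le
    have a4 : s * (R * (4 * J)) * ((R / W : ℕ) : ℝ) ≤ s * (R * (4 * J)) * (R / W) :=
      mul_le_mul_of_nonneg_left a3 (by positivity)
    have a5 : s * (R * (4 * J)) * (R / W) ≤ R ^ 2 * (η / 3) := by
      rw [← mul_div_assoc, div_le_iff₀ hWr]
      have : (0 : ℝ) ≤ R ^ 2 := by positivity
      nlinarith
    rw [hC₁]
    nlinarith
  have hlow : (1 - η) * (R : ℝ) ^ 2 * π ≤ Ω.card := by
    refine le_trans ?_ hΩc
    rw [← hs, ← hπ]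
    have a1 : s * (s * (s * (2 * W)) * (R * R)) / (η * R * π / 2) = C₂ * R := by
      rw [hC₂]; field_simp; ring
    rw [a1]
    have a2 := mul_le_mul_of_nonneg_right hG hπ0.le
    have a3 := mul_le_mul_of_nonneg_left hR1 (by positivity : (0 : ℝ) ≤ R)
    nlinarith
  have hgood : ∀ w ∈ Ω, ∀ m, Good W J (form j μ w m) :=
    fun w hw m => (mem_filter.mp (hΩG hw)).2.1 m
  refine ⟨fun y => τ (lab W y), Ω, fun y => by simp only [lab_neg], ?_,
    fun w hw m => ⟨(hgood w hw m).1, (hgood w hw m).2.1.trans (Nat.mod_le _ _)⟩, ?_, hlow⟩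
  · intro w hw m a ha
    simp only
    rw [lab_add W J _ (hgood w hw m) a ha]
    exact hΩτ w hw m
  · intro m y
    have a2 : (ν m : ℝ) ≤ (1 + η) * R * π / p m := Nat.floor_le (by have := hp m; positivity)
    exact le_trans (by exact_mod_cast hΩf m y) a2

lemma typ_unit {R : ℕ} {C : Type} {typ : ZMod R → C} (h : ∀ y, typ (-y) = typ y) (σ : ℤˣ)
    (y : ZMod R) : typ (((σ : ℤ) : ZMod R) * y) = typ y := by
  rcases Int.units_eq_one_or σ with rfl | rfl
  · simp
  · simp [h]

lemma sg_eq {J : ℕ} {R x x' z : ℤ} {σ σ' : ℤˣ} (h1 : 2 * (|x| + (J + 1)) < R) (h2 : J + 1 ≤ |x|)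
    (h1' : 2 * (|x'| + (J + 1)) < R) (h2' : J + 1 ≤ |x'|)
    (h : |(σ : ℤ) * x - (σ' : ℤ) * x' - R * z| ≤ J) : σ * sg x = σ' * sg x' := by
  have hz : z = 0 := by
    have a1 : |(σ : ℤ) * x| = |x| := by rw [abs_mul, Int.isUnit_iff_abs_eq.1 σ.isUnit, one_mul]
    have a2 : |(σ' : ℤ) * x'| = |x'| := by
      rw [abs_mul, Int.isUnit_iff_abs_eq.1 σ'.isUnit, one_mul]
    have a3 := abs_le.1 h
    have a4 := abs_le.1 a1.le
    have a5 := abs_le.1 a2.le
    have hR : 0 < R := by have := abs_nonneg x; omega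
    by_contra hz
    rcases lt_or_gt_of_ne hz with hz | hz
    · have : R * z ≤ R * (-1) := mul_le_mul_of_nonneg_left (by omega) hR.le
      omega
    · have : R * 1 ≤ R * z := mul_le_mul_of_nonneg_left (by omega) hR.le
      omega
  subst hz
  have a3 := abs_le.1 h
  unfold sg
  rcases Int.units_eq_one_or σ with rfl | rfl <;> rcases Int.units_eq_one_or σ' with rfl | rfl <;>
    simp only [Units.val_one, Units.val_neg] at a3 <;>
    split_ifs with c1 c2 c2 <;> first
      | rfl
      | (exfalso; rcases abs_cases x with c | c <;> rcases abs_cases x' with c' | c' <;> omega)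

end Types

open Types Vale.Agent.P110.Types

theorem types_prop : TypesProp := by
  intro S _ _ j μ Q U n hQ hU hn J η hη
  have hQr : (0 : ℝ) < Q := by exact_mod_cast hQ
  obtain ⟨R₀, hR₀⟩ := zmod_sets j μ (fun _ : Fin Q => (1 : ℝ) / Q) (fun _ => by positivity)
    (by rw [sum_const, card_univ, Fintype.card_fin, nsmul_eq_mul, mul_one_div, div_self hQr.ne'])
    (fun m => (n m : ℝ) / Q) (fun m => div_pos (by exact_mod_cast hn m) hQr) U
    (fun m σ => by rw [sum_const, hU, nsmul_eq_mul, mul_one_div]) (J + 1) η hη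
  refine ⟨R₀ + 1, fun R hR h1 h2 => ?_⟩
  have : NeZero R := ⟨by omega⟩
  obtain ⟨typ, Ω, hneg, htyp, hwrap, hfib, hlow⟩ := hR₀ R (by omega) h1 h2
  set lift : ZMod R × ZMod R → ℤ × ℤ := fun w => (w.1.valMinAbs, w.2.valMinAbs) with hlift
  have hinj : Function.Injective lift := by
    intro w w' h
    simp only [hlift, Prod.mk.injEq, ZMod.valMinAbs_inj] at h
    exact Prod.ext h.1 h.2
  set x : ℤ × ℤ → S → ℤ := fun w m => ((j m * w.1 + μ m * w.2 : ℤ) : ZMod R).valMinAbs with hx
  have hxl : ∀ w m, x (lift w) m = (form j μ w m).valMinAbs := by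
    intro w m
    simp only [hx, hlift, form]
    push_cast
    rfl
  have hcast : ∀ w m, ((x (lift w) m : ℤ) : ZMod R) = form j μ w m := by
    intro w m; rw [hxl, ZMod.coe_valMinAbs]
  have hw2 : ∀ v ∈ Ω, ∀ m, 2 * (|x (lift v) m| + (J + 1)) < R ∧ J + 1 ≤ |x (lift v) m| := by
    intro v hv m
    have := hwrap v hv m
    rw [hxl, Int.abs_eq_natAbs]
    exact_mod_cast this
  refine ⟨Ω.image lift, x, ?_, ?_, ?_, ?_, ?_⟩
  · intro w _ m
    rw [← ZMod.intCast_zmod_eq_zero_iff_dvd]
    simp only [hx]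
    rw [Int.cast_sub, ZMod.coe_valMinAbs, sub_self]
  · intro w hw m
    obtain ⟨v, hv, rfl⟩ := mem_image.mp hw
    have := (hw2 v hv m).1
    omega
  · intro w hw w' hw' m m' σ σ' hd z
    obtain ⟨v, hv, rfl⟩ := mem_image.mp hw
    obtain ⟨v', hv', rfl⟩ := mem_image.mp hw'
    by_contra hcon
    push Not at hcon
    have hs := sg_eq (hw2 v hv m).1 (hw2 v hv m).2 (hw2 v' hv' m').1 (hw2 v' hv' m').2 hcon
    have h0 : typ (form j μ v' m') ∈ U m' (sg (x (lift v') m')) := by
      simpa [hxl] using htyp v' hv' m' 0 (by positivity)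
    have hσ : ((σ : ℤ) : ZMod R) * ((σ : ℤ) : ZMod R) = 1 := by
      rw [← Int.cast_mul, ← Units.val_mul, Int.units_mul_self, Units.val_one, Int.cast_one]
    have h3 := htyp v hv m (-(σ * ((σ : ℤ) * x (lift v) m - (σ' : ℤ) * x (lift v') m' - R * z)))
      (by
        rw [abs_neg, abs_mul, Int.isUnit_iff_abs_eq.1 σ.isUnit, one_mul]
        push_cast
        omega)
    push_cast at h3
    rw [hcast, hcast, ZMod.natCast_self, ← hxl] at h3
    have e1 : form j μ v m + -(((σ : ℤ) : ZMod R) * (((σ : ℤ) : ZMod R) * form j μ v m -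
        ((σ' : ℤ) : ZMod R) * form j μ v' m' - 0 * (z : ZMod R))) =
        ((σ : ℤ) : ZMod R) * (((σ' : ℤ) : ZMod R) * form j μ v' m') := by
      linear_combination (-form j μ v m) * hσ
    rw [e1, typ_unit hneg, typ_unit hneg] at h3
    have h4 := hd (σ * sg (x (lift v) m))
    rw [← mul_assoc, Int.units_mul_self, one_mul, hs, ← mul_assoc, Int.units_mul_self,
      one_mul] at h4
    exact disjoint_left.1 h4 h3 h0
  · intro m y
    refine le_trans ?_ (hfib m (y : ZMod R))
    rw [filter_image, card_image_of_injective _ hinj]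
    refine Nat.cast_le.mpr (card_le_card ?_)
    intro w hw
    have := mem_filter.mp hw
    refine mem_filter.mpr ⟨this.1, ?_⟩
    rw [← this.2, hcast]
  · rwa [card_image_of_injective _ hinj]

theorem alloc_prop : AllocProp := by
  intro ι _ lo hi n R hlo hR
  classical
  have key : ∀ s : Finset ι, ∃ U : ι → Finset (Fin R), (∀ i ∈ s, (U i).card = n i) ∧
      ∀ i ∈ s, ∀ j ∈ s, i ≠ j → ∀ x : ℝ, lo i ≤ x → x ≤ hi i → lo j ≤ x → x ≤ hi j →
        Disjoint (U i) (U j) := by
    intro s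
    induction s using Finset.induction_on_max_value lo with
    | empty => exact ⟨fun _ => ∅, by simp, by simp⟩
    | insert a s ha hmax ih =>
      obtain ⟨U, hU1, hU2⟩ := ih
      set B : Finset (Fin R) := (s.filter fun j => lo a ≤ hi j).biUnion U with hB
      have h1 : B.card + n a ≤ R := by
        refine le_trans ?_ (hR (lo a))
        have h2 : B.card ≤ ∑ j ∈ s, if lo j ≤ lo a ∧ lo a ≤ hi j then n j else 0 := by
          refine card_biUnion_le.trans ?_
          rw [sum_filter]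
          refine sum_le_sum fun j hj => ?_
          by_cases h : lo a ≤ hi j
          · rw [if_pos h, if_pos ⟨hmax j hj, h⟩, hU1 j hj]
          · rw [if_neg h]
            exact Nat.zero_le _
        refine le_trans ?_ (sum_le_sum_of_subset (subset_univ (insert a s)))
        rw [sum_insert ha, if_pos ⟨le_rfl, hlo a⟩]
        omega
      obtain ⟨D, hD1, hD2⟩ := exists_subset_card_eq (s := Bᶜ) (n := n a) (by
        rw [card_compl, Fintype.card_fin]
        omega)
      have h3 : ∀ j ∈ s, ∀ x : ℝ, lo a ≤ x → x ≤ hi j → Disjoint D (U j) := by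
        intro j hj x h4 h5
        refine disjoint_left.2 fun c hc hc' => mem_compl.1 (hD1 hc) ?_
        exact mem_biUnion.2 ⟨j, mem_filter.2 ⟨hj, h4.trans h5⟩, hc'⟩
      have h4 : ∀ j ∈ s, Function.update U a D j = U j := fun j hj =>
        Function.update_of_ne (fun h : j = a => ha (h ▸ hj)) _ _
      refine ⟨Function.update U a D, fun i hi' => ?_, fun i hi' j hj hij x a1 a2 a3 a4 => ?_⟩
      · rcases mem_insert.1 hi' with rfl | hi'
        · rw [Function.update_self, hD2]
        · rw [h4 i hi', hU1 i hi']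
      · rcases mem_insert.1 hi' with b1 | b1 <;> rcases mem_insert.1 hj with b2 | b2
        · exact absurd (b1.trans b2.symm) hij
        · subst b1
          rw [Function.update_self, h4 j b2]
          exact h3 j b2 x a1 a4
        · subst b2
          rw [Function.update_self, h4 i b1]
          exact (h3 i b1 x a3 a2).symm
        · rw [h4 i b1, h4 j b2]
          exact hU2 i b1 j b2 hij x a1 a2 a3 a4
  obtain ⟨U, h1, h2⟩ := key univ
  exact ⟨U, fun i => h1 i (mem_univ i), fun i j => h2 i (mem_univ i) j (mem_univ j)⟩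

end Vale.Agent.P130
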